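import Vale.Agent.P371.Orbital

/-!
Bound states of `-d²/dx² - W` on the line and upper bounds on their moments.
-/

namespace Vale.Agent.P371

open MeasureTheory Filter Real
open scoped Topology

/-- A scalar potential for the exponent `γ`: measurable, nonnegative, `W^(γ+1/2)` integrable. -/
structure Potential (γ : ℝ) (W : ℝ → ℝ) : Prop where
  meas : Measurable W
  nonneg : ∀ x, 0 ≤ W x
  int : Integrable fun x => W x ^ (γ + 1 / 2)

/-- `ψ` is an `H¹` eigenfunction of the form `∫|ψ'|² - ∫W|ψ|²` with eigenvalue `lam`. -/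
def IsBoundState (W : ℝ → ℝ) (lam : ℝ) (ψ : ℝ → ℂ) : Prop :=
  ∃ ψ' : ℝ → ℂ, Orbital ψ ψ' ∧ ∀ η η' : ℝ → ℂ, Orbital η η' →
    (∫ x, star (η' x) * ψ' x) - ∫ x, (W x : ℂ) * (star (η x) * ψ x)
      = (lam : ℂ) * ∫ x, star (η x) * ψ x

/-- The ratios whose supremum is the scalar one dimensional Lieb-Thirring constant `L_γ(1)`. -/
def ratios (γ : ℝ) : Set ℝ :=
  {r | ∃ W : ℝ → ℝ, Potential γ W ∧ 0 < ∫ x, W x ^ (γ + 1 / 2) ∧
    ∃ (n : ℕ) (lam : Fin n → ℝ) (ψ : Fin n → ℝ → ℂ),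
      (∀ i, lam i < 0 ∧ IsBoundState W (lam i) (ψ i)) ∧
      (∀ i j, ∫ x, star (ψ i x) * ψ j x = if i = j then 1 else 0) ∧
      r = (∑ i, |lam i| ^ γ) / ∫ x, W x ^ (γ + 1 / 2)}

/-- The sharp constant at `γ = 1`. -/
noncomputable def lt1 : ℝ := 4 / (3 * √3 * π)

lemma lt1_pos : 0 < lt1 := by unfold lt1; positivity

lemma mul_le_lt1 {w ρ : ℝ} (hw : 0 ≤ w) (hρ : 0 ≤ ρ) :
    w * ρ ≤ lt1 * w ^ (3 / 2 : ℝ) + π ^ 2 / 4 * ρ ^ 3 := by
  obtain ⟨r, hr, rfl⟩ : ∃ r, 0 ≤ r ∧ w = 3 / 4 * r ^ 2 := by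
    refine ⟨√(4 / 3 * w), sqrt_nonneg _, ?_⟩
    rw [sq_sqrt (by positivity)]; ring
  have hs : (3 / 4 * r ^ 2) ^ (3 / 2 : ℝ) = (√3 / 2 * r) ^ 3 := by
    have h : 3 / 4 * r ^ 2 = (√3 / 2 * r) ^ (2 : ℝ) := by
      rw [rpow_two, mul_pow, div_pow, sq_sqrt (by norm_num)]; norm_num
    rw [h, ← rpow_mul (by positivity)]
    norm_num
  rw [hs]
  unfold lt1
  have h3 : √3 ^ 2 = 3 := sq_sqrt (by norm_num)
  have e : 4 / (3 * √3 * π) * (√3 / 2 * r) ^ 3 + π ^ 2 / 4 * ρ ^ 3 - 3 / 4 * r ^ 2 * ρ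
      = (r - π * ρ) ^ 2 * (2 * r + π * ρ) / (4 * π) := by
    field_simp
    linear_combination 16 * r ^ 3 * h3
  have : 0 ≤ (r - π * ρ) ^ 2 * (2 * r + π * ρ) / (4 * π) := by positivity
  linarith

lemma integrable_mul_dens {n : ℕ} {W : ℝ → ℝ} {ψ ψ' : Fin n → ℝ → ℂ}
    (h : ∀ i, Orbital (ψ i) (ψ' i)) (hm : Measurable W) (h0 : ∀ x, 0 ≤ W x)
    (hW : Integrable fun x => W x ^ (3 / 2 : ℝ))
    (hd : Integrable fun x => dens ψ x ^ 3) : Integrable fun x => W x * dens ψ x := by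
  refine ((hW.const_mul lt1).add (hd.const_mul (π ^ 2 / 4))).mono'
    (hm.aestronglyMeasurable.mul
      (continuous_finsetSum _ fun i _ => (h i).continuous.norm.pow 2).aestronglyMeasurable)
    (.of_forall fun x => ?_)
  have hρ : 0 ≤ dens ψ x := Finset.sum_nonneg fun i _ => sq_nonneg _
  rw [Real.norm_of_nonneg (mul_nonneg (h0 x) hρ), Pi.add_apply]
  exact mul_le_lt1 (h0 x) hρ

/-- The sharp variational Lieb-Thirring inequality at `γ = 1`. -/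
theorem trial_le {n : ℕ} {W : ℝ → ℝ} {ψ ψ' : Fin n → ℝ → ℂ}
    (h : ∀ i, Orbital (ψ i) (ψ' i))
    (horth : ∀ i j, ∫ x, star (ψ i x) * ψ j x = if i = j then 1 else 0)
    (hm : Measurable W) (h0 : ∀ x, 0 ≤ W x) (hW : Integrable fun x => W x ^ (3 / 2 : ℝ)) :
    Integrable (fun x => W x * dens ψ x) ∧
      ∫ x, W x * dens ψ x ≤ lt1 * (∫ x, W x ^ (3 / 2 : ℝ)) + ∫ x, dens ψ' x := by
  obtain ⟨hd, hk⟩ := kinetic_orbitals h horth
  have hi := integrable_mul_dens h hm h0 hW hd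
  refine ⟨hi, ?_⟩
  calc ∫ x, W x * dens ψ x
      ≤ ∫ x, (lt1 * W x ^ (3 / 2 : ℝ) + π ^ 2 / 4 * dens ψ x ^ 3) :=
        integral_mono hi ((hW.const_mul _).add (hd.const_mul _)) fun x =>
          mul_le_lt1 (h0 x) (Finset.sum_nonneg fun i _ => sq_nonneg _)
    _ ≤ _ := by
        rw [integral_add (hW.const_mul _) (hd.const_mul _), integral_const_mul, integral_const_mul]
        linarith

lemma rpow_three_halves_eq (a : ℝ) : a ^ ((1 : ℝ) + 1 / 2) = a ^ (3 / 2 : ℝ) := by norm_num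

lemma mul_sq_le_of_one_lt {p : ℝ} (hp : 3 / 2 ≤ p) {w a : ℝ} (hw : 0 ≤ w) (ha : 0 ≤ a) :
    w * a ≤ w ^ p + a + a ^ 3 := by
  have h3 : 0 ≤ a ^ 3 := by positivity
  have hwp : 0 ≤ w ^ p := by positivity
  rcases le_or_gt w 1 with h | h
  · nlinarith [mul_le_mul_of_nonneg_right h ha]
  · have h1 : w ^ (3 / 2 : ℝ) ≤ w ^ p := rpow_le_rpow_of_exponent_le h.le hp
    obtain ⟨s, hs, rfl⟩ : ∃ s, 0 ≤ s ∧ w = s ^ 2 := ⟨√w, sqrt_nonneg _, (sq_sqrt hw).symm⟩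
    have h2 : (s ^ 2) ^ (3 / 2 : ℝ) = s ^ 3 := by
      rw [← rpow_two, ← rpow_mul hs]; norm_num
    rcases le_total a s with h4 | h4
    · nlinarith [mul_le_mul_of_nonneg_left h4 (sq_nonneg s)]
    · nlinarith [mul_le_mul_of_nonneg_right (pow_le_pow_left₀ hs h4 2) ha]

/-- Every `H¹` function is in `L⁶`. -/
lemma Orbital.integrable_sq_cube {ψ ψ' : ℝ → ℂ} (h : Orbital ψ ψ') :
    Integrable fun x => (‖ψ x‖ ^ 2) ^ 3 := by
  rcases eq_or_ne (∫ x, ‖ψ x‖ ^ 2) 0 with hz | hz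
  · have := (integral_eq_zero_iff_of_nonneg (fun x => sq_nonneg ‖ψ x‖) h.sq).1 hz
    refine (integrable_zero _ _ _).congr (this.mono fun x hx => ?_)
    simp only [Pi.zero_apply] at hx
    simp [hx]
  set N := ∫ x, ‖ψ x‖ ^ 2 with hN
  have hNp : 0 < N := lt_of_le_of_ne (integral_nonneg fun x => sq_nonneg _) hz.symm
  have hn : Orbital (fun x => ((√N)⁻¹ : ℝ) * ψ x) (fun x => ((√N)⁻¹ : ℝ) * ψ' x) := by
    refine ⟨h.memLp.const_mul _, h.memLp'.const_mul _, fun a b => ?_⟩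
    rw [intervalIntegral.integral_const_mul, ← h.ftc, mul_sub]
  have hd := (kinetic_orbitals (n := 1) (fun _ => hn) fun i j => ?_).1
  swap
  · rw [Subsingleton.elim i j, if_pos rfl]
    have e : ∀ x, star ((((√N)⁻¹ : ℝ) : ℂ) * ψ x) * ((((√N)⁻¹ : ℝ) : ℂ) * ψ x)
        = ((N⁻¹ * ‖ψ x‖ ^ 2 : ℝ) : ℂ) := fun x => by
      rw [Complex.star_def, Complex.conj_mul', norm_mul, Complex.norm_real, ← Complex.ofReal_pow,
        mul_pow, Real.norm_eq_abs, sq_abs, inv_pow, sq_sqrt hNp.le]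
    rw [integral_congr_ae (.of_forall e), integral_complex_ofReal, integral_const_mul, ← hN,
      inv_mul_cancel₀ hz, Complex.ofReal_one]
  refine (hd.const_mul (N ^ 3)).congr (.of_forall fun x => ?_)
  simp only [dens, Finset.univ_unique, Finset.sum_singleton, norm_mul, Complex.norm_real,
    mul_pow, Real.norm_eq_abs, sq_abs, inv_pow, sq_sqrt hNp.le]
  field_simp

/-- Every quadratic form value is a genuine integral. -/
lemma Potential.integrable_form {γ : ℝ} {W : ℝ → ℝ} (hW : Potential γ W) (hγ : 1 ≤ γ)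
    {ψ ψ' : ℝ → ℂ} (h : Orbital ψ ψ') : Integrable fun x => W x * ‖ψ x‖ ^ 2 := by
  refine ((hW.int.add h.sq).add h.integrable_sq_cube).mono'
    (hW.meas.aestronglyMeasurable.mul (h.continuous.norm.pow 2).aestronglyMeasurable)
    (.of_forall fun x => ?_)
  rw [Real.norm_of_nonneg (mul_nonneg (hW.nonneg x) (sq_nonneg _))]
  exact mul_sq_le_of_one_lt (by linarith) (hW.nonneg x) (sq_nonneg _)

/-- The quadratic form at a normalized eigenfunction equals the eigenvalue. -/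
lemma IsBoundState.energy {W : ℝ → ℝ} {lam : ℝ} {ψ : ℝ → ℂ} (h : IsBoundState W lam ψ)
    (hn : ∫ x, star (ψ x) * ψ x = 1) :
    ∃ ψ', Orbital ψ ψ' ∧ (∫ x, ‖ψ' x‖ ^ 2) - ∫ x, W x * ‖ψ x‖ ^ 2 = lam := by
  obtain ⟨ψ', ho, he⟩ := h
  refine ⟨ψ', ho, ?_⟩
  have := he ψ ψ' ho
  rw [hn, mul_one] at this
  simp only [Complex.star_def, Complex.conj_mul', ← Complex.ofReal_pow, ← Complex.ofReal_mul,
    integral_complex_ofReal, ← Complex.ofReal_sub] at this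
  exact_mod_cast this

/-- Every finite sum of eigenvalues of `-d²/dx² - W` obeys the sharp bound. -/
theorem sum_abs_le {n : ℕ} {W : ℝ → ℝ} (hW : Potential 1 W) {lam : Fin n → ℝ}
    {ψ : Fin n → ℝ → ℂ} (hb : ∀ i, lam i < 0 ∧ IsBoundState W (lam i) (ψ i))
    (horth : ∀ i j, ∫ x, star (ψ i x) * ψ j x = if i = j then 1 else 0) :
    ∑ i, |lam i| ≤ lt1 * ∫ x, W x ^ ((1 : ℝ) + 1 / 2) := by
  choose ψ' ho he using fun i => (hb i).2.energy (by simpa using horth i i)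
  have hi : Integrable fun x => W x ^ (3 / 2 : ℝ) :=
    hW.int.congr (.of_forall fun x => rpow_three_halves_eq _)
  obtain ⟨-, ht⟩ := trial_le ho horth hW.meas hW.nonneg hi
  have h1 : ∫ x, W x * dens ψ x = ∑ i, ∫ x, W x * ‖ψ i x‖ ^ 2 := by
    simp only [dens, Finset.mul_sum]
    exact integral_finsetSum _ fun i _ => hW.integrable_form le_rfl (ho i)
  have h2 : ∫ x, dens ψ' x = ∑ i, ∫ x, ‖ψ' i x‖ ^ 2 :=
    integral_finsetSum _ fun i _ => (ho i).sq'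
  simp only [rpow_three_halves_eq]
  have h3 : ∀ i, |lam i| = (∫ x, W x * ‖ψ i x‖ ^ 2) - ∫ x, ‖ψ' i x‖ ^ 2 := fun i => by
    rw [abs_of_neg (hb i).1, ← he i]; ring
  simp only [h3, Finset.sum_sub_distrib]
  linarith

theorem ratios_one_le {r : ℝ} (hr : r ∈ ratios 1) : r ≤ lt1 := by
  obtain ⟨W, hW, hpos, n, lam, ψ, hb, horth, rfl⟩ := hr
  rw [div_le_iff₀ hpos]
  simpa using sum_abs_le hW hb horth

end Vale.Agent.P371
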