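import Vale.Agent.P135.BorsukUlam

/-!
# Brouwer's fixed point theorem for compact convex sets in finite dimension
-/

namespace Vale.Agent.P371

open Metric

/-- Brouwer on the closed sup-norm unit ball of `ℝⁿ`. -/
theorem brouwer_supBall {n : ℕ} (f : (Fin n → ℝ) → (Fin n → ℝ))
    (hc : ContinuousOn f (closedBall 0 1))
    (hmaps : Set.MapsTo f (closedBall 0 1) (closedBall 0 1)) :
    ∃ x ∈ closedBall (0 : Fin n → ℝ) 1, f x = x := by
  set P : (Fin n → ℝ) → (Fin n → ℝ) := fun z => (max 1 ‖z‖)⁻¹ • z with hP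
  have hpos : ∀ z : Fin n → ℝ, 0 < max 1 ‖z‖ := fun z => lt_of_lt_of_le one_pos (le_max_left _ _)
  have hPmem : ∀ z, P z ∈ closedBall (0 : Fin n → ℝ) 1 := by
    intro z
    rw [mem_closedBall_zero_iff, hP, norm_smul, Real.norm_of_nonneg (inv_nonneg.2 (hpos z).le),
      inv_mul_le_one₀ (hpos z)]
    exact le_max_right _ _
  have hPc : Continuous P :=
    ((continuous_const.max continuous_norm).inv₀ fun z => (hpos z).ne').smul continuous_id
  have hfP : ContinuousOn (fun y : Fin n → ℝ => f (P ((2 : ℝ) • y))) (closedBall 0 1) :=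
    hc.comp ((hPc.comp (continuous_const_smul (2 : ℝ))).continuousOn) fun z _ => hPmem _
  have hmin : Continuous fun y : Fin n → ℝ => min (1 : ℝ) (2 - 2 * ‖y‖) := by fun_prop
  obtain ⟨y, hy, hFy⟩ := P135.ball_odd_zero
    (fun y => (2 : ℝ) • y - min 1 (2 - 2 * ‖y‖) • f (P ((2 : ℝ) • y)))
    (((continuous_const_smul (2 : ℝ)).continuousOn).sub (hmin.continuousOn.smul hfP))
    (fun y hy => by simp [norm_neg, hy])
  rw [mem_closedBall_zero_iff] at hy
  rw [sub_eq_zero] at hFy
  have hf : ‖f (P ((2 : ℝ) • y))‖ ≤ 1 := mem_closedBall_zero_iff.1 (hmaps (hPmem _))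
  have hn : 2 * ‖y‖ ≤ |min 1 (2 - 2 * ‖y‖)| := by
    have := congrArg norm hFy
    rw [norm_smul, norm_smul, Real.norm_two, Real.norm_eq_abs] at this
    linarith [mul_le_of_le_one_right (abs_nonneg (min 1 (2 - 2 * ‖y‖))) hf]
  have hy2 : 2 * ‖y‖ ≤ 1 := by
    rw [abs_of_nonneg (le_min zero_le_one (by linarith))] at hn
    exact hn.trans (min_le_left _ _)
  rw [min_eq_left (by linarith), one_smul] at hFy
  have hPy : P ((2 : ℝ) • y) = (2 : ℝ) • y := by
    rw [hP]; simp only
    rw [norm_smul, Real.norm_two, max_eq_left hy2, inv_one, one_smul]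
  rw [hPy] at hFy
  exact ⟨(2 : ℝ) • y, by rwa [mem_closedBall_zero_iff, norm_smul, Real.norm_two], hFy.symm⟩

/-- A nonempty closed convex subset of a real inner product space has a continuous retraction. -/
theorem exists_retraction {E : Type*} [NormedAddCommGroup E] [InnerProductSpace ℝ E]
    [CompleteSpace E] {K : Set E} (hne : K.Nonempty) (hcl : IsClosed K) (hconv : Convex ℝ K) :
    ∃ r : E → E, Continuous r ∧ (∀ x, r x ∈ K) ∧ ∀ x ∈ K, r x = x := by
  choose r hr hrmin using
    fun u => exists_norm_eq_iInf_of_complete_convex hne hcl.isComplete hconv u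
  have hi : ∀ u, ∀ w ∈ K, inner ℝ (u - r u) (w - r u) ≤ (0 : ℝ) := fun u =>
    (norm_eq_iInf_iff_real_inner_le_zero hconv (hr u)).1 (hrmin u)
  refine ⟨r, ?_, hr, fun x hx => ?_⟩
  · refine (LipschitzWith.of_dist_le_mul (K := 1) fun u v => ?_).continuous
    rw [NNReal.coe_one, one_mul, dist_eq_norm, dist_eq_norm]
    have h1 := hi u (r v) (hr v)
    have h2 := hi v (r u) (hr u)
    have e1 : inner ℝ (u - r u) (r v - r u) =
        -(inner ℝ (u - r u) (r u - r v) : ℝ) := by
      rw [← inner_neg_right, neg_sub]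
    have key : ‖r u - r v‖ * ‖r u - r v‖ ≤ ‖u - v‖ * ‖r u - r v‖ := by
      have e2 : (inner ℝ (u - v) (r u - r v) : ℝ) =
          inner ℝ (u - r u) (r u - r v) - inner ℝ (v - r v) (r u - r v)
            + inner ℝ (r u - r v) (r u - r v) := by
        rw [← inner_sub_left, ← inner_add_left]
        congr 1
        abel
      have e3 := real_inner_self_eq_norm_mul_norm (r u - r v)
      have := real_inner_le_norm (u - v) (r u - r v)
      linarith
    rcases (norm_nonneg (r u - r v)).eq_or_lt with h | h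
    · rw [← h]; exact norm_nonneg _
    · exact le_of_mul_le_mul_right key h
  · have h := hi x x hx
    have : ‖x - r x‖ = 0 := by
      rw [real_inner_self_eq_norm_mul_norm] at h
      nlinarith [norm_nonneg (x - r x)]
    exact (sub_eq_zero.1 (norm_eq_zero.1 this)).symm

/-- **Brouwer's fixed point theorem**: a continuous self-map of a nonempty compact convex set in
a finite-dimensional real normed space has a fixed point. -/
theorem brouwer {E : Type*} [NormedAddCommGroup E] [NormedSpace ℝ E] [FiniteDimensional ℝ E]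
    {K : Set E} (hne : K.Nonempty) (hcp : IsCompact K) (hconv : Convex ℝ K) {f : E → E}
    (hc : ContinuousOn f K) (hmaps : Set.MapsTo f K K) : ∃ x ∈ K, f x = x := by
  set n := Module.finrank ℝ E with hn
  let eE : E ≃L[ℝ] EuclideanSpace ℝ (Fin n) :=
    ContinuousLinearEquiv.ofFinrankEq (by simp [hn])
  let eP : EuclideanSpace ℝ (Fin n) ≃L[ℝ] (Fin n → ℝ) := EuclideanSpace.equiv (Fin n) ℝ
  set K' : Set (EuclideanSpace ℝ (Fin n)) := eE '' K with hK'
  have hcp' : IsCompact K' := hcp.image eE.continuous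
  have hconv' : Convex ℝ K' := hconv.linear_image eE.toLinearEquiv.toLinearMap
  obtain ⟨r, hrc, hrK, hrid⟩ := exists_retraction (hne.image _) hcp'.isClosed hconv'
  obtain ⟨C, hC⟩ := (hcp'.image eP.continuous).isBounded.exists_norm_le
  set R : ℝ := max C 1 with hR
  have hR0 : 0 < R := lt_of_lt_of_le one_pos (le_max_right _ _)
  -- the map on the unit ball
  set g : (Fin n → ℝ) → (Fin n → ℝ) := fun z =>
    R⁻¹ • eP (eE (f (eE.symm (r (eP.symm (R • z)))))) with hg
  have hin : ∀ z, eE.symm (r (eP.symm (R • z))) ∈ K := by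
    intro z
    obtain ⟨x, hx, hxe⟩ := hrK (eP.symm (R • z))
    rw [← hxe, eE.symm_apply_apply]; exact hx
  have hgc : Continuous g := by
    have h1 : Continuous fun z => eE.symm (r (eP.symm (R • z))) :=
      eE.symm.continuous.comp (hrc.comp (eP.symm.continuous.comp (continuous_const_smul R)))
    exact (eP.continuous.comp (eE.continuous.comp (hc.comp_continuous h1 hin))).const_smul R⁻¹
  have hgm : Set.MapsTo g (closedBall 0 1) (closedBall 0 1) := by
    intro z _
    rw [mem_closedBall_zero_iff, hg, norm_smul, Real.norm_of_nonneg (inv_nonneg.2 hR0.le),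
      inv_mul_le_one₀ hR0]
    exact (hC _ ⟨_, ⟨_, hmaps (hin z), rfl⟩, rfl⟩).trans (le_max_left _ _)
  obtain ⟨z, -, hz⟩ := brouwer_supBall g hgc.continuousOn hgm
  set x := eE.symm (r (eP.symm (R • z))) with hx
  refine ⟨x, hin z, ?_⟩
  have h1 : R • z = eP (eE (f x)) := by
    conv_lhs => rw [← hz, hg]
    simp only [smul_smul, mul_inv_cancel₀ hR0.ne', one_smul, hx]
  have h2 : r (eP.symm (R • z)) = eE (f x) := by
    rw [h1, eP.symm_apply_apply]
    exact hrid _ ⟨f x, hmaps (hin z), rfl⟩
  calc f x = eE.symm (eE (f x)) := (eE.symm_apply_apply _).symm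
    _ = eE.symm (r (eP.symm (R • z))) := by rw [h2]
    _ = x := hx.symm

end Vale.Agent.P371
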