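import Mathlib

/-!
Symmetric partial sums of the partial fraction expansion of the cotangent, and the kernel
inequality behind the calibration proof of the one dimensional Lieb-Thirring inequality.
-/

namespace Vale.Agent.P371

open Filter Real
open scoped Topology

/-- The symmetric partial sum over the integers `-N, ..., N`. -/
def symSum {α : Type*} [AddCommMonoid α] (N : ℕ) (f : ℤ → α) : α :=
  f 0 + ∑ n ∈ Finset.range N, (f ((n : ℤ) + 1) + f (-((n : ℤ) + 1)))

section SymSum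

variable {α β : Type*} [AddCommMonoid α] [AddCommMonoid β]

lemma symSum_zero (f : ℤ → α) : symSum 0 f = f 0 := by simp [symSum]

lemma symSum_succ (N : ℕ) (f : ℤ → α) :
    symSum (N + 1) f = symSum N f + (f ((N : ℤ) + 1) + f (-((N : ℤ) + 1))) := by
  simp [symSum, Finset.sum_range_succ, add_assoc]

lemma map_symSum {F : Type*} [FunLike F α β] [AddMonoidHomClass F α β] (φ : F) (N : ℕ)
    (f : ℤ → α) : φ (symSum N f) = symSum N fun k => φ (f k) := by
  simp [symSum, map_add, map_sum]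

lemma symSum_add (N : ℕ) (f g : ℤ → α) :
    symSum N (fun k => f k + g k) = symSum N f + symSum N g := by
  simp only [symSum, Finset.sum_add_distrib]
  abel

lemma symSum_mono {γ : Type*} [AddCommMonoid γ] [PartialOrder γ] [IsOrderedAddMonoid γ]
    {N : ℕ} {f g : ℤ → γ} (h : ∀ k, f k ≤ g k) : symSum N f ≤ symSum N g :=
  add_le_add (h 0) (Finset.sum_le_sum fun _ _ => add_le_add (h _) (h _))

end SymSum

lemma symSum_sub (N : ℕ) (f g : ℤ → ℝ) :
    symSum N (fun k => f k - g k) = symSum N f - symSum N g := by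
  simp only [symSum, Finset.sum_sub_distrib, Finset.sum_add_distrib]
  ring

lemma symSum_div (N : ℕ) (f : ℤ → ℝ) (r : ℝ) :
    symSum N (fun k => f k / r) = symSum N f / r := by
  simp only [symSum, add_div, Finset.sum_div]

lemma abs_symSum_le (N : ℕ) (f : ℤ → ℝ) : |symSum N f| ≤ symSum N fun k => |f k| := by
  induction N with
  | zero => simp [symSum_zero]
  | succ N ih =>
    rw [symSum_succ, symSum_succ]
    exact (abs_add_le _ _).trans (add_le_add ih (abs_add_le _ _))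

/-- The `k`-th simple fraction. -/
noncomputable def frac (z : ℝ) (k : ℤ) : ℝ := 1 / (z - 2 * (k : ℝ))

/-- Partial sums of `(π / 2) cot (π z / 2)`. -/
noncomputable def cotSum (N : ℕ) (z : ℝ) : ℝ := symSum N (frac z)

/-- Partial sums of the divided difference of `(π / 2) cot (π z / 2)`. -/
noncomputable def prodSum (N : ℕ) (x y : ℝ) : ℝ := symSum N fun k => frac x k * frac y k

/-- The residual weight of a triple. -/
noncomputable def kerN (N : ℕ) (x y : ℝ) : ℝ := prodSum N x y - cotSum N x * cotSum N y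

lemma sub_two_mul_ne_zero {z : ℝ} (h0 : 0 < z) (h2 : z < 2) (k : ℤ) : z - 2 * (k : ℝ) ≠ 0 := by
  rcases le_or_gt k 0 with hk | hk
  · have : (k : ℝ) ≤ 0 := mod_cast hk
    linarith
  · have : (1 : ℝ) ≤ k := mod_cast hk
    linarith

lemma abs_frac_le {d z : ℝ} (hd : 0 < d) (hd1 : d ≤ 1) (h0 : d ≤ z) (h2 : z ≤ 2 - d) (k : ℤ) :
    |frac z k| ≤ 2 / d / (|(k : ℝ)| + 1) := by
  have hne := sub_two_mul_ne_zero (z := z) (by linarith) (by linarith) k
  have key : d * (|(k : ℝ)| + 1) / 2 ≤ |z - 2 * (k : ℝ)| := by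
    rcases le_or_gt k 0 with hk | hk
    · have hk' : (k : ℝ) ≤ 0 := mod_cast hk
      rw [abs_of_nonpos hk', abs_of_pos (by linarith)]
      nlinarith
    · have hk' : (1 : ℝ) ≤ k := mod_cast hk
      rw [abs_of_pos (by linarith : (0 : ℝ) < k), abs_of_neg (by linarith)]
      nlinarith
  rw [frac, one_div, abs_inv]
  refine (inv_anti₀ (by positivity) key).trans (le_of_eq ?_)
  field_simp

lemma symSum_inv_sq_le (N : ℕ) :
    symSum N (fun k => 1 / (|(k : ℝ)| + 1) ^ 2) ≤ 5 - 2 / ((N : ℝ) + 1) := by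
  induction N with
  | zero => rw [symSum_zero]; norm_num
  | succ N ih =>
    rw [symSum_succ]
    have hN : 0 < (N : ℝ) + 1 := by positivity
    push_cast
    rw [abs_neg, abs_of_pos hN]
    have h : 1 / ((N : ℝ) + 1 + 1) ^ 2 ≤ 1 / ((N : ℝ) + 1) - 1 / ((N : ℝ) + 1 + 1) := by
      rw [div_sub_div _ _ hN.ne' (by positivity), div_le_div_iff₀ (by positivity) (by positivity)]
      nlinarith
    have e2 : ∀ r : ℝ, 2 / r = 2 * (1 / r) := fun r => by ring
    rw [e2] at ih ⊢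
    linarith

lemma symSum_abs_frac_mul_le {d x y : ℝ} (hd : 0 < d) (hd1 : d ≤ 1) (hx0 : d ≤ x)
    (hx2 : x ≤ 2 - d) (hy0 : d ≤ y) (hy2 : y ≤ 2 - d) (N : ℕ) :
    symSum N (fun k => |frac x k| * |frac y k|) ≤ 20 / d ^ 2 := by
  calc symSum N (fun k => |frac x k| * |frac y k|)
      ≤ symSum N fun k => 4 / d ^ 2 * (1 / (|(k : ℝ)| + 1) ^ 2) := by
        refine symSum_mono fun k => ?_
        calc _ ≤ 2 / d / (|(k : ℝ)| + 1) * (2 / d / (|(k : ℝ)| + 1)) :=
              mul_le_mul (abs_frac_le hd hd1 hx0 hx2 k) (abs_frac_le hd hd1 hy0 hy2 k)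
                (abs_nonneg _) (by positivity)
          _ = _ := by field_simp; ring
    _ = 4 / d ^ 2 * symSum N fun k => 1 / (|(k : ℝ)| + 1) ^ 2 :=
        (map_symSum (AddMonoidHom.mulLeft (4 / d ^ 2)) N _).symm
    _ ≤ 4 / d ^ 2 * 5 := by
        refine mul_le_mul_of_nonneg_left ((symSum_inv_sq_le N).trans ?_) (by positivity)
        have : 0 ≤ 2 / ((N : ℝ) + 1) := by positivity
        linarith
    _ = 20 / d ^ 2 := by ring

lemma abs_prodSum_le {d x y : ℝ} (hd : 0 < d) (hd1 : d ≤ 1) (hx0 : d ≤ x)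
    (hx2 : x ≤ 2 - d) (hy0 : d ≤ y) (hy2 : y ≤ 2 - d) (N : ℕ) :
    |prodSum N x y| ≤ 20 / d ^ 2 := by
  refine (abs_symSum_le N _).trans ?_
  simp only [abs_mul]
  exact symSum_abs_frac_mul_le hd hd1 hx0 hx2 hy0 hy2 N

lemma abs_cotSum_le {d z : ℝ} (hd : 0 < d) (hd1 : d ≤ 1) (h0 : d ≤ z) (h2 : z ≤ 2 - d) (N : ℕ) :
    |cotSum N z| ≤ 82 / d ^ 2 := by
  have hz0 : 0 < z := lt_of_lt_of_le hd h0
  have hz2 : z < 2 := by linarith
  have hterm : ∀ n : ℕ, |frac z ((n : ℤ) + 1) + frac z (-((n : ℤ) + 1))|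
      ≤ 4 * (|frac z ((n : ℤ) + 1)| * |frac z (-((n : ℤ) + 1))|) := by
    intro n
    have e1 := sub_two_mul_ne_zero hz0 hz2 ((n : ℤ) + 1)
    have e2 := sub_two_mul_ne_zero hz0 hz2 (-((n : ℤ) + 1))
    have e : frac z ((n : ℤ) + 1) + frac z (-((n : ℤ) + 1))
        = 2 * z * (frac z ((n : ℤ) + 1) * frac z (-((n : ℤ) + 1))) := by
      unfold frac
      push_cast at e1 e2 ⊢
      rw [div_mul_div_comm, div_add_div _ _ e1 e2, mul_div_assoc']
      congr 1
      ring
    rw [e, abs_mul, abs_mul (frac _ _), abs_of_pos (by linarith : (0 : ℝ) < 2 * z)]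
    exact mul_le_mul_of_nonneg_right (by linarith) (by positivity)
  have hk : ∀ n : ℕ, |frac z ((n : ℤ) + 1)| * |frac z (-((n : ℤ) + 1))|
      ≤ 4 / d ^ 2 * (1 / (|(((n : ℤ) + 1 : ℤ) : ℝ)| + 1) ^ 2) := by
    intro n
    calc _ ≤ 2 / d / (|(((n : ℤ) + 1 : ℤ) : ℝ)| + 1)
          * (2 / d / (|((-((n : ℤ) + 1) : ℤ) : ℝ)| + 1)) :=
          mul_le_mul (abs_frac_le hd hd1 h0 h2 _) (abs_frac_le hd hd1 h0 h2 _)
            (abs_nonneg _) (by positivity)
      _ = _ := by push_cast; rw [abs_neg]; field_simp; ring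
  have hS : symSum N (fun k => 1 / (|(k : ℝ)| + 1) ^ 2) ≤ 5 := by
    refine (symSum_inv_sq_le N).trans ?_
    have : 0 ≤ 2 / ((N : ℝ) + 1) := by positivity
    linarith
  simp only [symSum, Int.cast_neg, abs_neg, Int.cast_zero, abs_zero, zero_add, one_pow, div_one]
    at hS
  have hf0 : |frac z 0| ≤ 2 / d := by simpa using abs_frac_le hd hd1 h0 h2 0
  have hd2 : 2 / d ≤ 2 / d ^ 2 := by
    refine div_le_div_of_nonneg_left zero_le_two (by positivity) ?_
    nlinarith
  calc |cotSum N z|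
      ≤ |frac z 0| + ∑ n ∈ Finset.range N, |frac z ((n : ℤ) + 1) + frac z (-((n : ℤ) + 1))| :=
        (abs_add_le _ _).trans (add_le_add le_rfl (Finset.abs_sum_le_sum_abs _ _))
    _ ≤ 2 / d ^ 2 + ∑ n ∈ Finset.range N,
          16 / d ^ 2 * (1 / (|(((n : ℤ) + 1 : ℤ) : ℝ)| + 1) ^ 2) := by
        refine add_le_add (hf0.trans hd2) (Finset.sum_le_sum fun n _ => (hterm n).trans ?_)
        refine (mul_le_mul_of_nonneg_left (hk n) (by norm_num)).trans (le_of_eq ?_)
        ring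
    _ ≤ 2 / d ^ 2 + 16 / d ^ 2 * 4 := by
        rw [← Finset.mul_sum]
        refine add_le_add le_rfl (mul_le_mul_of_nonneg_left ?_ (by positivity))
        simp only [Finset.sum_add_distrib] at hS
        have : 0 ≤ ∑ n ∈ Finset.range N, (1 : ℝ) / (|(((n : ℤ) + 1 : ℤ) : ℝ)| + 1) ^ 2 :=
          Finset.sum_nonneg fun n _ => by positivity
        linarith
    _ ≤ 82 / d ^ 2 := by
        have : 0 ≤ 1 / d ^ 2 := by positivity
        linarith [show 2 / d ^ 2 + 16 / d ^ 2 * 4 = 66 * (1 / d ^ 2) by ring,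
          show 82 / d ^ 2 = 82 * (1 / d ^ 2) by ring]

lemma abs_kerN_le {d x y : ℝ} (hd : 0 < d) (hd1 : d ≤ 1) (hx0 : d ≤ x)
    (hx2 : x ≤ 2 - d) (hy0 : d ≤ y) (hy2 : y ≤ 2 - d) (N : ℕ) :
    |kerN N x y| ≤ 20 / d ^ 2 + (82 / d ^ 2) ^ 2 := by
  refine (abs_sub _ _).trans (add_le_add (abs_prodSum_le hd hd1 hx0 hx2 hy0 hy2 N) ?_)
  rw [abs_mul, sq]
  exact mul_le_mul (abs_cotSum_le hd hd1 hx0 hx2 N) (abs_cotSum_le hd hd1 hy0 hy2 N)
    (abs_nonneg _) (by positivity)

lemma mem_integerComplement_of_mem {x : ℝ} (h0 : 0 < x) (h1 : x < 1) :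
    (x : ℂ) ∈ Complex.integerComplement := by
  rintro ⟨n, hn⟩
  have hn' : (n : ℝ) = x := mod_cast hn
  have h0' : (0 : ℤ) < n := by exact_mod_cast (by linarith : (0 : ℝ) < n)
  have h1' : n < (1 : ℤ) := by exact_mod_cast (by linarith : (n : ℝ) < 1)
  omega

lemma tendsto_cotSum {z : ℝ} (h0 : 0 < z) (h2 : z < 2) :
    Tendsto (fun N => cotSum N z) atTop (𝓝 (π / 2 * (cos (π * z / 2) / sin (π * z / 2)))) := by
  have hx := mem_integerComplement_of_mem (x := z / 2) (by linarith) (by linarith)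
  have hs := (summable_cotTerm hx).hasSum.tendsto_sum_nat
  have hrep := cot_series_rep' hx
  have hre := ((Complex.continuous_re.tendsto _).comp hs).const_add (1 / (z / 2))
  have hlim := hre.div_const 2
  have hv : (1 / (z / 2) + (∑' n, cotTerm ((z / 2 : ℝ) : ℂ) n).re) / 2
      = π / 2 * (cos (π * z / 2) / sin (π * z / 2)) := by
    simp only [cotTerm]
    rw [← hrep, Complex.sub_re]
    have e1 : (π : ℂ) * Complex.cot (π * ((z / 2 : ℝ) : ℂ))
        = ((π * (cos (π * z / 2) / sin (π * z / 2)) : ℝ) : ℂ) := by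
      rw [Complex.cot, ← Complex.ofReal_mul, ← Complex.ofReal_cos, ← Complex.ofReal_sin]
      push_cast
      ring_nf
    have e2 : (1 : ℂ) / ((z / 2 : ℝ) : ℂ) = ((1 / (z / 2) : ℝ) : ℂ) := by push_cast; ring
    rw [e1, e2, Complex.ofReal_re, Complex.ofReal_re]
    ring
  rw [hv] at hlim
  refine hlim.congr fun N => ?_
  simp only [Function.comp_apply, Complex.re_sum, cotSum, symSum, frac, cotTerm]
  rw [add_div, Finset.sum_div]
  congr 1
  · push_cast; rw [div_div]; congr 1; ring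
  · refine Finset.sum_congr rfl fun n _ => ?_
    have e1 : (((z / 2 : ℝ) : ℂ) - ((n : ℂ) + 1)) = ((z / 2 - ((n : ℝ) + 1) : ℝ) : ℂ) := by
      push_cast; ring
    have e2 : (((z / 2 : ℝ) : ℂ) + ((n : ℂ) + 1)) = ((z / 2 + ((n : ℝ) + 1) : ℝ) : ℂ) := by
      push_cast; ring
    rw [e1, e2, one_div, one_div, ← Complex.ofReal_inv, ← Complex.ofReal_inv, ← Complex.ofReal_add,
      Complex.ofReal_re]
    push_cast
    rw [show z - 2 * ((n : ℝ) + 1) = 2 * (z / 2 - ((n : ℝ) + 1)) by ring,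
      show z - 2 * -((n : ℝ) + 1) = 2 * (z / 2 + ((n : ℝ) + 1)) by ring, one_div, one_div,
      mul_inv, mul_inv]
    ring

lemma prodSum_of_ne {x y : ℝ} (hx0 : 0 < x) (hx2 : x < 2) (hy0 : 0 < y) (hy2 : y < 2)
    (hxy : x ≠ y) (N : ℕ) : prodSum N x y = (cotSum N x - cotSum N y) / (y - x) := by
  rw [cotSum, cotSum, ← symSum_sub, ← symSum_div, prodSum]
  congr 1
  funext k
  have e1 := sub_two_mul_ne_zero hx0 hx2 k
  have e2 := sub_two_mul_ne_zero hy0 hy2 k
  have e3 : y - x ≠ 0 := sub_ne_zero.2 hxy.symm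
  unfold frac
  field_simp
  ring

lemma mul_cos_le_sin {D : ℝ} (h0 : 0 ≤ D) (h : D ≤ π) : D * cos D ≤ sin D := by
  rcases eq_or_lt_of_le h0 with rfl | h0
  · simp
  rcases lt_or_ge D (π / 2) with hD | hD
  · have := lt_tan h0 hD
    rw [tan_eq_sin_div_cos, lt_div_iff₀ (cos_pos_of_mem_Ioo ⟨by linarith, hD⟩)] at this
    linarith
  · have h1 : cos D ≤ 0 := cos_nonpos_of_pi_div_two_le_of_le hD (by linarith [pi_pos])
    nlinarith [sin_nonneg_of_nonneg_of_le_pi h0.le h]

/-- The limiting residual weight is at least `π² / 4`. -/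
lemma kernel_limit_ge {x y : ℝ} (hx0 : 0 < x) (hx2 : x < 2) (hy0 : 0 < y) (hy2 : y < 2)
    (hxy : x < y) :
    π ^ 2 / 4 ≤ (π / 2 * (cos (π * x / 2) / sin (π * x / 2))
        - π / 2 * (cos (π * y / 2) / sin (π * y / 2))) / (y - x)
      - π / 2 * (cos (π * x / 2) / sin (π * x / 2))
        * (π / 2 * (cos (π * y / 2) / sin (π * y / 2))) := by
  set X := π * x / 2 with hX
  set Y := π * y / 2 with hY
  have hp := pi_pos
  have hsx : 0 < sin X := sin_pos_of_pos_of_lt_pi (by positivity) (by rw [hX]; nlinarith)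
  have hsy : 0 < sin Y := sin_pos_of_pos_of_lt_pi (by positivity) (by rw [hY]; nlinarith)
  have hD : y - x = 2 / π * (Y - X) := by rw [hX, hY]; field_simp
  have hD0 : 0 < Y - X := by rw [hX, hY]; nlinarith
  have key := mul_cos_le_sin hD0.le (by rw [hX, hY]; nlinarith)
  have hexp : π / 2 * (cos X / sin X) - π / 2 * (cos Y / sin Y)
      = π / 2 * (sin (Y - X) / (sin X * sin Y)) := by
    rw [sin_sub]; field_simp
  rw [hexp, hD]
  have e : π / 2 * (sin (Y - X) / (sin X * sin Y)) / (2 / π * (Y - X))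
      - π / 2 * (cos X / sin X) * (π / 2 * (cos Y / sin Y))
      = π ^ 2 / 4 * ((sin (Y - X) - (Y - X) * (cos X * cos Y))
          / ((Y - X) * (sin X * sin Y))) := by
    field_simp
    ring
  rw [e]
  refine le_mul_of_one_le_right (by positivity) ?_
  rw [one_le_div (by positivity)]
  rw [cos_sub] at key
  linarith [show (Y - X) * (cos Y * cos X + sin Y * sin X)
    = (Y - X) * (cos X * cos Y) + (Y - X) * (sin X * sin Y) by ring]

lemma eventually_kerN_ge_of_ne {x y : ℝ} (hx0 : 0 < x) (hx2 : x < 2) (hy0 : 0 < y) (hy2 : y < 2)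
    (hxy : x ≠ y) {ε : ℝ} (hε : 0 < ε) : ∀ᶠ N in atTop, π ^ 2 / 4 - ε ≤ kerN N x y := by
  wlog h : x < y generalizing x y
  · filter_upwards [this hy0 hy2 hx0 hx2 hxy.symm (lt_of_le_of_ne (not_lt.1 h) hxy.symm)] with N hN
    simpa [kerN, prodSum, mul_comm] using hN
  have hlim : Tendsto (fun N => kerN N x y) atTop (𝓝 ((π / 2 * (cos (π * x / 2) / sin (π * x / 2))
        - π / 2 * (cos (π * y / 2) / sin (π * y / 2))) / (y - x)
      - π / 2 * (cos (π * x / 2) / sin (π * x / 2))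
        * (π / 2 * (cos (π * y / 2) / sin (π * y / 2))))) := by
    simp only [kerN, prodSum_of_ne hx0 hx2 hy0 hy2 hxy]
    exact (((tendsto_cotSum hx0 hx2).sub (tendsto_cotSum hy0 hy2)).div_const _).sub
      ((tendsto_cotSum hx0 hx2).mul (tendsto_cotSum hy0 hy2))
  refine hlim.eventually_const_le ?_
  linarith [kernel_limit_ge hx0 hx2 hy0 hy2 h]

lemma prodSum_diag_ge {z h : ℝ} (hz0 : 0 < z) (hz2 : z < 2) (h0 : 0 ≤ h)
    (hd : h < min z (2 - z)) (N : ℕ) :
    (1 - h ^ 2 / min z (2 - z) ^ 2) * prodSum N (z - h) (z + h) ≤ prodSum N z z := by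
  set d := min z (2 - z) with hddef
  have hdpos : 0 < d := lt_min hz0 (by linarith)
  have hd1 : h < z := hd.trans_le (min_le_left _ _)
  have hd2 : h < 2 - z := hd.trans_le (min_le_right _ _)
  refine le_trans (le_of_eq
    (map_symSum (AddMonoidHom.mulLeft (1 - h ^ 2 / d ^ 2)) N _)) (symSum_mono fun k => ?_)
  have hb : d ≤ |z - 2 * (k : ℝ)| := by
    rcases le_or_gt k 0 with hk | hk
    · have : (k : ℝ) ≤ 0 := mod_cast hk
      exact (min_le_left _ _).trans (le_trans (by linarith) (le_abs_self _))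
    · have : (1 : ℝ) ≤ k := mod_cast hk
      exact (min_le_right _ _).trans (le_trans (by linarith) (neg_le_abs _))
  have hsq : d ^ 2 ≤ (z - 2 * (k : ℝ)) ^ 2 := by
    rw [← sq_abs (z - 2 * (k : ℝ))]
    exact pow_le_pow_left₀ hdpos.le hb 2
  have hpos : 0 < (z - 2 * (k : ℝ)) ^ 2 - h ^ 2 := by
    have : h ^ 2 < d ^ 2 := by nlinarith
    linarith
  have e1 : frac (z - h) k * frac (z + h) k = 1 / ((z - 2 * (k : ℝ)) ^ 2 - h ^ 2) := by
    rw [frac, frac, div_mul_div_comm, one_mul]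
    congr 1
    ring
  have e2 : frac z k * frac z k = 1 / (z - 2 * (k : ℝ)) ^ 2 := by
    rw [frac, div_mul_div_comm, one_mul, sq]
  change (1 - h ^ 2 / d ^ 2) * (frac (z - h) k * frac (z + h) k) ≤ frac z k * frac z k
  rw [e1, e2, mul_one_div, div_le_div_iff₀ hpos (lt_of_lt_of_le (by positivity) hsq), one_mul]
  have : h ^ 2 ≤ h ^ 2 / d ^ 2 * (z - 2 * (k : ℝ)) ^ 2 := by
    rw [div_mul_eq_mul_div, le_div_iff₀ (by positivity)]
    exact mul_le_mul_of_nonneg_left hsq (sq_nonneg h)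
  linarith

/-- Every residual weight is asymptotically at least `π² / 4`. -/
theorem eventually_kerN_ge {x y : ℝ} (hx0 : 0 < x) (hx2 : x < 2) (hy0 : 0 < y) (hy2 : y < 2)
    {ε : ℝ} (hε : 0 < ε) : ∀ᶠ N in atTop, π ^ 2 / 4 - ε ≤ kerN N x y := by
  by_cases hxy : x = y
  swap
  · exact eventually_kerN_ge_of_ne hx0 hx2 hy0 hy2 hxy hε
  subst hxy
  set d := min x (2 - x) with hddef
  have hdpos : 0 < d := lt_min hx0 (by linarith)
  set W : ℝ → ℝ := fun z => π / 2 * (cos (π * z / 2) / sin (π * z / 2)) with hW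
  have hs : sin (π * x / 2) ≠ 0 :=
    (sin_pos_of_pos_of_lt_pi (by positivity) (by nlinarith [pi_pos])).ne'
  have hWc : ContinuousAt W x := by
    refine ContinuousAt.mul continuousAt_const (ContinuousAt.div ?_ ?_ hs) <;> fun_prop
  -- choose the displacement `h`
  have hcont : Tendsto (fun h : ℝ => (1 - h ^ 2 / d ^ 2) * (π ^ 2 / 4 + W (x - h) * W (x + h))
      - W x * W x) (𝓝 0) (𝓝 (π ^ 2 / 4)) := by
    have h1 : Tendsto (fun h : ℝ => W (x - h)) (𝓝 0) (𝓝 (W x)) := by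
      refine hWc.tendsto.comp ?_
      simpa using (tendsto_const_nhds (x := x)).sub (tendsto_id (x := 𝓝 (0 : ℝ)))
    have h2 : Tendsto (fun h : ℝ => W (x + h)) (𝓝 0) (𝓝 (W x)) := by
      refine hWc.tendsto.comp ?_
      simpa using (tendsto_const_nhds (x := x)).add (tendsto_id (x := 𝓝 (0 : ℝ)))
    have h3 : Tendsto (fun h : ℝ => 1 - h ^ 2 / d ^ 2) (𝓝 0) (𝓝 1) :=
      Continuous.tendsto' (by fun_prop) _ _ (by simp)
    simpa using (h3.mul ((h1.mul h2).const_add (π ^ 2 / 4))).sub_const (W x * W x)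
  have hnear : ∀ᶠ h in 𝓝[>] (0 : ℝ), h < d ∧ π ^ 2 / 4 - ε / 2
      ≤ (1 - h ^ 2 / d ^ 2) * (π ^ 2 / 4 + W (x - h) * W (x + h)) - W x * W x :=
    (((eventually_lt_nhds hdpos).and (hcont.eventually_const_le (by linarith)))).filter_mono
      nhdsWithin_le_nhds
  obtain ⟨h, ⟨hhd, hval⟩, hh⟩ := (hnear.and self_mem_nhdsWithin).exists
  have hh : 0 < h := hh
  have hd1 : h < x := hhd.trans_le (min_le_left _ _)
  have hd2 : h < 2 - x := hhd.trans_le (min_le_right _ _)
  have hfac : 0 ≤ 1 - h ^ 2 / d ^ 2 := by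
    rw [sub_nonneg, div_le_one (by positivity)]; nlinarith
  have hoff := eventually_kerN_ge_of_ne (x := x - h) (y := x + h) (by linarith) (by linarith)
    (by linarith) (by linarith) (by linarith) (show 0 < ε / 4 by linarith)
  have hp : Tendsto (fun N => (1 - h ^ 2 / d ^ 2) * (cotSum N (x - h) * cotSum N (x + h))
      - cotSum N x * cotSum N x) atTop
      (𝓝 ((1 - h ^ 2 / d ^ 2) * (W (x - h) * W (x + h)) - W x * W x)) :=
    (((tendsto_cotSum (by linarith) (by linarith)).mul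
      (tendsto_cotSum (by linarith) (by linarith))).const_mul _).sub
      ((tendsto_cotSum hx0 hx2).mul (tendsto_cotSum hx0 hx2))
  filter_upwards [hoff, hp.eventually_const_le (show
    (1 - h ^ 2 / d ^ 2) * (W (x - h) * W (x + h)) - W x * W x - ε / 4
      < (1 - h ^ 2 / d ^ 2) * (W (x - h) * W (x + h)) - W x * W x by linarith)] with N hN1 hN2
  have hdiag := prodSum_diag_ge hx0 hx2 hh.le hhd N
  have h1 := mul_le_mul_of_nonneg_left hN1 hfac
  have h2 : (1 - h ^ 2 / d ^ 2) * (ε / 4) ≤ ε / 4 :=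
    mul_le_of_le_one_left (by linarith) (sub_le_self _ (by positivity))
  simp only [kerN] at h1 ⊢
  rw [mul_sub, mul_sub] at h1
  linarith

end Vale.Agent.P371
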