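import Vale.Agent.P371.CotKernel

/-!
Lyapunov equations along the cumulative Gram matrix: the finite calibration, its derivative and
its expression in an eigenbasis.
-/

namespace Vale.Agent.P371

open Matrix
open scoped Matrix.Norms.Frobenius

/-- Square complex matrices. -/
abbrev Mat (ι : Type) : Type := Matrix ι ι ℂ

variable {ι κ : Type} [Fintype ι] [Fintype κ]

/-- The sum of the squared moduli of the entries. -/
noncomputable def sqF (A : Matrix κ ι ℂ) : ℝ := ∑ a, ∑ i, ‖A a i‖ ^ 2

lemma sqF_nonneg (A : Matrix κ ι ℂ) : 0 ≤ sqF A := by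
  unfold sqF; positivity

lemma re_trace_conjTranspose_mul (A : Matrix κ ι ℂ) : (trace (Aᴴ * A)).re = sqF A := by
  simp only [trace, diag, mul_apply, conjTranspose_apply, Complex.re_sum, sqF]
  rw [Finset.sum_comm]
  refine Finset.sum_congr rfl fun a _ => Finset.sum_congr rfl fun i _ => ?_
  simp [Complex.sq_norm, Complex.normSq_apply]

lemma norm_gram_apply_le (A : Matrix κ ι ℂ) (i j : ι) : ‖(Aᴴ * A) i j‖ ≤ sqF A := by
  classical
  rw [mul_apply]
  refine (norm_sum_le _ _).trans ?_
  unfold sqF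
  refine Finset.sum_le_sum fun a _ => ?_
  rw [conjTranspose_apply, norm_mul, norm_star]
  have hi : ‖A a i‖ ^ 2 ≤ ∑ l, ‖A a l‖ ^ 2 :=
    Finset.single_le_sum (f := fun l => ‖A a l‖ ^ 2) (fun _ _ => sq_nonneg _) (Finset.mem_univ i)
  have hj : ‖A a j‖ ^ 2 ≤ ∑ l, ‖A a l‖ ^ 2 :=
    Finset.single_le_sum (f := fun l => ‖A a l‖ ^ 2) (fun _ _ => sq_nonneg _) (Finset.mem_univ j)
  nlinarith [two_mul_le_add_sq ‖A a i‖ ‖A a j‖]

variable [DecidableEq ι]

/-- Hermitian with spectrum in `[δ, 1 - δ]`, as a bound on the quadratic form. -/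
structure InRange (δ : ℝ) (E : Mat ι) : Prop where
  herm : E.IsHermitian
  lower : ∀ v : ι → ℂ, δ * ∑ i, ‖v i‖ ^ 2 ≤ (star v ⬝ᵥ E *ᵥ v).re
  upper : ∀ v : ι → ℂ, (star v ⬝ᵥ E *ᵥ v).re ≤ (1 - δ) * ∑ i, ‖v i‖ ^ 2

/-- An eigenbasis with eigenvalues in `[δ, 1 - δ]`. -/
structure Eig (δ : ℝ) (E : Mat ι) (U : Mat ι) (e : ι → ℝ) : Prop where
  left : Uᴴ * U = 1
  right : U * Uᴴ = 1
  eq : E = U * diagonal (fun i => (e i : ℂ)) * Uᴴ
  lower : ∀ i, δ ≤ e i
  upper : ∀ i, e i ≤ 1 - δ

lemma InRange.exists_eig {δ : ℝ} {E : Mat ι} (h : InRange δ E) : ∃ U e, Eig δ E U e := by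
  refine ⟨(h.herm.eigenvectorUnitary : Mat ι), h.herm.eigenvalues, ?_, ?_, ?_, ?_, ?_⟩
  · exact Unitary.coe_star_mul_self _
  · exact Unitary.coe_mul_star_self _
  · exact h.herm.spectral_theorem
  all_goals
    intro i
    have hn : ∑ l, ‖(h.herm.eigenvectorBasis i : EuclideanSpace ℂ ι) l‖ ^ 2 = 1 := by
      rw [← EuclideanSpace.norm_sq_eq, h.herm.eigenvectorBasis.norm_eq_one, one_pow]
    have h1 := h.lower (h.herm.eigenvectorBasis i : EuclideanSpace ℂ ι)
    have h2 := h.upper (h.herm.eigenvectorBasis i : EuclideanSpace ℂ ι)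
    rw [hn, mul_one] at h1 h2
    rw [h.herm.eigenvalues_eq i]
    assumption

/-- The operator `X ↦ (E - k) X + X (E - k)`. -/
noncomputable def lyap (E : Mat ι) (k : ℤ) : Module.End ℝ (Mat ι) :=
  LinearMap.mulLeft ℝ (E - (k : ℂ) • 1) + LinearMap.mulRight ℝ (E - (k : ℂ) • 1)

lemma lyap_apply (E : Mat ι) (k : ℤ) (X : Mat ι) :
    lyap E k X = (E - (k : ℂ) • 1) * X + X * (E - (k : ℂ) • 1) := rfl

/-- The solution of the Lyapunov equation with right-hand side `G`. -/
noncomputable def sol (E G : Mat ι) (k : ℤ) : Mat ι := Ring.inverse (lyap E k) G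

/-- The solution in an eigenbasis. -/
noncomputable def solEig (e : ι → ℝ) (H : Mat ι) (k : ℤ) : Mat ι :=
  Matrix.of fun i j => H i j * (frac (e i + e j) k : ℂ)

section Eig

variable {δ : ℝ} {E U : Mat ι} {e : ι → ℝ}

lemma Eig.sum_mem (h : Eig δ E U e) (i j : ι) :
    2 * δ ≤ e i + e j ∧ e i + e j ≤ 2 - 2 * δ :=
  ⟨by linarith [h.lower i, h.lower j], by linarith [h.upper i, h.upper j]⟩

lemma Eig.lyap_solEig (h : Eig δ E U e) (hδ : 0 < δ) (G : Mat ι) (k : ℤ) :
    lyap E k (U * solEig e (Uᴴ * G * U) k * Uᴴ) = G := by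
  set H := Uᴴ * G * U with hH
  set D : Mat ι := diagonal (fun i => ((e i : ℂ) - (k : ℂ))) with hD
  have hE : E - (k : ℂ) • 1 = U * D * Uᴴ := by
    have : D = diagonal (fun i => (e i : ℂ)) - (k : ℂ) • 1 := by
      rw [hD, smul_one_eq_diagonal, diagonal_sub]
    rw [this, mul_sub, sub_mul, ← h.eq, mul_smul_comm, mul_one, smul_mul_assoc, h.right]
  have key : D * solEig e H k + solEig e H k * D = H := by
    ext i j
    rw [Matrix.add_apply, hD, diagonal_mul, mul_diagonal, solEig, of_apply]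
    obtain ⟨h1, h2⟩ := h.sum_mem i j
    have hne : e i + e j - 2 * (k : ℝ) ≠ 0 := sub_two_mul_ne_zero (by linarith) (by linarith) k
    have hc : ((e i : ℂ) + (e j : ℂ) - 2 * (k : ℂ)) * (frac (e i + e j) k : ℂ) = 1 := by
      have : (e i + e j - 2 * (k : ℝ)) * frac (e i + e j) k = 1 := mul_one_div_cancel hne
      exact_mod_cast this
    calc ((e i : ℂ) - k) * (H i j * (frac (e i + e j) k : ℂ))
          + H i j * (frac (e i + e j) k : ℂ) * ((e j : ℂ) - k)
        = H i j * (((e i : ℂ) + (e j : ℂ) - 2 * (k : ℂ)) * (frac (e i + e j) k : ℂ)) := by ring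
      _ = H i j := by rw [hc, mul_one]
  have cancel : ∀ X : Mat ι, Uᴴ * (U * X) = X := fun X => by rw [← mul_assoc, h.left, one_mul]
  rw [lyap_apply, hE]
  calc U * D * Uᴴ * (U * solEig e H k * Uᴴ) + U * solEig e H k * Uᴴ * (U * D * Uᴴ)
      = U * (D * solEig e H k + solEig e H k * D) * Uᴴ := by
        simp only [mul_add, add_mul, mul_assoc, cancel]
    _ = U * H * Uᴴ := by rw [key]
    _ = G := by
        rw [hH]
        simp only [mul_assoc]
        rw [h.right, mul_one, ← mul_assoc, h.right, one_mul]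

end Eig

variable {δ : ℝ}

lemma InRange.isUnit_lyap {E : Mat ι} (h : InRange δ E) (hδ : 0 < δ) (k : ℤ) :
    IsUnit (lyap E k) := by
  obtain ⟨U, e, he⟩ := h.exists_eig
  have hs : Function.Surjective (lyap E k) := fun G => ⟨_, he.lyap_solEig hδ G k⟩
  exact (Module.End.isUnit_iff _).2
    ⟨LinearMap.injective_iff_surjective.2 hs, hs⟩

lemma InRange.lyap_sol {E : Mat ι} (h : InRange δ E) (hδ : 0 < δ) (G : Mat ι) (k : ℤ) :
    lyap E k (sol E G k) = G :=
  congrArg (fun T : Module.End ℝ (Mat ι) => T G) (Ring.mul_inverse_cancel _ (h.isUnit_lyap hδ k))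

lemma Eig.sol_eq {E U : Mat ι} {e : ι → ℝ} (he : Eig δ E U e) (h : InRange δ E) (hδ : 0 < δ)
    (G : Mat ι) (k : ℤ) : sol E G k = U * solEig e (Uᴴ * G * U) k * Uᴴ := by
  have hi := congrArg (fun T : Module.End ℝ (Mat ι) => T (U * solEig e (Uᴴ * G * U) k * Uᴴ))
    (Ring.inverse_mul_cancel _ (h.isUnit_lyap hδ k))
  simpa [sol, he.lyap_solEig hδ G k] using hi

lemma isHermitian_sol {E G : Mat ι} (h : InRange δ E) (hδ : 0 < δ) (hG : G.IsHermitian) (k : ℤ) :
    (sol E G k).IsHermitian := by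
  obtain ⟨U, e, he⟩ := h.exists_eig
  rw [he.sol_eq h hδ]
  refine isHermitian_mul_mul_conjTranspose U ?_
  have hH := (isHermitian_conjTranspose_mul_mul U hG)
  ext i j
  rw [conjTranspose_apply, solEig, of_apply, of_apply, star_mul', hH.apply i j, add_comm (e j)]
  simp [Complex.conj_ofReal]

lemma norm_sq_eq_sqF (A : Mat ι) : ‖A‖ ^ 2 = sqF A := by
  rw [frobenius_norm_def, ← Real.sqrt_eq_rpow, Real.sq_sqrt (by positivity)]
  simp [sqF]

lemma Eig.sqF_conj {δ : ℝ} {E U : Mat ι} {e : ι → ℝ} (he : Eig δ E U e) (X : Mat ι) :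
    sqF (U * X * Uᴴ) = sqF X := by
  rw [← re_trace_conjTranspose_mul, ← re_trace_conjTranspose_mul]
  congr 1
  simp only [conjTranspose_mul, conjTranspose_conjTranspose, mul_assoc]
  rw [← mul_assoc Uᴴ U, he.left, one_mul, trace_mul_comm, mul_assoc, mul_assoc, he.left, mul_one]

lemma norm_sol_le {E : Mat ι} (h : InRange δ E) (hδ : 0 < δ) (G : Mat ι) (k : ℤ) :
    ‖sol E G k‖ ≤ 1 / δ * ‖G‖ := by
  obtain ⟨U, e, he⟩ := h.exists_eig
  refine le_of_pow_le_pow_left₀ two_ne_zero (by positivity) ?_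
  have hG : sqF G = sqF (Uᴴ * G * U) := by
    conv_lhs => rw [show G = U * (Uᴴ * G * U) * Uᴴ by
      simp only [mul_assoc]
      rw [he.right, mul_one, ← mul_assoc, he.right, one_mul]]
    exact he.sqF_conj _
  rw [he.sol_eq h hδ, mul_pow, norm_sq_eq_sqF, norm_sq_eq_sqF, he.sqF_conj, hG]
  simp only [sqF, Finset.mul_sum]
  refine Finset.sum_le_sum fun i _ => Finset.sum_le_sum fun j _ => ?_
  rw [solEig, of_apply, norm_mul, mul_pow, mul_comm, Complex.norm_real, Real.norm_eq_abs]
  refine mul_le_mul_of_nonneg_right (pow_le_pow_left₀ (abs_nonneg _) ?_ 2) (sq_nonneg _)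
  obtain ⟨h1, h2⟩ := he.sum_mem i j
  refine (abs_frac_le (d := 2 * δ) (by linarith)
    (by linarith [he.lower i, he.upper i]) h1 h2 k).trans ?_
  calc 2 / (2 * δ) / (|(k : ℝ)| + 1) ≤ 2 / (2 * δ) :=
        div_le_self (by positivity) (le_add_of_nonneg_left (abs_nonneg _))
    _ = 1 / δ := by field_simp

/-- The calibration matrix. -/
noncomputable def calM (N : ℕ) (E G : Mat ι) : Mat ι := symSum N (sol E G)

/-- The exact differential of the calibration. -/
noncomputable def calQ (N : ℕ) (E G : Mat ι) : ℝ :=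
  symSum N fun k => (trace (G * sol E G k)).re / 2

/-- The residual of the calibration. -/
noncomputable def calR (N : ℕ) (E G : Mat ι) : ℝ :=
  symSum N (fun k => (trace (G * (sol E G k * sol E G k))).re)
    - (trace (G * (calM N E G * calM N E G))).re

section Path

variable {E G : ℝ → Mat ι} {G' : Mat ι} {x : ℝ}

lemma differentiableAt_sol (hR : ∀ y, InRange δ (E y)) (hδ : 0 < δ) (hE : HasDerivAt E (G x) x)
    (hG : HasDerivAt G G' x) (k : ℤ) : DifferentiableAt ℝ (fun y => sol (E y) (G y) k) x := by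
  set f : ℝ → Mat ι := fun y => sol (E y) (G y) k with hf
  set S : Module.End ℝ (Mat ι) := Ring.inverse (lyap (E x) k) with hS
  have hSb : ∀ X, ‖S X‖ ≤ 1 / δ * ‖X‖ := fun X => norm_sol_le (hR x) hδ X k
  have hSc : Continuous S := AddMonoidHomClass.continuous_of_bound S (1 / δ) hSb
  have hinv : ∀ X, S (lyap (E x) k X) = X := fun X =>
    congrArg (fun T : Module.End ℝ (Mat ι) => T X)
      (Ring.inverse_mul_cancel _ ((hR x).isUnit_lyap hδ k))
  -- resolvent identity
  have hres : ∀ y, f y - f x = S (G y - G x - ((E y - E x) * f y + f y * (E y - E x))) := by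
    intro y
    have e : lyap (E x) k (f y - f x)
        = G y - G x - ((E y - E x) * f y + f y * (E y - E x)) := by
      rw [map_sub, hf, (hR x).lyap_sol hδ (G x) k]
      conv_rhs => rw [← (hR y).lyap_sol hδ (G y) k, lyap_apply]
      rw [lyap_apply]
      simp only [sub_mul, mul_sub]
      abel
    rw [← hinv (f y - f x), e]
  -- local boundedness, hence continuity
  have hbd : ∀ y, ‖f y‖ ≤ 1 / δ * ‖G y‖ := fun y => norm_sol_le (hR y) hδ (G y) k
  have hcont : Filter.Tendsto f (nhds x) (nhds (f x)) := by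
    refine tendsto_iff_norm_sub_tendsto_zero.2 ?_
    refine squeeze_zero (fun _ => norm_nonneg _) (g := fun y => 1 / δ * (‖G y - G x‖
      + 2 * (‖E y - E x‖ * (1 / δ * ‖G y‖)))) (fun y => ?_) ?_
    · rw [hres y]
      refine (hSb _).trans (mul_le_mul_of_nonneg_left ?_ (by positivity))
      refine (norm_sub_le _ _).trans (add_le_add le_rfl ((norm_add_le _ _).trans ?_))
      have h1 := (norm_mul_le (E y - E x) (f y)).trans
        (mul_le_mul_of_nonneg_left (hbd y) (norm_nonneg _))
      have h2 := (norm_mul_le (f y) (E y - E x)).trans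
        (mul_le_mul_of_nonneg_right (hbd y) (norm_nonneg _))
      linarith [mul_comm ‖E y - E x‖ (1 / δ * ‖G y‖)]
    · have t1 : Filter.Tendsto (fun y => ‖G y - G x‖) (nhds x) (nhds 0) :=
        tendsto_iff_norm_sub_tendsto_zero.1 hG.continuousAt
      have t2 : Filter.Tendsto (fun y => ‖E y - E x‖) (nhds x) (nhds 0) :=
        tendsto_iff_norm_sub_tendsto_zero.1 hE.continuousAt
      have t3 : Filter.Tendsto (fun y => 1 / δ * ‖G y‖) (nhds x) (nhds (1 / δ * ‖G x‖)) :=
        (hG.continuousAt.norm).const_mul _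
      simpa using (t1.add ((t2.mul t3).const_mul 2)).const_mul (1 / δ)
  -- the slopes converge
  refine HasDerivAt.differentiableAt (f' := S (G' - (G x * f x + f x * G x))) ?_
  rw [hasDerivAt_iff_tendsto_slope]
  have hs : ∀ y, slope f x y = S (slope G x y - (slope E x y * f y + f y * slope E x y)) := by
    intro y
    simp only [slope_def_module, smul_mul_assoc, mul_smul_comm, ← smul_add, ← smul_sub, map_smul]
    rw [hres y]
  refine Filter.Tendsto.congr (fun y => (hs y).symm) ?_
  refine (hSc.tendsto _).comp ?_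
  have hfy := hcont.mono_left (nhdsWithin_le_nhds (s := {x}ᶜ))
  exact ((hasDerivAt_iff_tendsto_slope.1 hG).sub
    (((hasDerivAt_iff_tendsto_slope.1 hE).mul hfy).add
      (hfy.mul (hasDerivAt_iff_tendsto_slope.1 hE))))

/-- The finite calibration identity. -/
lemma hasDerivAt_calQ_term (hR : ∀ y, InRange δ (E y)) (hδ : 0 < δ) (hE : HasDerivAt E (G x) x)
    (hG : HasDerivAt G G' x) (k : ℤ) :
    HasDerivAt (fun y => (trace (G y * sol (E y) (G y) k)).re / 2)
      ((trace (G' * sol (E x) (G x) k)).re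
        - (trace (G x * (sol (E x) (G x) k * sol (E x) (G x) k))).re) x := by
  set M := sol (E x) (G x) k with hM
  set A : Mat ι := E x - (k : ℂ) • 1 with hA
  obtain ⟨M', hM'⟩ : ∃ M', HasDerivAt (fun y => sol (E y) (G y) k) M' x :=
    ⟨_, (differentiableAt_sol hR hδ hE hG k).hasDerivAt⟩
  have hA' : HasDerivAt (fun y => E y - (k : ℂ) • (1 : Mat ι)) (G x) x := hE.sub_const _
  have heq : G x * M + A * M' + (M' * A + M * G x) = G' := by
    have h2 : HasDerivAt (fun y => (E y - (k : ℂ) • 1) * sol (E y) (G y) k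
        + sol (E y) (G y) k * (E y - (k : ℂ) • 1))
        (G x * M + A * M' + (M' * A + M * G x)) x := (hA'.mul hM').add (hM'.mul hA')
    have hfun : (fun y => (E y - (k : ℂ) • 1) * sol (E y) (G y) k
        + sol (E y) (G y) k * (E y - (k : ℂ) • 1)) = G := by
      funext y
      exact (hR y).lyap_sol hδ (G y) k
    rw [hfun] at h2
    exact h2.unique hG
  set T : Mat ι →L[ℝ] ℝ :=
    LinearMap.toContinuousLinearMap (Complex.reLm.comp (Matrix.traceLinearMap ι ℝ ℂ)) with hT
  have hTapp : ∀ X, T X = (trace X).re := fun X => rfl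
  have hd := ((T.hasFDerivAt.comp_hasDerivAt x (hG.mul hM')).div_const 2)
  simp only [Function.comp_def, hTapp] at hd
  refine hd.congr_deriv ?_
  have hsol : A * M + M * A = G x := (hR x).lyap_sol hδ (G x) k
  have e1 : trace (G x * M') = trace (G' * M) - 2 * trace (G x * (M * M)) := by
    have c1 : trace (A * M * M') = trace (M * (M' * A)) := by
      rw [mul_assoc, trace_mul_comm A, mul_assoc]
    have c2 : trace (M * A * M') = trace (M * (A * M')) := by rw [mul_assoc]
    have c3 : trace (M * (G x * M)) = trace (G x * (M * M)) := by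
      rw [trace_mul_comm, mul_assoc]
    have c4 : trace (M * (M * G x)) = trace (G x * (M * M)) := by
      rw [← mul_assoc, trace_mul_comm]
    have hrest : M' * A + A * M' = G' - G x * M - M * G x := by rw [← heq]; abel
    conv_lhs => rw [← hsol]
    rw [add_mul, trace_add, c1, c2, ← trace_add, ← mul_add, hrest, mul_sub, mul_sub, trace_sub,
      trace_sub, c3, c4, trace_mul_comm M G']
    ring
  change (trace (G' * sol (E x) (G x) k + G x * M')).re / 2 = _
  rw [trace_add, Complex.add_re, e1, Complex.sub_re, Complex.mul_re]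
  simp
  ring

lemma hasDerivAt_calQ (hR : ∀ y, InRange δ (E y)) (hδ : 0 < δ) (hE : HasDerivAt E (G x) x)
    (hG : HasDerivAt G G' x) (N : ℕ) :
    HasDerivAt (fun y => calQ N (E y) (G y))
      ((trace (G' * calM N (E x) (G x))).re
        - symSum N (fun k => (trace (G x *
            (sol (E x) (G x) k * sol (E x) (G x) k))).re)) x := by
  have hs : (trace (G' * calM N (E x) (G x))).re
      = symSum N fun k => (trace (G' * sol (E x) (G x) k)).re :=
    map_symSum (Complex.reAddGroupHom.comp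
      ((Matrix.traceAddMonoidHom ι ℂ).comp (AddMonoidHom.mulLeft G'))) N _
  rw [hs, ← symSum_sub]
  exact (hasDerivAt_calQ_term hR hδ hE hG 0).add (HasDerivAt.fun_sum fun n _ =>
    (hasDerivAt_calQ_term hR hδ hE hG ((n : ℤ) + 1)).add
      (hasDerivAt_calQ_term hR hδ hE hG (-((n : ℤ) + 1))))

end Path

/-- Completing the square: the derivative of the calibration plus its residual is at most the
kinetic density. -/
lemma calQ_deriv_add_calR_le {E : Mat ι} (hR : InRange δ E) (hδ : 0 < δ) (A B : Matrix κ ι ℂ)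
    (N : ℕ) :
    (trace ((Bᴴ * A + Aᴴ * B) * calM N E (Aᴴ * A))).re
        - symSum N (fun k => (trace (Aᴴ * A * (sol E (Aᴴ * A) k * sol E (Aᴴ * A) k))).re)
        + calR N E (Aᴴ * A) ≤ sqF B := by
  set M := calM N E (Aᴴ * A) with hM
  have hMh : Mᴴ = M := by
    have h1 := map_symSum (Matrix.conjTransposeAddEquiv ι ι ℂ) N (sol E (Aᴴ * A))
    simp only [Matrix.conjTransposeAddEquiv_apply] at h1
    rw [hM, calM, h1]
    congr 1
    funext k
    exact isHermitian_sol hR hδ (isHermitian_conjTranspose_mul_self A) k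
  have h := sqF_nonneg (B - A * M)
  rw [← re_trace_conjTranspose_mul, conjTranspose_sub, conjTranspose_mul, hMh,
    Matrix.sub_mul, Matrix.mul_sub, Matrix.mul_sub, trace_sub, trace_sub, trace_sub,
    Complex.sub_re, Complex.sub_re, Complex.sub_re, re_trace_conjTranspose_mul] at h
  have e1 : trace (Bᴴ * (A * M)) = trace (Bᴴ * A * M) := by rw [Matrix.mul_assoc]
  have e2 : trace (M * Aᴴ * B) = trace (Aᴴ * B * M) := by
    rw [Matrix.mul_assoc, trace_mul_comm]
  have e3 : trace (M * Aᴴ * (A * M)) = trace (Aᴴ * A * (M * M)) := by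
    rw [Matrix.mul_assoc, trace_mul_comm]
    simp only [Matrix.mul_assoc]
  rw [e1, e2, e3] at h
  rw [Matrix.add_mul, trace_add, Complex.add_re, calR, ← hM]
  linarith

section Expansion

variable {E U G : Mat ι} {e : ι → ℝ}

lemma Eig.trace_conj (he : Eig δ E U e) (X Y : Mat ι) :
    trace (U * X * Uᴴ * (U * Y * Uᴴ)) = trace (X * Y) := by
  have : U * X * Uᴴ * (U * Y * Uᴴ) = U * (X * Y) * Uᴴ := by
    simp only [mul_assoc]
    rw [← mul_assoc Uᴴ U, he.left, one_mul]
  rw [this, trace_mul_comm, ← mul_assoc, he.left, one_mul]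

lemma Eig.conj_back (he : Eig δ E U e) (G : Mat ι) : U * (Uᴴ * G * U) * Uᴴ = G := by
  simp only [mul_assoc]
  rw [he.right, mul_one, ← mul_assoc, he.right, one_mul]

omit [DecidableEq ι] in
lemma trace_mul_mul_apply (A B D : Mat ι) :
    trace (A * (B * D)) = ∑ i, ∑ j, ∑ l, A i j * (B j l * D l i) := by
  simp [trace, mul_apply, Finset.mul_sum]

/-- The residual in an eigenbasis. -/
lemma calR_eq (he : Eig δ E U e) (hR : InRange δ E) (hδ : 0 < δ) (N : ℕ) :
    calR N E G = ∑ i, ∑ j, ∑ l, kerN N (e j + e l) (e l + e i)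
      * ((Uᴴ * G * U) i j * ((Uᴴ * G * U) j l * (Uᴴ * G * U) l i)).re := by
  set H := Uᴴ * G * U with hH
  have hM : calM N E G
      = U * Matrix.of (fun i j => H i j * (cotSum N (e i + e j) : ℂ)) * Uᴴ := by
    have h1 : (Matrix.of fun i j => H i j * (cotSum N (e i + e j) : ℂ))
        = symSum N (solEig e H) := by
      ext i j
      change _ = Matrix.entryAddHom ℂ i j (symSum N (solEig e H))
      rw [map_symSum]
      change H i j * (cotSum N (e i + e j) : ℂ)
        = symSum N fun k => H i j * (frac (e i + e j) k : ℂ)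
      exact map_symSum ((AddMonoidHom.mulLeft (H i j)).comp Complex.ofRealHom.toAddMonoidHom) N _
    rw [h1]
    have h2 := map_symSum ((AddMonoidHom.mulRight Uᴴ).comp (AddMonoidHom.mulLeft U)) N (solEig e H)
    simp only [AddMonoidHom.coe_comp, AddMonoidHom.coe_mulRight, AddMonoidHom.coe_mulLeft,
      Function.comp_apply] at h2
    rw [h2, calM]
    congr 1
    funext k
    exact he.sol_eq hR hδ G k
  have hcube : ∀ X : Mat ι, trace (G * (U * X * Uᴴ * (U * X * Uᴴ))) = trace (H * (X * X)) := by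
    intro X
    have : U * X * Uᴴ * (U * X * Uᴴ) = U * (X * X) * Uᴴ := by
      simp only [mul_assoc]
      rw [← mul_assoc Uᴴ U, he.left, one_mul]
    rw [this, ← he.conj_back G, ← hH, he.trace_conj]
  have hterm : ∀ (i j l : ι) (a b : ℝ),
      (H i j * (H j l * (a : ℂ) * (H l i * (b : ℂ)))).re
        = a * b * (H i j * (H j l * H l i)).re := by
    intro i j l a b
    rw [show H i j * (H j l * (a : ℂ) * (H l i * (b : ℂ)))
      = ((a * b : ℝ) : ℂ) * (H i j * (H j l * H l i)) by push_cast; ring, Complex.re_ofReal_mul]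
  simp only [calR, hM, hcube, he.sol_eq hR hδ, ← hH, trace_mul_mul_apply, Complex.re_sum,
    solEig, of_apply, hterm]
  simp only [kerN, sub_mul, Finset.sum_sub_distrib]
  congr 1
  simp only [prodSum, symSum, Finset.sum_add_distrib, add_mul, Finset.sum_mul]
  simp only [Finset.sum_comm (s := Finset.range N)]

/-- The differential in an eigenbasis. -/
lemma calQ_eq (he : Eig δ E U e) (hR : InRange δ E) (hδ : 0 < δ) (N : ℕ) :
    calQ N E G = ∑ i, ∑ j, cotSum N (e j + e i)
      * (((Uᴴ * G * U) i j * (Uᴴ * G * U) j i).re / 2) := by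
  set H := Uᴴ * G * U with hH
  have hterm : ∀ k, (trace (G * sol E G k)).re / 2
      = ∑ i, ∑ j, frac (e j + e i) k * ((H i j * H j i).re / 2) := by
    intro k
    rw [he.sol_eq hR hδ, ← hH]
    conv_lhs => rw [← he.conj_back G, ← hH, he.trace_conj]
    simp only [trace, diag, mul_apply, solEig, of_apply, Complex.re_sum, Finset.sum_div]
    refine Finset.sum_congr rfl fun i _ => Finset.sum_congr rfl fun j _ => ?_
    rw [← mul_assoc, Complex.mul_re, Complex.ofReal_re, Complex.ofReal_im]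
    ring
  simp only [calQ, hterm, cotSum, symSum, Finset.sum_add_distrib, add_mul, Finset.sum_mul]
  simp only [Finset.sum_comm (s := Finset.range N)]

end Expansion

end Vale.Agent.P371
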