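import Vale.Agent.P371.PosKernel
import Vale.Agent.P371.Lyap

/-!
The matrix residual inequality of the calibration at `γ = 1`: asymptotically the residual is at
least `π² / 4` times the trace of the cube of the Gram matrix.
-/

namespace Vale.Agent.P371

open Matrix Real Filter
open scoped Topology ComplexOrder

/-- `sinc D - cos D`. -/
noncomputable def hker (D : ℝ) : ℝ := sinc D - cos D

/-- The trapezoid error of `z ↦ sin (2 z)` on `[x, y]`. -/
noncomputable def trapErr (x y : ℝ) : ℝ := hker (x - y) * sin (x + y)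

lemma hker_neg (D : ℝ) : hker (-D) = hker D := by simp [hker]

lemma trapErr_comm (x y : ℝ) : trapErr x y = trapErr y x := by
  rw [trapErr, trapErr, add_comm, ← hker_neg, neg_sub]

lemma trapErr_self (x : ℝ) : trapErr x x = 0 := by simp [trapErr, hker]

lemma sub_mul_trapErr (x y : ℝ) : (x - y) * trapErr x y =
    (cos (2 * y) - cos (2 * x)) / 2 - (x - y) * (sin (2 * x) + sin (2 * y)) / 2 := by
  rcases eq_or_ne x y with rfl | h
  · simp
  have hd : x - y ≠ 0 := sub_ne_zero.2 h
  have hy : 2 * y = (x + y) - (x - y) := by ring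
  have hx : 2 * x = (x + y) + (x - y) := by ring
  have e1 : cos (2 * y) - cos (2 * x) = 2 * (sin (x - y) * sin (x + y)) := by
    rw [hy, hx]
    linarith [cos_sub (x + y) (x - y), cos_add (x + y) (x - y)]
  have e2 : sin (2 * x) + sin (2 * y) = 2 * (cos (x - y) * sin (x + y)) := by
    rw [hy, hx]
    linarith [sin_sub (x + y) (x - y), sin_add (x + y) (x - y)]
  rw [e1, e2, trapErr, hker, sinc_of_ne_zero hd]
  field_simp

lemma integral_one_sub_mul_cos (c w : ℝ) :
    w ^ 2 * ∫ p in (0 : ℝ)..1, (1 - p) * cos (c + p * w) =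
      cos c - cos (c + w) - w * sin c := by
  rw [← intervalIntegral.integral_const_mul]
  have h : ∀ p ∈ Set.uIcc (0 : ℝ) 1,
      HasDerivAt (fun p => (1 - p) * w * sin (c + p * w) - cos (c + p * w))
        (w ^ 2 * ((1 - p) * cos (c + p * w))) p := fun p _ => by
    have h1 : HasDerivAt (fun p : ℝ => c + p * w) w p := by
      simpa using ((hasDerivAt_id p).mul_const w).const_add c
    have h2 : HasDerivAt (fun p : ℝ => (1 - p) * w) (-w) p := by
      simpa using ((hasDerivAt_id p).const_sub 1).mul_const w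
    exact ((h2.mul h1.sin).sub h1.cos).congr_deriv (by ring)
  rw [intervalIntegral.integral_eq_sub_of_hasDerivAt h
    ((by fun_prop : Continuous _).intervalIntegrable _ _)]
  simp
  ring

lemma integral_mul_one_sub_mul_sin (c w : ℝ) :
    w ^ 3 * ∫ p in (0 : ℝ)..1, p * (1 - p) * sin (c + p * w) =
      2 * cos c - 2 * cos (c + w) - w * (sin c + sin (c + w)) := by
  rw [← intervalIntegral.integral_const_mul]
  have h : ∀ p ∈ Set.uIcc (0 : ℝ) 1, HasDerivAt (fun p => -(p * (1 - p)) * w ^ 2 * cos (c + p * w)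
        + (1 - 2 * p) * w * sin (c + p * w) - 2 * cos (c + p * w))
        (w ^ 3 * (p * (1 - p) * sin (c + p * w))) p := fun p _ => by
    have h1 : HasDerivAt (fun p : ℝ => c + p * w) w p := by
      simpa using ((hasDerivAt_id p).mul_const w).const_add c
    have h2 : HasDerivAt (fun p : ℝ => -(p * (1 - p)) * w ^ 2) (-(1 - 2 * p) * w ^ 2) p :=
      ((((hasDerivAt_id p).mul ((hasDerivAt_id p).const_sub 1)).neg).mul_const (w ^ 2)).congr_deriv
        (by simp only [id_eq]; ring)
    have h3 : HasDerivAt (fun p : ℝ => (1 - 2 * p) * w) (-2 * w) p :=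
      ((((hasDerivAt_id p).const_mul (2 : ℝ)).const_sub 1).mul_const w).congr_deriv (by ring)
    exact (((h2.mul h1.cos).add (h3.mul h1.sin)).sub (h1.cos.const_mul 2)).congr_deriv (by ring)
  rw [intervalIntegral.integral_eq_sub_of_hasDerivAt h
    ((by fun_prop : Continuous _).intervalIntegrable _ _)]
  simp
  ring

/-- The Gromov products of the trapezoid error. -/
lemma trapErr_gromov (x y z : ℝ) :
    trapErr x z + trapErr y z - trapErr x y = 4 * (x - z) * (y - z) *
      ∫ p in (0 : ℝ)..1, p * (1 - p) * sinc (p * (x - z) - p * (y - z))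
        * sin (2 * z + p * ((x - z) + (y - z))) := by
  rcases eq_or_ne x z with rfl | hu
  · simp [trapErr_self, trapErr_comm x y]
  rcases eq_or_ne y z with rfl | hv
  · simp [trapErr_self]
  have hu' : x - z ≠ 0 := sub_ne_zero.2 hu
  have hv' : y - z ≠ 0 := sub_ne_zero.2 hv
  have exz := sub_mul_trapErr x z
  have eyz := sub_mul_trapErr y z
  rcases eq_or_ne x y with rfl | hd
  · rw [trapErr_self, sub_zero]
    simp only [sub_self, sinc_zero, mul_one]
    have hI := integral_mul_one_sub_mul_sin (2 * z) (x - z + (x - z))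
    rw [show 2 * z + (x - z + (x - z)) = 2 * x by ring] at hI
    set I := ∫ p in (0 : ℝ)..1, p * (1 - p) * sin (2 * z + p * (x - z + (x - z)))
    refine mul_left_cancel₀ hu' ?_
    linear_combination 2 * exz - (1 / 2) * hI
  · have hd' : x - y ≠ 0 := sub_ne_zero.2 hd
    have exy := sub_mul_trapErr x y
    have h1 := integral_one_sub_mul_cos (2 * z) (2 * (x - z))
    have h2 := integral_one_sub_mul_cos (2 * z) (2 * (y - z))
    rw [show 2 * z + 2 * (x - z) = 2 * x by ring] at h1
    rw [show 2 * z + 2 * (y - z) = 2 * y by ring] at h2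
    have key : (x - y) * ∫ p in (0 : ℝ)..1, p * (1 - p) * sinc (p * (x - z) - p * (y - z))
        * sin (2 * z + p * ((x - z) + (y - z)))
        = ((∫ p in (0 : ℝ)..1, (1 - p) * cos (2 * z + p * (2 * (y - z))))
          - ∫ p in (0 : ℝ)..1, (1 - p) * cos (2 * z + p * (2 * (x - z)))) / 2 := by
      rw [← intervalIntegral.integral_const_mul, ← intervalIntegral.integral_sub
        ((by fun_prop : Continuous _).intervalIntegrable _ _)
        ((by fun_prop : Continuous _).intervalIntegrable _ _), ← intervalIntegral.integral_div]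
      refine intervalIntegral.integral_congr fun p _ => ?_
      have e : (x - y) * (p * (1 - p) * sinc (p * (x - z) - p * (y - z)))
          = (1 - p) * sin (p * (x - y)) := by
        rw [← mul_sub, sub_sub_sub_cancel_right]
        rcases eq_or_ne p 0 with rfl | hp
        · simp
        rw [sinc_of_ne_zero (mul_ne_zero hp hd')]
        field_simp
      rw [← mul_assoc, e, show 2 * z + p * (2 * (y - z))
          = 2 * z + p * ((x - z) + (y - z)) - p * (x - y) by ring,
        show 2 * z + p * (2 * (x - z))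
          = 2 * z + p * ((x - z) + (y - z)) + p * (x - y) by ring,
        cos_sub (2 * z + p * ((x - z) + (y - z))) (p * (x - y)),
        cos_add (2 * z + p * ((x - z) + (y - z))) (p * (x - y))]
      ring
    set I := ∫ p in (0 : ℝ)..1, p * (1 - p) * sinc (p * (x - z) - p * (y - z))
        * sin (2 * z + p * ((x - z) + (y - z)))
    set I1 := ∫ p in (0 : ℝ)..1, (1 - p) * cos (2 * z + p * (2 * (x - z)))
    set I2 := ∫ p in (0 : ℝ)..1, (1 - p) * cos (2 * z + p * (2 * (y - z)))
    refine mul_left_cancel₀ (mul_ne_zero (mul_ne_zero hu' hv') hd') ?_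
    linear_combination (y - z) * (x - y) * exz + (x - z) * (x - y) * eyz
      - (x - z) * (y - z) * exy - 4 * (x - z) ^ 2 * (y - z) ^ 2 * key
      + (y - z) ^ 0 * (x - z) ^ 0 * (1 / 2) * ((y - z) ^ 2 * h1 - (x - z) ^ 2 * h2)

variable {ι : Type} [Fintype ι]

lemma PK.one_div_sin_add {a : ι → ℝ} (h0 : ∀ i, 0 < a i) (h1 : ∀ i, a i < π / 2) :
    PK fun i j => 1 / sin (a i + a j) := by
  have hs : ∀ i, 0 < sin (a i) := fun i =>
    sin_pos_of_pos_of_lt_pi (h0 i) (by linarith [h1 i, pi_pos])
  have hc : ∀ i, 0 < cos (a i) := fun i =>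
    cos_pos_of_mem_Ioo ⟨by linarith [h0 i, pi_pos], h1 i⟩
  refine ((PK.rankOne fun i => 1 / sin (a i)).mul
    (PK.cauchy fun i => div_pos (hc i) (hs i))).congr fun i j => ?_
  have hi := hs i
  have hj := hs j
  rw [sin_add, one_div_mul_one_div, one_div_mul_one_div]
  congr 1
  field_simp
  ring

/-- The cubic trace inequality. -/
theorem cubic_nonneg {a : ι → ℝ} (h0 : ∀ i, 0 < a i) (h1 : ∀ i, a i < π / 2)
    {H : Matrix ι ι ℂ} (hH : H.PosSemidef) :
    0 ≤ ∑ i, ∑ j, ∑ l, trapErr (a i) (a j)
      / (sin (a i + a j) * sin (a j + a l) * sin (a l + a i))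
      * (H i j * (H j l * H l i)).re := by
  set P : Matrix ι ι ℂ := Matrix.of fun i j => ((1 / sin (a i + a j) : ℝ) : ℂ) * H i j with hPdef
  have hP : P.PosSemidef := PK.one_div_sin_add h0 h1 H hH
  set Z : ι → ι → ι → ℝ := fun i j l => (P i j * (P j l * P l i)).re with hZ
  have hZeq : ∀ i j l, trapErr (a i) (a j)
      / (sin (a i + a j) * sin (a j + a l) * sin (a l + a i)) * (H i j * (H j l * H l i)).re
      = trapErr (a i) (a j) * Z i j l := by
    intro i j l
    simp only [hZ, hPdef, of_apply]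
    rw [show ((1 / sin (a i + a j) : ℝ) : ℂ) * H i j * (((1 / sin (a j + a l) : ℝ) : ℂ) * H j l
          * (((1 / sin (a l + a i) : ℝ) : ℂ) * H l i))
        = ((1 / sin (a i + a j) * (1 / sin (a j + a l)) * (1 / sin (a l + a i)) : ℝ) : ℂ)
          * (H i j * (H j l * H l i)) by push_cast; ring, Complex.re_ofReal_mul]
    simp only [div_eq_mul_inv, mul_inv]
    ring
  simp only [hZeq]
  have hcyc : ∀ i j l, Z i j l = Z j l i := fun i j l => by
    simp only [hZ]; congr 1; ring
  have hrot : ∀ f : ι → ι → ι → ℝ, ∑ i, ∑ j, ∑ l, f i j l = ∑ i, ∑ j, ∑ l, f j l i := fun f => by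
    conv_rhs => rw [Finset.sum_comm]
    exact Finset.sum_congr rfl fun i _ => Finset.sum_comm
  have hsum : ∑ i, ∑ j, ∑ l, trapErr (a i) (a j) * Z i j l
      = ∑ l, ∑ i, ∑ j, (trapErr (a i) (a l) + trapErr (a j) (a l) - trapErr (a i) (a j))
        * Z i j l := by
    conv_rhs => rw [Finset.sum_comm]; arg 2; ext i; rw [Finset.sum_comm]
    simp only [sub_mul, add_mul, Finset.sum_sub_distrib, Finset.sum_add_distrib]
    have e1 : ∑ i, ∑ j, ∑ l, trapErr (a i) (a l) * Z i j l
        = ∑ i, ∑ j, ∑ l, trapErr (a i) (a j) * Z i j l := by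
      rw [hrot]
      exact Finset.sum_congr rfl fun i _ => Finset.sum_congr rfl fun j _ =>
        Finset.sum_congr rfl fun l _ => by rw [trapErr_comm, ← hcyc]
    have e2 : ∑ i, ∑ j, ∑ l, trapErr (a j) (a l) * Z i j l
        = ∑ i, ∑ j, ∑ l, trapErr (a i) (a j) * Z i j l := by
      rw [hrot fun i j l => trapErr (a i) (a j) * Z i j l]
      exact Finset.sum_congr rfl fun i _ => Finset.sum_congr rfl fun j _ =>
        Finset.sum_congr rfl fun l _ => by rw [hcyc i j l]
    rw [e1, e2]
    ring
  rw [hsum]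
  refine Finset.sum_nonneg fun l _ => ?_
  set u : ι → ℝ := fun i => a i - a l with hu
  have hu2 : ∀ i, |u i| < π / 2 := fun i => by
    rw [hu, abs_lt]; constructor <;> linarith [h0 i, h1 i, h0 l, h1 l]
  set A : ℝ → ι → ι → ℝ := fun q i j => 4 * (u i * u j) *
    ∫ p in (0 : ℝ)..1, p * (1 - p) * sinc (p * u i - p * u j)
      * sineQuot (q + (1 - 2 * q) * p) (u i + u j) with hA
  have hApk : ∀ q, q = 0 ∨ q = 1 → PK (A q) := by
    intro q hq
    refine ((PK.const (by norm_num)).mul (PK.rankOne u)).mul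
      (PK.integral (a := 0) (b := 1) zero_le_one
        (f := fun p i j => p * (1 - p) * sinc (p * u i - p * u j)
          * sineQuot (q + (1 - 2 * q) * p) (u i + u j))
        (fun i j => by unfold sineQuot; fun_prop) (fun p i j => ?_) fun p hp => ?_)
    · rw [add_comm (u i), ← sinc_neg, neg_sub]
    · have hp0 := hp.1
      have hp1 := hp.2
      refine ((PK.const (mul_nonneg hp0 (sub_nonneg.2 hp1))).mul
        (PK.sinc_sub fun i => p * u i)).mul (PK.sineQuot hu2 ?_ ?_) <;>
      rcases hq with rfl | rfl <;> linarith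
  have hgr : ∀ i j, trapErr (a i) (a l) + trapErr (a j) (a l) - trapErr (a i) (a j)
      = sin (2 * a l) * A 1 i j + sin (a i + a j) * A 0 i j := by
    intro i j
    have hs : |u i + u j| < π := by
      have := abs_add_le (u i) (u j); linarith [hu2 i, hu2 j]
    rw [trapErr_gromov, hA]
    rw [mul_left_comm (sin _), mul_left_comm (sin _), ← mul_add, ← mul_assoc 4]
    congr 1
    rw [← intervalIntegral.integral_const_mul, ← intervalIntegral.integral_const_mul,
      ← intervalIntegral.integral_add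
        (by refine Continuous.intervalIntegrable ?_ _ _; unfold sineQuot; fun_prop)
        (by refine Continuous.intervalIntegrable ?_ _ _; unfold sineQuot; fun_prop)]
    refine intervalIntegral.integral_congr fun p _ => ?_
    rw [sin_add_split hs (2 * a l) p,
      show 2 * a l + (a i - a l + (a j - a l)) = a i + a j by ring,
      show 1 + (1 - 2 * 1) * p = 1 - p by ring, show (0 : ℝ) + (1 - 2 * 0) * p = p by ring]
    ring
  set c : ι → ℂ := fun i => P i l with hc
  have hterm : ∀ i j, (trapErr (a i) (a l) + trapErr (a j) (a l) - trapErr (a i) (a j)) * Z i j l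
      = sin (2 * a l) * (star (c i) * ((A 1 i j : ℂ) * P i j) * c j).re
        + (star (c i) * ((A 0 i j : ℂ) * H i j) * c j).re := by
    intro i j
    have hs : sin (a i + a j) ≠ 0 :=
      (sin_pos_of_pos_of_lt_pi (by linarith [h0 i, h0 j]) (by linarith [h1 i, h1 j])).ne'
    have hci : star (c i) = P l i := hP.1.apply l i
    have hHP : H i j = (sin (a i + a j) : ℂ) * P i j := by
      simp only [hPdef, of_apply]
      rw [← mul_assoc, ← Complex.ofReal_mul, mul_one_div, div_self hs, Complex.ofReal_one, one_mul]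
    rw [hgr, hci, hHP]
    simp only [hZ, hc]
    have eA : P l i * ((A 1 i j : ℂ) * P i j) * P j l
        = (A 1 i j : ℂ) * (P i j * (P j l * P l i)) := by ring
    have eB : P l i * ((A 0 i j : ℂ) * ((sin (a i + a j) : ℂ) * P i j)) * P j l
        = ((sin (a i + a j) * A 0 i j : ℝ) : ℂ) * (P i j * (P j l * P l i)) := by
      push_cast; ring
    rw [eA, eB, Complex.re_ofReal_mul, Complex.re_ofReal_mul]
    ring
  simp only [hterm, Finset.sum_add_distrib, ← Finset.mul_sum, ← Complex.re_sum]
  refine add_nonneg (mul_nonneg ?_ ((hApk 1 (Or.inr rfl)).form_nonneg hP c))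
    ((hApk 0 (Or.inl rfl)).form_nonneg hH c)
  exact (sin_pos_of_pos_of_lt_pi (by linarith [h0 l]) (by linarith [h1 l])).le

/-- The cubic trace inequality with the weights of the limiting residual. -/
theorem triangle_kernel_nonneg [DecidableEq ι] (a : ι → ℝ) (ha : ∀ i, 0 < a i ∧ a i < π / 2)
    (H : Matrix ι ι ℂ) (hH : H.PosSemidef) :
    0 ≤ ∑ i, ∑ j, ∑ l, (sinc (a i - a j) - cos (a i - a j))
      / (sin (a j + a l) * sin (a l + a i)) * (H i j * (H j l * H l i)).re := by
  refine (cubic_nonneg (fun i => (ha i).1) (fun i => (ha i).2) hH).trans_eq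
    (Finset.sum_congr rfl fun i _ => Finset.sum_congr rfl fun j _ =>
      Finset.sum_congr rfl fun l _ => ?_)
  have hs : sin (a i + a j) ≠ 0 := (sin_pos_of_pos_of_lt_pi (by linarith [(ha i).1, (ha j).1])
    (by linarith [(ha i).2, (ha j).2])).ne'
  rw [trapErr, hker]
  field_simp

/-- The limit of the residual weights. -/
noncomputable def kerLim (x y : ℝ) : ℝ :=
  π ^ 2 / 4 * (1 + hker (π * y / 2 - π * x / 2) / (sin (π * x / 2) * sin (π * y / 2)))

lemma tendsto_kerN_of_ne {x y : ℝ} (hx0 : 0 < x) (hx2 : x < 2) (hy0 : 0 < y) (hy2 : y < 2)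
    (hxy : x ≠ y) : Tendsto (fun N => kerN N x y) atTop (𝓝 (kerLim x y)) := by
  have hp := pi_pos
  have hsx : sin (π * x / 2) ≠ 0 :=
    (sin_pos_of_pos_of_lt_pi (by positivity) (by nlinarith)).ne'
  have hsy : sin (π * y / 2) ≠ 0 :=
    (sin_pos_of_pos_of_lt_pi (by positivity) (by nlinarith)).ne'
  have hd : π * y / 2 - π * x / 2 ≠ 0 := by
    intro h; apply hxy; nlinarith
  have hd' : y - x ≠ 0 := sub_ne_zero.2 hxy.symm
  simp only [kerN, prodSum_of_ne hx0 hx2 hy0 hy2 hxy]
  have hl := (((tendsto_cotSum hx0 hx2).sub (tendsto_cotSum hy0 hy2)).div_const (y - x)).sub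
    ((tendsto_cotSum hx0 hx2).mul (tendsto_cotSum hy0 hy2))
  convert hl using 2
  rw [kerLim, hker, sinc_of_ne_zero hd, sin_sub, cos_sub]
  field_simp
  ring

lemma tendsto_kerN {x y : ℝ} (hx0 : 0 < x) (hx2 : x < 2) (hy0 : 0 < y) (hy2 : y < 2) :
    Tendsto (fun N => kerN N x y) atTop (𝓝 (kerLim x y)) := by
  rcases ne_or_eq x y with hxy | rfl
  · exact tendsto_kerN_of_ne hx0 hx2 hy0 hy2 hxy
  have hk : kerLim x x = π ^ 2 / 4 := by simp [kerLim, hker]
  rw [hk, tendsto_order]
  refine ⟨fun a ha => ?_, fun a ha => ?_⟩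
  · filter_upwards [eventually_kerN_ge hx0 hx2 hx0 hx2 (show 0 < (π ^ 2 / 4 - a) / 2 by linarith)]
      with N hN
    linarith
  · set W : ℝ → ℝ := fun z => π / 2 * (cos (π * z / 2) / sin (π * z / 2)) with hW
    have hs : sin (π * x / 2) ≠ 0 :=
      (sin_pos_of_pos_of_lt_pi (by positivity) (by nlinarith [pi_pos])).ne'
    have hc : Tendsto (fun h : ℝ => kerLim (x - h) (x + h) + W (x - h) * W (x + h) - W x * W x)
        (𝓝 0) (𝓝 (π ^ 2 / 4)) := by
      have : ContinuousAt
          (fun h : ℝ => kerLim (x - h) (x + h) + W (x - h) * W (x + h) - W x * W x) 0 := by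
        simp only [kerLim, hker, hW]
        fun_prop (disch := simp [hs])
      simpa [hk] using this.tendsto
    have hnear : ∀ᶠ h in 𝓝[>] (0 : ℝ), (h < x ∧ h < 2 - x) ∧
        kerLim (x - h) (x + h) + W (x - h) * W (x + h) - W x * W x < a :=
      (((eventually_lt_nhds hx0).and (eventually_lt_nhds (show (0 : ℝ) < 2 - x by linarith))).and
        (hc.eventually_lt_const ha)).filter_mono nhdsWithin_le_nhds
    obtain ⟨h, ⟨⟨hh1, hh2⟩, hval⟩, hh⟩ := (hnear.and self_mem_nhdsWithin).exists
    have hh : 0 < h := hh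
    have hlim := ((tendsto_kerN_of_ne (x := x - h) (y := x + h) (by linarith) (by linarith)
      (by linarith) (by linarith) (by linarith)).add
      ((tendsto_cotSum (z := x - h) (by linarith) (by linarith)).mul
        (tendsto_cotSum (z := x + h) (by linarith) (by linarith)))).sub
      ((tendsto_cotSum hx0 hx2).mul (tendsto_cotSum hx0 hx2))
    filter_upwards [hlim.eventually_lt_const hval] with N hN
    refine lt_of_le_of_lt ?_ hN
    simp only [kerN, sub_add_cancel]
    refine sub_le_sub_right (symSum_mono fun k => ?_) _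
    have hsq : h ^ 2 < (x - 2 * (k : ℝ)) ^ 2 := by
      rcases le_or_gt k 0 with hk0 | hk0
      · have : (k : ℝ) ≤ 0 := mod_cast hk0
        nlinarith
      · have : (1 : ℝ) ≤ k := mod_cast hk0
        nlinarith
    have e1 : frac (x - h) k * frac (x + h) k = 1 / ((x - 2 * (k : ℝ)) ^ 2 - h ^ 2) := by
      rw [frac, frac, one_div_mul_one_div]; congr 1; ring
    have e2 : frac x k * frac x k = 1 / (x - 2 * (k : ℝ)) ^ 2 := by
      rw [frac, one_div_mul_one_div, sq]
    rw [e1, e2]
    exact one_div_le_one_div_of_le (by linarith) (by nlinarith)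

variable [DecidableEq ι]

/-- The residual is asymptotically at least `π² / 4` times the trace of the cube. -/
theorem eventually_calR_ge {δ : ℝ} {E G : Mat ι} (hR : InRange δ E) (hδ : 0 < δ)
    (hG : G.PosSemidef) {ε : ℝ} (hε : 0 < ε) :
    ∀ᶠ N in atTop, π ^ 2 / 4 * (trace (G * (G * G))).re - ε ≤ calR N E G := by
  obtain ⟨U, e, he⟩ := hR.exists_eig
  set H := Uᴴ * G * U with hHdef
  have hH : H.PosSemidef := hG.conjTranspose_mul_mul_same U
  have hpos : ∀ i j, 0 < e i + e j ∧ e i + e j < 2 := fun i j => by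
    obtain ⟨h1, h2⟩ := he.sum_mem i j
    constructor <;> linarith
  have hlim : Tendsto (fun N => calR N E G) atTop (𝓝 (∑ i, ∑ j, ∑ l,
      kerLim (e j + e l) (e l + e i) * (H i j * (H j l * H l i)).re)) := by
    simp only [calR_eq he hR hδ, ← hHdef]
    exact tendsto_finsetSum _ fun i _ => tendsto_finsetSum _ fun j _ => tendsto_finsetSum _
      fun l _ => (tendsto_kerN (hpos j l).1 (hpos j l).2 (hpos l i).1 (hpos l i).2).mul_const _
  have htr : (trace (G * (G * G))).re
      = ∑ i, ∑ j, ∑ l, (H i j * (H j l * H l i)).re := by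
    have e1 : trace (G * (G * G)) = trace (H * (H * H)) := by
      conv_lhs => rw [← he.conj_back G, ← hHdef]
      have : U * H * Uᴴ * (U * H * Uᴴ) = U * (H * H) * Uᴴ := by
        simp only [Matrix.mul_assoc]
        rw [← Matrix.mul_assoc Uᴴ U, he.left, Matrix.one_mul]
      rw [this, he.trace_conj]
    rw [e1, trace_mul_mul_apply]
    simp [Complex.re_sum]
  have hge : π ^ 2 / 4 * (trace (G * (G * G))).re ≤ ∑ i, ∑ j, ∑ l,
      kerLim (e j + e l) (e l + e i) * (H i j * (H j l * H l i)).re := by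
    set a : ι → ℝ := fun i => π * e i / 2 with ha
    have ha0 : ∀ i, 0 < a i := fun i => by
      have := he.lower i
      have : 0 < e i := by linarith
      positivity
    have ha1 : ∀ i, a i < π / 2 := fun i => by
      have := he.upper i
      have : e i < 1 := by linarith
      rw [ha]; nlinarith [pi_pos]
    have hc := mul_nonneg (show 0 ≤ π ^ 2 / 4 by positivity) (cubic_nonneg ha0 ha1 hH)
    rw [Finset.mul_sum] at hc
    rw [htr, Finset.mul_sum, ← sub_nonneg, ← Finset.sum_sub_distrib]
    refine hc.trans (le_of_eq (Finset.sum_congr rfl fun i _ => ?_))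
    rw [Finset.mul_sum, Finset.mul_sum, ← Finset.sum_sub_distrib]
    refine Finset.sum_congr rfl fun j _ => ?_
    rw [Finset.mul_sum, Finset.mul_sum, ← Finset.sum_sub_distrib]
    refine Finset.sum_congr rfl fun l _ => ?_
    have hs : sin (a i + a j) ≠ 0 := (sin_pos_of_pos_of_lt_pi (by linarith [ha0 i, ha0 j])
      (by linarith [ha1 i, ha1 j])).ne'
    rw [kerLim, trapErr, show π * (e l + e i) / 2 - π * (e j + e l) / 2 = a i - a j by
      simp only [ha]; ring, show π * (e j + e l) / 2 = a j + a l by simp only [ha]; ring,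
      show π * (e l + e i) / 2 = a l + a i by simp only [ha]; ring]
    field_simp
    ring
  exact hlim.eventually_const_le (by linarith)

/-- The same bound with a relative error. -/
theorem eventually_calR_ge_mul {δ : ℝ} {E G : Mat ι} (hR : InRange δ E) (hδ : 0 < δ)
    (hG : G.PosSemidef) {ε : ℝ} (hε : 0 < ε) :
    ∀ᶠ N in atTop, (π ^ 2 / 4 - ε) * (trace (G * (G * G))).re ≤ calR N E G := by
  rcases lt_or_ge 0 (trace (G * (G * G))).re with hT | hT
  · filter_upwards [eventually_calR_ge hR hδ hG (mul_pos hε hT)] with N hN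
    linarith
  obtain ⟨X, hX⟩ : ∃ X : Mat ι, G = Xᴴ * X := by
    open scoped MatrixOrder in
    obtain ⟨X, hX⟩ := CStarAlgebra.nonneg_iff_eq_star_mul_self.1 hG.nonneg
    exact ⟨X, hX⟩
  have e : (trace (G * (G * G))).re = sqF (X * G) := by
    rw [← re_trace_conjTranspose_mul, conjTranspose_mul, hG.1.eq]
    rw [Matrix.mul_assoc G Xᴴ, ← Matrix.mul_assoc Xᴴ, ← hX]
  have hXG : X * G = 0 := by
    have h0 : sqF (X * G) = 0 := le_antisymm (e ▸ hT) (sqF_nonneg _)
    ext a i
    have := (Finset.sum_eq_zero_iff_of_nonneg fun i _ => sq_nonneg _).1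
      ((Finset.sum_eq_zero_iff_of_nonneg fun a _ => by positivity).1 h0 a (Finset.mem_univ a))
      i (Finset.mem_univ i)
    simpa using this
  have hGG : Gᴴ * G = 0 := by
    rw [hG.1.eq]
    nth_rw 1 [hX]
    rw [Matrix.mul_assoc, hXG, Matrix.mul_zero]
  have hG0 : G = 0 := Matrix.conjTranspose_mul_self_eq_zero.1 hGG
  obtain ⟨U, e', he⟩ := hR.exists_eig
  refine .of_forall fun N => ?_
  rw [calR_eq he hR hδ, hG0]
  simp

end Vale.Agent.P371
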