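import Vale.Agent.P371.Kinetic
import Vale.Agent.P371.MatrixResidual

/-!
The residual bound for vector valued functions.
-/

namespace Vale.Agent.P371

open Matrix Real Filter
open scoped Topology ComplexOrder

variable {ι κ : Type} [Fintype ι] [DecidableEq ι] [Fintype κ]

omit [DecidableEq ι] in
lemma re_trace_gram_cube (A : Matrix κ ι ℂ) :
    (trace (Aᴴ * A * (Aᴴ * A * (Aᴴ * A)))).re = cube A := by
  rw [cube, ← re_trace_conjTranspose_mul]
  congr 1
  simp only [conjTranspose_mul, conjTranspose_conjTranspose, Matrix.mul_assoc]

/-- The residual bound holds in every dimension. -/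
theorem residualBound_matrix : ResidualBound ι κ := by
  intro δ E A hδ hR ε hε
  rw [← re_trace_gram_cube]
  exact eventually_calR_ge hR hδ (posSemidef_conjTranspose_mul_self A) hε

end Vale.Agent.P371
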