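import Vale.Agent.P371.Soliton
import Vale.Agent.P371.MatrixKinetic

/-!
Matrix potentials: the sharp bound at `γ = 1` holds for every matrix size.
-/

namespace Vale.Agent.P371

open Matrix MeasureTheory Filter Real
open scoped Topology ComplexOrder

/-- The sum of the `p`-th powers of the eigenvalues, counted with algebraic multiplicity. -/
noncomputable def eigPow {κ : Type} [Fintype κ] [DecidableEq κ] (M : Matrix κ κ ℂ) (p : ℝ) : ℝ :=
  (M.charpoly.roots.map fun z : ℂ => z.re ^ p).sum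

/-- A matrix potential for the exponent `γ`: measurable, positive semidefinite, with integrable
trace of the power `γ + 1/2`. -/
structure MatPotential (m : ℕ) (γ : ℝ) (W : ℝ → Matrix (Fin m) (Fin m) ℂ) : Prop where
  meas : ∀ a b, Measurable fun x => W x a b
  posSemidef : ∀ x, (W x).PosSemidef
  int : Integrable fun x => eigPow (W x) (γ + 1 / 2)

/-- `ψ` is a vector valued `H¹` eigenfunction of `∫‖ψ'‖² - ∫⟨ψ, Wψ⟩` with eigenvalue `lam`. -/
def IsMatBoundState {m : ℕ} (W : ℝ → Matrix (Fin m) (Fin m) ℂ) (lam : ℝ)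
    (ψ : Fin m → ℝ → ℂ) : Prop :=
  ∃ ψ' : Fin m → ℝ → ℂ, (∀ a, Orbital (ψ a) (ψ' a)) ∧
    ∀ η η' : Fin m → ℝ → ℂ, (∀ a, Orbital (η a) (η' a)) →
      (∫ x, ∑ a, star (η' a x) * ψ' a x) - ∫ x, ∑ a, ∑ b, star (η a x) * W x a b * ψ b x
        = (lam : ℂ) * ∫ x, ∑ a, star (η a x) * ψ a x

/-- The ratios whose supremum is the matrix Lieb-Thirring constant `L_γ(m)`. -/
def matRatios (m : ℕ) (γ : ℝ) : Set ℝ :=
  {r | ∃ W : ℝ → Matrix (Fin m) (Fin m) ℂ, MatPotential m γ W ∧
    0 < ∫ x, eigPow (W x) (γ + 1 / 2) ∧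
    ∃ (n : ℕ) (lam : Fin n → ℝ) (ψ : Fin n → Fin m → ℝ → ℂ),
      (∀ i, lam i < 0 ∧ IsMatBoundState W (lam i) (ψ i)) ∧
      (∀ i j, ∫ x, ∑ a, star (ψ i a x) * ψ j a x = if i = j then 1 else 0) ∧
      r = (∑ i, |lam i| ^ γ) / ∫ x, eigPow (W x) (γ + 1 / 2)}

section Pointwise

variable {ι κ : Type} [Fintype ι] [Fintype κ] [DecidableEq κ]

omit [DecidableEq κ] in
lemma row_pow_three_le (A : Matrix κ ι ℂ) (a : κ) :
    (∑ i, ‖A a i‖ ^ 2) ^ 3 ≤ ∑ i, ‖(A * (Aᴴ * A)) a i‖ ^ 2 := by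
  set d := ∑ i, ‖A a i‖ ^ 2 with hd
  set S := ∑ i, ‖(A * (Aᴴ * A)) a i‖ ^ 2 with hS
  have hd0 : 0 ≤ d := Finset.sum_nonneg fun _ _ => sq_nonneg _
  have hS0 : 0 ≤ S := Finset.sum_nonneg fun _ _ => sq_nonneg _
  have hpair : ∑ i, (A * (Aᴴ * A)) a i * star (A a i)
      = ((∑ b, ‖(A * Aᴴ) a b‖ ^ 2 : ℝ) : ℂ) := by
    have e1 : ∑ i, (A * (Aᴴ * A)) a i * star (A a i) = ((A * Aᴴ) * (A * Aᴴ)) a a := by
      rw [← Matrix.mul_assoc (A * Aᴴ) A Aᴴ, Matrix.mul_assoc A Aᴴ A, mul_apply]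
      simp only [conjTranspose_apply]
    rw [e1, mul_apply, Complex.ofReal_sum]
    refine Finset.sum_congr rfl fun b _ => ?_
    rw [← (isHermitian_mul_conjTranspose_self A).apply b a, Complex.star_def, Complex.mul_conj']
    push_cast
    rfl
  have hdiag : (A * Aᴴ) a a = (d : ℂ) := by
    simp only [mul_apply, conjTranspose_apply, hd, Complex.ofReal_sum, Complex.ofReal_pow,
      Complex.star_def, Complex.mul_conj']
  have h1 : d ^ 2 ≤ ∑ i, ‖(A * (Aᴴ * A)) a i‖ * ‖A a i‖ := by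
    have h := norm_sum_le Finset.univ fun i => (A * (Aᴴ * A)) a i * star (A a i)
    simp only [norm_mul, norm_star] at h
    refine le_trans ?_ h
    rw [hpair, Complex.norm_real, Real.norm_of_nonneg (Finset.sum_nonneg fun _ _ => sq_nonneg _)]
    refine le_trans (le_of_eq ?_)
      (Finset.single_le_sum (fun b _ => sq_nonneg ‖(A * Aᴴ) a b‖) (Finset.mem_univ a))
    rw [hdiag, Complex.norm_real, Real.norm_of_nonneg hd0]
  have h2 : (d ^ 2) ^ 2 ≤ S * d :=
    (pow_le_pow_left₀ (sq_nonneg d) h1 2).trans (Finset.sum_mul_sq_le_sq_mul_sq _ _ _)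
  rcases hd0.eq_or_lt with h | h
  · rw [← h]; simpa using hS0
  · refine le_of_mul_le_mul_right ?_ h
    calc d ^ 3 * d = (d ^ 2) ^ 2 := by ring
      _ ≤ S * d := h2

omit [DecidableEq κ] in
lemma eigPow_diag [DecidableEq κ] (d : κ → ℂ) (p : ℝ) :
    eigPow (diagonal d) p = ∑ a, (d a).re ^ p := by
  rw [eigPow, charpoly_diagonal, Polynomial.roots_prod]
  · simp [Multiset.map_bind, Multiset.sum_bind]
  · simp [Finset.prod_ne_zero_iff, Polynomial.X_sub_C_ne_zero]

lemma eigPow_eq {M : Matrix κ κ ℂ} (hM : M.IsHermitian) (p : ℝ) :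
    eigPow M p = ∑ a, hM.eigenvalues a ^ p := by
  simp [eigPow, hM.roots_charpoly_eq_eigenvalues, Function.comp_def]

lemma eigPow_nonneg {M : Matrix κ κ ℂ} (hM : M.PosSemidef) (p : ℝ) : 0 ≤ eigPow M p := by
  rw [eigPow_eq hM.1]
  exact Finset.sum_nonneg fun a _ => rpow_nonneg (hM.eigenvalues_nonneg a) _

/-- The matrix Young inequality. -/
lemma re_trace_le_young {M : Matrix κ κ ℂ} (hM : M.PosSemidef) (A : Matrix κ ι ℂ) :
    (trace (Aᴴ * (M * A))).re ≤ lt1 * eigPow M (3 / 2) + π ^ 2 / 4 * cube A := by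
  set U : Matrix κ κ ℂ := (hM.1.eigenvectorUnitary : Matrix κ κ ℂ) with hU
  set w := hM.1.eigenvalues with hw
  have hUU : U * Uᴴ = 1 := Unitary.coe_mul_star_self _
  have hspec : M = U * diagonal (fun a => (w a : ℂ)) * Uᴴ := hM.1.spectral_theorem
  set B := Uᴴ * A with hB
  have hcube : cube B = cube A := by
    have h1 : B * (Bᴴ * B) = Uᴴ * (A * (Aᴴ * A)) := by
      rw [hB, conjTranspose_mul, conjTranspose_conjTranspose]
      simp only [Matrix.mul_assoc]
      rw [← Matrix.mul_assoc U Uᴴ A, hUU, Matrix.one_mul]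
    rw [cube, cube, h1, ← re_trace_conjTranspose_mul, ← re_trace_conjTranspose_mul,
      conjTranspose_mul Uᴴ, conjTranspose_conjTranspose, Matrix.mul_assoc _ U,
      ← Matrix.mul_assoc U Uᴴ, hUU, Matrix.one_mul]
  have htr : (trace (Aᴴ * (M * A))).re = ∑ a, w a * ∑ i, ‖B a i‖ ^ 2 := by
    have e : Aᴴ * (M * A) = Bᴴ * (diagonal (fun a => (w a : ℂ)) * B) := by
      rw [hspec, hB, conjTranspose_mul, conjTranspose_conjTranspose]
      simp only [Matrix.mul_assoc]
    rw [e]
    simp only [trace, diag, mul_apply (M := Bᴴ), diagonal_mul, conjTranspose_apply,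
      Complex.re_sum, Finset.mul_sum]
    rw [Finset.sum_comm]
    refine Finset.sum_congr rfl fun a _ => Finset.sum_congr rfl fun i _ => ?_
    rw [Complex.star_def, mul_left_comm, Complex.conj_mul', ← Complex.ofReal_pow,
      ← Complex.ofReal_mul, Complex.ofReal_re]
  have hrows : ∑ a, (∑ i, ‖B a i‖ ^ 2) ^ 3 ≤ cube B :=
    Finset.sum_le_sum fun a _ => row_pow_three_le B a
  rw [htr, eigPow_eq hM.1, ← hw, ← hcube, Finset.mul_sum]
  calc ∑ a, w a * ∑ i, ‖B a i‖ ^ 2
      ≤ ∑ a, (lt1 * w a ^ (3 / 2 : ℝ) + π ^ 2 / 4 * (∑ i, ‖B a i‖ ^ 2) ^ 3) :=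
        Finset.sum_le_sum fun a _ =>
          mul_le_lt1 (hM.eigenvalues_nonneg a) (Finset.sum_nonneg fun i _ => sq_nonneg _)
    _ ≤ _ := by
        rw [Finset.sum_add_distrib, ← Finset.mul_sum (a := π ^ 2 / 4)]
        exact add_le_add le_rfl (mul_le_mul_of_nonneg_left hrows (by positivity))

lemma norm_apply_le_trace {M : Matrix κ κ ℂ} (hM : M.PosSemidef) (a b : κ) :
    ‖M a b‖ ≤ (trace M).re := by
  obtain ⟨B, hB⟩ : ∃ B : Matrix κ κ ℂ, M = Bᴴ * B := by
    open scoped MatrixOrder in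
    obtain ⟨B, hB⟩ := CStarAlgebra.nonneg_iff_eq_star_mul_self.1 hM.nonneg
    exact ⟨B, hB⟩
  rw [hB, re_trace_conjTranspose_mul]
  exact norm_gram_apply_le B a b

lemma trace_rpow_le {M : Matrix κ κ ℂ} (hM : M.PosSemidef) :
    (trace M).re ^ (3 / 2 : ℝ) ≤ (Fintype.card κ : ℝ) ^ (3 / 2 : ℝ) * eigPow M (3 / 2) := by
  rw [eigPow_eq hM.1, hM.1.trace_eq_sum_eigenvalues]
  simp only [Complex.re_sum]
  set w := hM.1.eigenvalues with hw
  have h0 : ∀ a, 0 ≤ w a := hM.eigenvalues_nonneg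
  have hS : 0 ≤ ∑ a, ((w a : ℝ) : ℂ).re := Finset.sum_nonneg fun a _ => by simpa using h0 a
  rcases isEmpty_or_nonempty κ with he | he
  · simp
  obtain ⟨a₀, -, ha₀⟩ := Finset.exists_max_image (Finset.univ : Finset κ) w Finset.univ_nonempty
  have h1 : ∑ a, ((w a : ℝ) : ℂ).re ≤ Fintype.card κ * w a₀ := by
    refine (Finset.sum_le_card_nsmul _ _ (w a₀) fun a ha => by simpa using ha₀ a ha).trans ?_
    simp
  calc (∑ a, ((w a : ℝ) : ℂ).re) ^ (3 / 2 : ℝ) ≤ ((Fintype.card κ : ℝ) * w a₀) ^ (3 / 2 : ℝ) :=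
        rpow_le_rpow hS h1 (by norm_num)
    _ = (Fintype.card κ : ℝ) ^ (3 / 2 : ℝ) * w a₀ ^ (3 / 2 : ℝ) :=
        mul_rpow (by positivity) (h0 a₀)
    _ ≤ _ := mul_le_mul_of_nonneg_left (Finset.single_le_sum
        (fun a _ => rpow_nonneg (h0 a) _) (Finset.mem_univ a₀)) (by positivity)

end Pointwise

variable {m : ℕ}

/-- Every value of the potential term is a genuine integral. -/
lemma MatPotential.integrable_entry {W : ℝ → Matrix (Fin m) (Fin m) ℂ} (hW : MatPotential m 1 W)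
    {u u' v v' : ℝ → ℂ} (hu : Orbital u u') (hv : Orbital v v') (a b : Fin m) :
    Integrable fun x => star (u x) * W x a b * v x := by
  set T := fun x => (trace (W x)).re with hT
  have hTm : Measurable T := by
    simp only [hT, trace, Matrix.diag]
    exact Complex.measurable_re.comp (Finset.measurable_fun_sum _ fun c _ => hW.meas c c)
  have hTi : Integrable fun x => T x ^ (3 / 2 : ℝ) := by
    refine (hW.int.const_mul ((Fintype.card (Fin m) : ℝ) ^ (3 / 2 : ℝ))).mono'
      (hTm.pow_const _).aestronglyMeasurable (.of_forall fun x => ?_)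
    have h0 : 0 ≤ T x := le_trans (norm_nonneg _) (norm_apply_le_trace (hW.posSemidef x) a a)
    rw [Real.norm_of_nonneg (rpow_nonneg h0 _), show (1 : ℝ) + 1 / 2 = 3 / 2 by norm_num]
    exact trace_rpow_le (hW.posSemidef x)
  have hWs : ∀ {f f' : ℝ → ℂ}, Orbital f f' → Integrable fun x => T x * ‖f x‖ ^ 2 := by
    intro f f' hf
    refine ((hTi.add hf.sq).add hf.integrable_sq_cube).mono'
      (hTm.aestronglyMeasurable.mul (hf.continuous.norm.pow 2).aestronglyMeasurable)
      (.of_forall fun x => ?_)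
    have h0 : 0 ≤ T x := le_trans (norm_nonneg _) (norm_apply_le_trace (hW.posSemidef x) a a)
    rw [Real.norm_of_nonneg (mul_nonneg h0 (sq_nonneg _))]
    exact mul_sq_le_of_one_lt le_rfl h0 (sq_nonneg _)
  refine ((hWs hu).add (hWs hv)).mono'
    ((hu.continuous.star.aestronglyMeasurable.mul (hW.meas a b).aestronglyMeasurable).mul
      hv.continuous.aestronglyMeasurable) (.of_forall fun x => ?_)
  rw [norm_mul, norm_mul, norm_star, Pi.add_apply, ← mul_add, mul_comm ‖u x‖, mul_assoc]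
  refine mul_le_mul (norm_apply_le_trace (hW.posSemidef x) a b) ?_ (by positivity)
    (le_trans (norm_nonneg _) (norm_apply_le_trace (hW.posSemidef x) a a))
  nlinarith [two_mul_le_add_sq ‖u x‖ ‖v x‖]

/-- The eigenvalue as the value of the form. -/
lemma IsMatBoundState.energy {W : ℝ → Matrix (Fin m) (Fin m) ℂ} (hW : MatPotential m 1 W)
    {lam : ℝ} {ψ : Fin m → ℝ → ℂ} (h : IsMatBoundState W lam ψ)
    (hn : ∫ x, ∑ a, star (ψ a x) * ψ a x = 1) :
    ∃ ψ' : Fin m → ℝ → ℂ, (∀ a, Orbital (ψ a) (ψ' a)) ∧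
      (∑ a, ∫ x, ‖ψ' a x‖ ^ 2) - ∫ x, (∑ a, ∑ b, star (ψ a x) * W x a b * ψ b x).re = lam := by
  obtain ⟨ψ', ho, he⟩ := h
  refine ⟨ψ', ho, ?_⟩
  have := congrArg Complex.re (he ψ ψ' ho)
  rw [hn, mul_one, Complex.ofReal_re, Complex.sub_re] at this
  have hI : Integrable fun x => ∑ a, ∑ b, star (ψ a x) * W x a b * ψ b x :=
    integrable_finsetSum _ fun a _ => integrable_finsetSum _ fun b _ =>
      hW.integrable_entry (ho a) (ho b) a b
  have e1 : (∫ x, ∑ a, star (ψ' a x) * ψ' a x).re = ∑ a, ∫ x, ‖ψ' a x‖ ^ 2 := by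
    simp only [Complex.star_def, Complex.conj_mul', ← Complex.ofReal_pow, ← Complex.ofReal_sum,
      integral_complex_ofReal, Complex.ofReal_re]
    exact integral_finsetSum _ fun a _ => (ho a).sq'
  have e2 : (∫ x, ∑ a, ∑ b, star (ψ a x) * W x a b * ψ b x).re
      = ∫ x, (∑ a, ∑ b, star (ψ a x) * W x a b * ψ b x).re :=
    (integral_re hI).symm
  rw [e1, e2] at this
  exact this

/-- Every finite eigenvalue sum of a matrix potential obeys the sharp scalar bound. -/
theorem matRatios_one_le {r : ℝ} (hr : r ∈ matRatios m 1) : r ≤ lt1 := by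
  obtain ⟨W, hW, hpos, n, lam, ψ, hb, horth, rfl⟩ := hr
  rw [div_le_iff₀ hpos]
  choose ψ' ho he using fun i => (hb i).2.energy hW (by simpa using horth i i)
  obtain ⟨hc, hk⟩ := kinetic_orbitals_vec (κ := Fin m) (ψ := fun a i => ψ i a)
    (ψ' := fun a i => ψ' i a) residualBound_matrix (fun a i => ho i a) horth
  set A : ℝ → Matrix (Fin m) (Fin n) ℂ := fun x => Matrix.of fun a i => ψ i a x with hA
  have hq : ∀ x, (trace ((A x)ᴴ * (W x * A x))).re
      = ∑ i, (∑ a, ∑ b, star (ψ i a x) * W x a b * ψ i b x).re := fun x => by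
    simp only [trace, Matrix.diag, mul_apply, conjTranspose_apply, hA, of_apply, Finset.mul_sum,
      Complex.re_sum, mul_assoc]
  have hI : ∀ i, Integrable fun x => (∑ a, ∑ b, star (ψ i a x) * W x a b * ψ i b x).re := fun i =>
    (integrable_finsetSum _ fun a _ => integrable_finsetSum _ fun b _ =>
      hW.integrable_entry (ho i a) (ho i b) a b).re
  have hWi : Integrable fun x => eigPow (W x) (3 / 2) :=
    hW.int.congr (.of_forall fun x => by norm_num)
  have hup : ∑ i, ∫ x, (∑ a, ∑ b, star (ψ i a x) * W x a b * ψ i b x).re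
      ≤ lt1 * (∫ x, eigPow (W x) (3 / 2)) + π ^ 2 / 4 * ∫ x, cube (A x) := by
    rw [← integral_finsetSum _ fun i _ => hI i, ← integral_const_mul, ← integral_const_mul,
      ← integral_add (hWi.const_mul _) (hc.const_mul _)]
    refine integral_mono (integrable_finsetSum _ fun i _ => hI i)
      ((hWi.const_mul _).add (hc.const_mul _)) fun x => ?_
    rw [← hq]
    exact re_trace_le_young (hW.posSemidef x) (A x)
  have hT : ∫ x, sqF (Matrix.of fun a i => ψ' i a x) = ∑ i, ∑ a, ∫ x, ‖ψ' i a x‖ ^ 2 := by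
    simp only [sqF, of_apply]
    rw [Finset.sum_comm]
    rw [integral_finsetSum _ fun a _ => integrable_finsetSum _ fun i _ => (ho i a).sq']
    exact Finset.sum_congr rfl fun a _ => integral_finsetSum _ fun i _ => (ho i a).sq'
  have h3 : ∀ i, |lam i| ^ (1 : ℝ) = (∫ x, (∑ a, ∑ b, star (ψ i a x) * W x a b * ψ i b x).re)
      - ∑ a, ∫ x, ‖ψ' i a x‖ ^ 2 := fun i => by
    rw [rpow_one, abs_of_neg (hb i).1, ← he i]; ring
  simp only [h3, Finset.sum_sub_distrib, show (1 : ℝ) + 1 / 2 = 3 / 2 by norm_num]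
  linarith

/-- A scalar potential placed in the first component. -/
noncomputable def embedW (k : ℕ) (W : ℝ → ℝ) (x : ℝ) : Matrix (Fin (k + 1)) (Fin (k + 1)) ℂ :=
  diagonal fun a => if a = 0 then (W x : ℂ) else 0

/-- A scalar function placed in the first component. -/
def embedF (k : ℕ) (f : ℝ → ℂ) (a : Fin (k + 1)) : ℝ → ℂ := if a = 0 then f else fun _ => 0

lemma orbital_zero : Orbital (fun _ => 0) (fun _ => 0) :=
  ⟨MemLp.zero, MemLp.zero, fun a b => by simp⟩

/-- The scalar optimiser gives the same value for every matrix size. -/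
theorem lt1_mem_matRatios (k : ℕ) : lt1 ∈ matRatios (k + 1) 1 := by
  have hp : ∀ x, eigPow (embedW k solW x) ((1 : ℝ) + 1 / 2) = solW x ^ ((1 : ℝ) + 1 / 2) := by
    intro x
    rw [embedW, eigPow_diag, Finset.sum_eq_single 0]
    · simp
    · intro a _ ha
      rw [if_neg ha, Complex.zero_re, zero_rpow (by norm_num)]
    · simp
  refine ⟨embedW k solW, ⟨fun a b => ?_, fun x => ?_, ?_⟩, ?_, 1, fun _ => -(1 / 4),
    fun _ => embedF k fun x => (solF x : ℂ), fun _ => ⟨by norm_num, ?_⟩, fun i j => ?_, ?_⟩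
  · simp only [embedW, diagonal_apply]
    have := Complex.measurable_ofReal.comp continuous_solW.measurable
    split_ifs <;> first | exact this | exact measurable_const
  · refine PosSemidef.diagonal fun a => ?_
    simp only [Pi.zero_apply]
    split_ifs with h
    · exact Complex.zero_le_real.2 (by unfold solW; positivity)
    · exact le_rfl
  · simp only [hp]; exact potential_solW.int
  · simp only [hp, integral_solW]; positivity
  · obtain ⟨g, hg, he⟩ := isBoundState_solF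
    refine ⟨embedF k g, fun a => ?_, fun η η' h => ?_⟩
    · by_cases h : a = 0
      · simpa [embedF, h] using hg
      · simpa [embedF, h] using orbital_zero
    · simp only [embedF, embedW, diagonal_apply, apply_ite, ite_mul, zero_mul, mul_zero,
        Finset.sum_ite_eq', Finset.sum_ite_eq, Finset.mem_univ, if_true, ite_apply]
      rw [← he (η 0) (η' 0) (h 0)]
      congr 1
      exact integral_congr_ae (.of_forall fun x => by ring)
  · rw [Subsingleton.elim i j, if_pos rfl]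
    have e : ∀ x, ∑ a, star (embedF k (fun x => (solF x : ℂ)) a x)
        * embedF k (fun x => (solF x : ℂ)) a x = ((π⁻¹ * (1 / cosh x) : ℝ) : ℂ) := fun x => by
      rw [Finset.sum_eq_single 0 (fun a _ ha => by simp [embedF, ha]) (by simp), embedF, if_pos rfl,
        Complex.star_def, Complex.conj_ofReal, ← Complex.ofReal_mul, ← sq, solF_sq]
    rw [integral_congr_ae (.of_forall e), integral_complex_ofReal, integral_const_mul,
      sech_integral.2, inv_mul_cancel₀ pi_ne_zero, Complex.ofReal_one]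
  · simp only [hp, integral_solW, lt1]
    norm_num
    field_simp
    ring

/-- `L_1(m) = L_1(1)` for every `m ≥ 1`. -/
theorem isLUB_matRatios_one (hm : 1 ≤ m) : IsLUB (matRatios m 1) lt1 := by
  obtain ⟨k, rfl⟩ : ∃ k, m = k + 1 := ⟨m - 1, by omega⟩
  exact ⟨fun _ hr => matRatios_one_le hr, fun _ hb => hb (lt1_mem_matRatios k)⟩

end Vale.Agent.P371
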