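import Vale.Agent.P371.Lyap

/-!
The sharp one dimensional kinetic inequality for finitely many smooth functions whose Gram matrix
is at most one.
-/

namespace Vale.Agent.P371

open Matrix MeasureTheory Filter Real
open scoped Matrix.Norms.Frobenius Topology

variable {ι κ : Type} [Fintype ι] [DecidableEq ι] [Fintype κ]

/-- Smooth square integrable functions with square integrable derivatives and Gram matrix at
most one. -/
structure Frame (ψ ψ' : κ → ι → ℝ → ℂ) : Prop where
  deriv : ∀ a i x, HasDerivAt (ψ a i) (ψ' a i x) x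
  cont : ∀ a i, Continuous (ψ' a i)
  sq : ∀ a i, Integrable fun x => ‖ψ a i x‖ ^ 2
  sq' : ∀ a i, Integrable fun x => ‖ψ' a i x‖ ^ 2
  bessel : ∀ v : ι → ℂ, ∫ x, ∑ a, ‖∑ i, ψ a i x * v i‖ ^ 2 ≤ ∑ i, ‖v i‖ ^ 2

/-- The trace of the cube of `A Aᴴ`. -/
noncomputable def cube (A : Matrix κ ι ℂ) : ℝ := sqF (A * (Aᴴ * A))

omit [DecidableEq ι] in
lemma cube_nonneg (A : Matrix κ ι ℂ) : 0 ≤ cube A := sqF_nonneg _

omit [DecidableEq ι] in
lemma cube_smul (r : ℝ) (A : Matrix κ ι ℂ) : cube ((r : ℂ) • A) = r ^ 6 * cube A := by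
  simp only [cube, conjTranspose_smul, Matrix.smul_mul, Matrix.mul_smul, smul_smul,
    Complex.star_def, Complex.conj_ofReal, ← Complex.ofReal_mul]
  simp only [sqF, Matrix.smul_apply, norm_smul, mul_pow, Finset.mul_sum, Complex.norm_real,
    Real.norm_eq_abs, sq_abs]
  refine Finset.sum_congr rfl fun a _ => Finset.sum_congr rfl fun i _ => ?_
  ring

omit [DecidableEq ι] in
lemma cube_le (A : Matrix κ ι ℂ) : cube A ≤ (Fintype.card ι : ℝ) ^ 2 * sqF A ^ 3 := by
  have hrow : ∀ a, ∑ l, ‖(A * (Aᴴ * A)) a l‖ ^ 2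
      ≤ (Fintype.card ι : ℝ) ^ 2 * ((∑ i, ‖A a i‖ ^ 2) * sqF A ^ 2) := by
    intro a
    have h : ∀ l, ‖(A * (Aᴴ * A)) a l‖ ^ 2
        ≤ (∑ i, ‖A a i‖ ^ 2) * ((Fintype.card ι : ℝ) * sqF A ^ 2) := by
      intro l
      rw [mul_apply]
      refine (pow_le_pow_left₀ (norm_nonneg _) (norm_sum_le _ _) 2).trans ?_
      simp only [norm_mul]
      refine (Finset.sum_mul_sq_le_sq_mul_sq _ _ _).trans ?_
      refine mul_le_mul_of_nonneg_left ?_ (Finset.sum_nonneg fun _ _ => sq_nonneg _)
      calc ∑ i, ‖(Aᴴ * A) i l‖ ^ 2 ≤ ∑ _i : ι, sqF A ^ 2 :=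
            Finset.sum_le_sum fun i _ =>
              pow_le_pow_left₀ (norm_nonneg _) (norm_gram_apply_le A i l) 2
        _ = _ := by simp [nsmul_eq_mul]
    refine (Finset.sum_le_sum fun l _ => h l).trans (le_of_eq ?_)
    rw [Finset.sum_const, Finset.card_univ, nsmul_eq_mul]
    ring
  refine (Finset.sum_le_sum fun a _ => hrow a).trans (le_of_eq ?_)
  simp only [← Finset.mul_sum, ← Finset.sum_mul, sqF]
  ring

omit [DecidableEq ι] in
lemma cube_eq_sqF_pow [Unique κ] (A : Matrix κ ι ℂ) : cube A = sqF A ^ 3 := by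
  have h : ∀ l, (A * (Aᴴ * A)) default l = (sqF A : ℂ) * A default l := by
    intro l
    simp only [mul_apply, sqF, Fintype.sum_unique, conjTranspose_apply, Complex.ofReal_sum,
      Finset.sum_mul]
    refine Finset.sum_congr rfl fun i _ => ?_
    rw [Complex.ofReal_pow, ← Complex.mul_conj', Complex.star_def]
    ring
  have e : cube A = ∑ l, sqF A ^ 2 * ‖A default l‖ ^ 2 := by
    simp only [cube, sqF, Fintype.sum_unique]
    refine Finset.sum_congr rfl fun l _ => ?_
    rw [h, norm_mul, mul_pow, Complex.norm_real, Real.norm_eq_abs, sq_abs]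
    simp [sqF]
  rw [e, ← Finset.mul_sum]
  simp only [sqF, Fintype.sum_unique]
  ring

omit [DecidableEq ι] in
lemma continuous_cube {A : ℝ → Matrix κ ι ℂ} (hA : ∀ a i, Continuous fun x => A x a i) :
    Continuous fun x => cube (A x) := by
  simp only [cube, sqF, mul_apply, conjTranspose_apply]
  exact continuous_finsetSum _ fun a _ => continuous_finsetSum _ fun i _ =>
    ((continuous_finsetSum _ fun j _ => (hA a j).mul
      (continuous_finsetSum _ fun b _ => (hA b j).star.mul (hA b i))).norm).pow 2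

/-- The residual is asymptotically above the sharp cubic term. -/
def ResidualBound (ι κ : Type) [Fintype ι] [DecidableEq ι] [Fintype κ] : Prop :=
  ∀ (δ : ℝ) (E : Mat ι) (A : Matrix κ ι ℂ), 0 < δ → InRange δ E → ∀ ε > 0,
    ∀ᶠ N in atTop, π ^ 2 / 4 * cube A - ε ≤ calR N E (Aᴴ * A)

section Bounds

variable {δ : ℝ} {E : Mat ι}

omit [DecidableEq ι] in
lemma Eig.gram_conj {U : Mat ι} (A : Matrix κ ι ℂ) :
    Uᴴ * (Aᴴ * A) * U = (A * U)ᴴ * (A * U) := by
  simp only [conjTranspose_mul, Matrix.mul_assoc]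

lemma Eig.sqF_mul {U : Mat ι} {e : ι → ℝ} (he : Eig δ E U e) (A : Matrix κ ι ℂ) :
    sqF (A * U) = sqF A := by
  rw [← re_trace_conjTranspose_mul, ← re_trace_conjTranspose_mul, ← Eig.gram_conj,
    Matrix.trace_mul_comm, ← Matrix.mul_assoc, he.right, Matrix.one_mul]

lemma calR_lower (hR : InRange δ E) (hδ : 0 < δ) (A : Matrix κ ι ℂ) (N : ℕ) :
    -((Fintype.card ι : ℝ) ^ 3 * (20 / (2 * δ) ^ 2 + (82 / (2 * δ) ^ 2) ^ 2) * sqF A ^ 3)
      ≤ calR N E (Aᴴ * A) := by
  obtain ⟨U, e, he⟩ := hR.exists_eig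
  rw [calR_eq he hR hδ, Eig.gram_conj, ← he.sqF_mul A]
  set Φ := A * U
  set C : ℝ := 20 / (2 * δ) ^ 2 + (82 / (2 * δ) ^ 2) ^ 2
  have hsum : -((Fintype.card ι : ℝ) ^ 3 * C * sqF Φ ^ 3)
      = ∑ _i : ι, ∑ _j : ι, ∑ _l : ι, -(C * sqF Φ ^ 3) := by
    simp only [Finset.sum_const, Finset.card_univ, nsmul_eq_mul]
    ring
  rw [hsum]
  refine Finset.sum_le_sum fun i _ => Finset.sum_le_sum fun j _ => Finset.sum_le_sum fun l _ => ?_
  have hd1 : 2 * δ ≤ 1 := by linarith [he.lower i, he.upper i]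
  obtain ⟨a1, a2⟩ := he.sum_mem j l
  obtain ⟨b1, b2⟩ := he.sum_mem l i
  refine (neg_le_neg ?_).trans (neg_abs_le _)
  rw [abs_mul]
  refine mul_le_mul (abs_kerN_le (by linarith) hd1 a1 a2 b1 b2 N)
    ((Complex.abs_re_le_norm _).trans ?_) (abs_nonneg _) (by positivity)
  rw [norm_mul, norm_mul, pow_succ' (sqF Φ) 2, sq]
  have h0 := sqF_nonneg Φ
  gcongr <;> exact norm_gram_apply_le Φ _ _

lemma abs_calQ_le (hR : InRange δ E) (hδ : 0 < δ) (A : Matrix κ ι ℂ) (N : ℕ) :
    |calQ N E (Aᴴ * A)| ≤ (Fintype.card ι : ℝ) ^ 2 * (82 / (2 * δ) ^ 2) * sqF A ^ 2 := by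
  obtain ⟨U, e, he⟩ := hR.exists_eig
  rw [calQ_eq he hR hδ, Eig.gram_conj, ← he.sqF_mul A]
  set Φ := A * U
  refine (Finset.abs_sum_le_sum_abs _ _).trans ?_
  refine (Finset.sum_le_sum fun i _ => Finset.abs_sum_le_sum_abs _ _).trans ?_
  have hsum : (Fintype.card ι : ℝ) ^ 2 * (82 / (2 * δ) ^ 2) * sqF Φ ^ 2
      = ∑ _i : ι, ∑ _j : ι, 82 / (2 * δ) ^ 2 * sqF Φ ^ 2 := by
    simp only [Finset.sum_const, Finset.card_univ, nsmul_eq_mul]
    ring
  rw [hsum]
  refine Finset.sum_le_sum fun i _ => Finset.sum_le_sum fun j _ => ?_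
  have hd1 : 2 * δ ≤ 1 := by linarith [he.lower i, he.upper i]
  obtain ⟨a1, a2⟩ := he.sum_mem j i
  rw [abs_mul]
  refine mul_le_mul (abs_cotSum_le (by linarith) hd1 a1 a2 N) ?_ (abs_nonneg _) (by positivity)
  rw [abs_div, abs_two]
  refine (div_le_self (abs_nonneg _) one_le_two).trans ((Complex.abs_re_le_norm _).trans ?_)
  rw [norm_mul, sq]
  have h0 := sqF_nonneg Φ
  gcongr <;> exact norm_gram_apply_le Φ _ _

end Bounds

lemma hasDerivAt_matrix {f : ℝ → Mat ι} {f' : Mat ι} {x : ℝ}
    (h : ∀ i j, HasDerivAt (fun y => f y i j) (f' i j) x) : HasDerivAt f f' x := by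
  have e : ∀ X : Mat ι, X = ∑ i, ∑ j, X i j • Matrix.single i j (1 : ℂ) := fun X => by
    conv_lhs => rw [matrix_eq_sum_single X]
    simp [smul_single]
  rw [funext fun y => e (f y), e f']
  exact HasDerivAt.fun_sum fun i _ => HasDerivAt.fun_sum fun j _ =>
    (h i j).smul_const (Matrix.single i j (1 : ℂ))

lemma continuous_trace_re : Continuous fun X : Mat ι => (trace X).re :=
  AddMonoidHomClass.continuous_of_bound
    (Complex.reAddGroupHom.comp (Matrix.traceAddMonoidHom ι ℂ)) (Fintype.card ι) fun X => by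
      simp only [AddMonoidHom.coe_comp, Function.comp_apply, Complex.coe_reAddGroupHom,
        Matrix.traceAddMonoidHom_apply, Real.norm_eq_abs]
      refine (Complex.abs_re_le_norm _).trans ((norm_sum_le _ _).trans ?_)
      refine (Finset.sum_le_card_nsmul _ _ ‖X‖ fun i _ => ?_).trans (le_of_eq (by simp))
      refine le_of_pow_le_pow_left₀ two_ne_zero (norm_nonneg _) ?_
      rw [norm_sq_eq_sqF, diag_apply]
      exact (Finset.single_le_sum (f := fun j => ‖X i j‖ ^ 2) (fun _ _ => sq_nonneg _)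
        (Finset.mem_univ i)).trans (Finset.single_le_sum (f := fun l => ∑ j, ‖X l j‖ ^ 2)
          (fun _ _ => Finset.sum_nonneg fun _ _ => sq_nonneg _) (Finset.mem_univ i))

namespace Frame

variable {ψ ψ' : κ → ι → ℝ → ℂ} (h : Frame ψ ψ')

include h

lemma continuous (a : κ) (i : ι) : Continuous (ψ a i) :=
  continuous_iff_continuousAt.2 fun x => (h.deriv a i x).continuousAt

lemma integrable_mul (a b : κ) (i j : ι) :
    Integrable fun x => star (ψ a i x) * ψ b j x := by
  refine ((h.sq a i).add (h.sq b j)).mono'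
    ((h.continuous a i).star.mul (h.continuous b j)).aestronglyMeasurable
    (.of_forall fun x => ?_)
  rw [norm_mul, norm_star, Pi.add_apply]
  nlinarith [two_mul_le_add_sq ‖ψ a i x‖ ‖ψ b j x‖, norm_nonneg (ψ a i x), norm_nonneg (ψ b j x)]

lemma integrable_dens : Integrable fun x => sqF (Matrix.of fun a i => ψ a i x) := by
  simp only [sqF, of_apply]
  exact integrable_finsetSum _ fun a _ => integrable_finsetSum _ fun i _ => h.sq a i

lemma integrable_kin : Integrable fun x => sqF (Matrix.of fun a i => ψ' a i x) := by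
  simp only [sqF, of_apply]
  exact integrable_finsetSum _ fun a _ => integrable_finsetSum _ fun i _ => h.sq' a i

lemma tendsto_dens_zero :
    Tendsto (fun x => sqF (Matrix.of fun a i => ψ a i x)) atTop (𝓝 0) ∧
      Tendsto (fun x => sqF (Matrix.of fun a i => ψ a i x)) atBot (𝓝 0) := by
  have hd : ∀ x, HasDerivAt (fun x => sqF (Matrix.of fun a i => ψ a i x))
      (∑ a, ∑ i, 2 * inner ℝ (ψ a i x) (ψ' a i x)) x := fun x => by
    simp only [sqF, of_apply]
    exact HasDerivAt.fun_sum fun a _ => HasDerivAt.fun_sum fun i _ => (h.deriv a i x).norm_sq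
  have hi : Integrable fun x => ∑ a, ∑ i, 2 * inner ℝ (ψ a i x) (ψ' a i x) := by
    refine integrable_finsetSum _ fun a _ => integrable_finsetSum _ fun i _ => ?_
    refine ((h.sq a i).add (h.sq' a i)).mono'
      (continuous_const.mul ((h.continuous a i).inner (h.cont a i))).aestronglyMeasurable
      (.of_forall fun x => ?_)
    rw [Real.norm_eq_abs, abs_mul, abs_two, Pi.add_apply]
    have h1 := abs_real_inner_le_norm (ψ a i x) (ψ' a i x)
    nlinarith [two_mul_le_add_sq ‖ψ a i x‖ ‖ψ' a i x‖]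
  exact ⟨tendsto_zero_of_hasDerivAt_of_integrableOn_Ioi (a := 0) (fun x _ => hd x)
      hi.integrableOn h.integrable_dens.integrableOn,
    tendsto_zero_of_hasDerivAt_of_integrableOn_Iic (a := 0) (fun x _ => hd x)
      hi.integrableOn h.integrable_dens.integrableOn⟩

omit h in
/-- The regularised cumulative Gram matrix. -/
noncomputable def cumGram (ψ : κ → ι → ℝ → ℂ) (δ x : ℝ) : Mat ι :=
  (δ : ℂ) • 1 + ((1 - 2 * δ : ℝ) : ℂ) •
    Matrix.of fun i j => ∫ t in Set.Iic x, ∑ a, star (ψ a i t) * ψ a j t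

lemma inRange_cumGram {δ : ℝ} (hδ : 0 < δ) (hδ' : 2 * δ ≤ 1) (x : ℝ) :
    InRange δ (cumGram ψ δ x) := by
  have hint : ∀ i j, Integrable (fun t => ∑ a, star (ψ a i t) * ψ a j t)
      (volume.restrict (Set.Iic x)) := fun i j =>
    (integrable_finsetSum _ fun a _ => h.integrable_mul a a i j).restrict
  have hform : ∀ v : ι → ℂ, (star v ⬝ᵥ cumGram ψ δ x *ᵥ v).re
      = δ * ∑ i, ‖v i‖ ^ 2
        + (1 - 2 * δ) * ∫ t in Set.Iic x, ∑ a, ‖∑ i, ψ a i t * v i‖ ^ 2 := by
    intro v
    have e1 : star v ⬝ᵥ v = ((∑ i, ‖v i‖ ^ 2 : ℝ) : ℂ) := by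
      simp only [dotProduct, Pi.star_apply, Complex.ofReal_sum]
      refine Finset.sum_congr rfl fun i _ => ?_
      rw [Complex.star_def, Complex.conj_mul']
      push_cast
      rfl
    have e2 : star v ⬝ᵥ (Matrix.of fun i j => ∫ t in Set.Iic x,
          ∑ a, star (ψ a i t) * ψ a j t) *ᵥ v
        = ((∫ t in Set.Iic x, ∑ a, ‖∑ i, ψ a i t * v i‖ ^ 2 : ℝ) : ℂ) := by
      rw [← integral_complex_ofReal]
      simp only [dotProduct, mulVec, of_apply, Finset.mul_sum, Pi.star_apply]
      have e3 : ∀ i j, star (v i) * ((∫ t in Set.Iic x, ∑ a, star (ψ a i t) * ψ a j t) * v j)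
          = ∫ t in Set.Iic x, star (v i) * ((∑ a, star (ψ a i t) * ψ a j t) * v j) := fun i j => by
        rw [integral_const_mul, integral_mul_const]
      simp only [e3]
      have hI : ∀ i j, Integrable (fun t => star (v i) * ((∑ a, star (ψ a i t) * ψ a j t) * v j))
          (volume.restrict (Set.Iic x)) := fun i j => ((hint i j).mul_const _).const_mul _
      simp only [← integral_finsetSum _ (fun j _ => hI _ j)]
      rw [← integral_finsetSum _ fun i _ => integrable_finsetSum _ fun j _ => hI i j]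
      refine integral_congr_ae (.of_forall fun t => ?_)
      simp only [Complex.ofReal_sum, Complex.ofReal_pow, ← Complex.conj_mul', map_sum, map_mul,
        Finset.sum_mul, Finset.mul_sum, starRingEnd_apply]
      conv_lhs => rw [Finset.sum_comm]
      rw [Finset.sum_comm (γ := κ)]
      refine Finset.sum_congr rfl fun i _ => ?_
      rw [Finset.sum_comm (γ := κ)]
      refine Finset.sum_congr rfl fun j _ => Finset.sum_congr rfl fun a _ => ?_
      ring
    rw [cumGram, add_mulVec, dotProduct_add, smul_mulVec, smul_mulVec, one_mulVec,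
      dotProduct_smul, dotProduct_smul, e1, e2]
    simp only [Complex.add_re, smul_eq_mul, Complex.re_ofReal_mul, Complex.ofReal_re]
  refine ⟨?_, fun v => ?_, fun v => ?_⟩
  · ext i j
    simp only [cumGram, conjTranspose_apply, Matrix.add_apply, Matrix.smul_apply, of_apply,
      smul_eq_mul, star_add, star_mul', Complex.star_def, Complex.conj_ofReal, one_apply]
    rw [← integral_conj]
    congr 1
    · rcases eq_or_ne i j with rfl | hij
      · simp
      · simp [hij, hij.symm]
    · congr 1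
      simp [map_sum, mul_comm]
  · rw [hform]
    have : 0 ≤ ∫ t in Set.Iic x, ∑ a, ‖∑ i, ψ a i t * v i‖ ^ 2 :=
      integral_nonneg fun t => by positivity
    nlinarith
  · rw [hform]
    have hsq : Integrable fun t => ∑ a, ‖∑ i, ψ a i t * v i‖ ^ 2 := by
      refine Integrable.mono' ((integrable_finsetSum Finset.univ fun a _ =>
        integrable_finsetSum Finset.univ fun i _ => h.sq a i).const_mul (∑ i, ‖v i‖ ^ 2))
        (Continuous.aestronglyMeasurable <| continuous_finsetSum _ fun a _ =>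
          ((continuous_finsetSum _ fun i _ =>
            (h.continuous a i).mul continuous_const).norm.pow 2)) (.of_forall fun t => ?_)
      rw [Real.norm_eq_abs, abs_of_nonneg (by positivity), Finset.mul_sum]
      refine Finset.sum_le_sum fun a _ => ?_
      refine (pow_le_pow_left₀ (norm_nonneg _) (norm_sum_le _ _) 2).trans ?_
      simp only [norm_mul]
      rw [mul_comm]
      exact Finset.sum_mul_sq_le_sq_mul_sq _ _ _
    have h1 : ∫ t in Set.Iic x, ∑ a, ‖∑ i, ψ a i t * v i‖ ^ 2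
        ≤ ∫ t, ∑ a, ‖∑ i, ψ a i t * v i‖ ^ 2 :=
      setIntegral_le_integral hsq (.of_forall fun t => by positivity)
    have h2 := h1.trans (h.bessel v)
    nlinarith [Finset.sum_nonneg fun i (_ : i ∈ Finset.univ) => sq_nonneg ‖v i‖]

omit h in
/-- The regularised functions. -/
noncomputable def scaled (φ : κ → ι → ℝ → ℂ) (δ x : ℝ) : Matrix κ ι ℂ :=
  ((√(1 - 2 * δ) : ℝ) : ℂ) • Matrix.of fun a i => φ a i x

omit h in
lemma sqF_scaled (φ : κ → ι → ℝ → ℂ) {δ : ℝ} (hδ' : 2 * δ ≤ 1) (x : ℝ) :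
    sqF (scaled φ δ x) = (1 - 2 * δ) * sqF (Matrix.of fun a i => φ a i x) := by
  simp only [sqF, scaled, Matrix.smul_apply, of_apply, norm_smul, mul_pow, Finset.mul_sum,
    Complex.norm_real, Real.norm_eq_abs, sq_abs, Real.sq_sqrt (show 0 ≤ 1 - 2 * δ by linarith)]

lemma hasDerivAt_cumGram {δ : ℝ} (hδ' : 2 * δ ≤ 1) (x : ℝ) :
    HasDerivAt (cumGram ψ δ) ((scaled ψ δ x)ᴴ * scaled ψ δ x) x := by
  refine hasDerivAt_matrix fun i j => ?_
  set g : ℝ → ℂ := fun t => ∑ a, star (ψ a i t) * ψ a j t with hg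
  have hgc : Continuous g := continuous_finsetSum _ fun a _ =>
    (h.continuous a i).star.mul (h.continuous a j)
  have hgi : Integrable g := integrable_finsetSum _ fun a _ => h.integrable_mul a a i j
  have h1 : HasDerivAt (fun y => ∫ t in Set.Iic y, g t) (g x) x := by
    have e : (fun y => ∫ t in Set.Iic y, g t)
        = fun y => (∫ t in Set.Iic (0 : ℝ), g t) + ∫ t in (0 : ℝ)..y, g t := by
      funext y
      rw [← intervalIntegral.integral_Iic_sub_Iic hgi.integrableOn hgi.integrableOn]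
      ring
    rw [e]
    exact (hgc.integral_hasStrictDerivAt 0 x).hasDerivAt.const_add _
  have hs : ((√(1 - 2 * δ) : ℝ) : ℂ) * ((√(1 - 2 * δ) : ℝ) : ℂ) = ((1 - 2 * δ : ℝ) : ℂ) := by
    rw [← Complex.ofReal_mul, Real.mul_self_sqrt (by linarith)]
  have e' : ((scaled ψ δ x)ᴴ * scaled ψ δ x) i j = ((1 - 2 * δ : ℝ) : ℂ) * g x := by
    simp only [scaled, mul_apply, conjTranspose_apply, Matrix.smul_apply, of_apply, smul_eq_mul,
      star_mul', Complex.star_def, Complex.conj_ofReal, hg, Finset.mul_sum]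
    refine Finset.sum_congr rfl fun a _ => ?_
    rw [← hs]; ring
  rw [e']
  simp only [cumGram, Matrix.add_apply, Matrix.smul_apply, of_apply, smul_eq_mul]
  exact (h1.const_mul _).const_add _

omit [DecidableEq ι] in
lemma hasDerivAt_scaled_gram [DecidableEq ι] {δ : ℝ} (x : ℝ) :
    HasDerivAt (fun y => (scaled ψ δ y)ᴴ * scaled ψ δ y)
      ((scaled ψ' δ x)ᴴ * scaled ψ δ x + (scaled ψ δ x)ᴴ * scaled ψ' δ x) x := by
  refine hasDerivAt_matrix fun i j => ?_
  simp only [Matrix.add_apply, mul_apply, ← Finset.sum_add_distrib, scaled, conjTranspose_apply,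
    Matrix.smul_apply, of_apply, smul_eq_mul]
  exact HasDerivAt.fun_sum fun a _ =>
    ((h.deriv a i x).const_mul _).star.mul ((h.deriv a j x).const_mul _)

lemma kinetic_regularised (hres : ResidualBound ι κ) {δ : ℝ} (hδ : 0 < δ) (hδ' : 2 * δ < 1) :
    Integrable (fun x => cube (scaled ψ δ x)) ∧
      π ^ 2 / 4 * ∫ x, cube (scaled ψ δ x)
        ≤ (1 - 2 * δ) * ∫ x, sqF (Matrix.of fun a i => ψ' a i x) := by
  set E := cumGram ψ δ with hEdef
  set G : ℝ → Mat ι := fun y => (scaled ψ δ y)ᴴ * scaled ψ δ y with hGdef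
  set ρ : ℝ → ℝ := fun x => sqF (scaled ψ δ x) with hρ
  set τ : ℝ → ℝ := fun x => cube (scaled ψ δ x) with hτ
  set c : ℝ := π ^ 2 / 4 with hc
  have hcpos : 0 < c := by positivity
  have hR : ∀ y, InRange δ (E y) := h.inRange_cumGram hδ hδ'.le
  have hE : ∀ y, HasDerivAt E (G y) y := h.hasDerivAt_cumGram hδ'.le
  have hG : ∀ y, HasDerivAt G _ y := fun y => h.hasDerivAt_scaled_gram y
  have hGc : Continuous G := continuous_iff_continuousAt.2 fun y => (hG y).continuousAt
  have hρeq : ρ = fun x => (1 - 2 * δ) * sqF (Matrix.of fun a i => ψ a i x) :=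
    funext fun x => sqF_scaled ψ hδ'.le x
  have hρc : Continuous ρ := by
    rw [hρeq]
    simp only [sqF, of_apply]
    exact continuous_const.mul (continuous_finsetSum _ fun a _ =>
      continuous_finsetSum _ fun i _ => (h.continuous a i).norm.pow 2)
  have hρ0 : ∀ x, 0 ≤ ρ x := fun x => sqF_nonneg _
  have hτ0 : ∀ x, 0 ≤ τ x := fun x => cube_nonneg _
  have hτc : Continuous τ := continuous_cube fun a i => by
    simp only [scaled, Matrix.smul_apply, of_apply]
    exact (h.continuous a i).const_smul ((√(1 - 2 * δ) : ℝ) : ℂ)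
  have hsol : ∀ k, Continuous fun y => sol (E y) (G y) k := fun k =>
    continuous_iff_continuousAt.2 fun y =>
      (differentiableAt_sol hR hδ (hE y) (hG y) k).continuousAt
  have hM : ∀ N, Continuous fun y => calM N (E y) (G y) := fun N => by
    simp only [calM, symSum]
    exact (hsol 0).add (continuous_finsetSum _ fun n _ => (hsol _).add (hsol _))
  have hsq : ∀ k, Continuous fun y => (trace (G y * (sol (E y) (G y) k * sol (E y) (G y) k))).re :=
    fun k => continuous_trace_re.comp (hGc.mul ((hsol k).mul (hsol k)))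
  have hS : ∀ N, Continuous fun y =>
      symSum N fun k => (trace (G y * (sol (E y) (G y) k * sol (E y) (G y) k))).re := fun N => by
    simp only [symSum]
    exact (hsq 0).add (continuous_finsetSum _ fun n _ => (hsq _).add (hsq _))
  have hRc : ∀ N, Continuous fun y => calR N (E y) (G y) := fun N => by
    simp only [calR]
    exact (hS N).sub (continuous_trace_re.comp (hGc.mul ((hM N).mul (hM N))))
  set f : ℕ → ℝ → ℝ := fun N x => min (calR N (E x) (G x)) (c * τ x) with hf
  have hfc : ∀ N, Continuous (f N) := fun N => (hRc N).min (continuous_const.mul hτc)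
  set C₁ : ℝ := (Fintype.card ι : ℝ) ^ 3 * (20 / (2 * δ) ^ 2 + (82 / (2 * δ) ^ 2) ^ 2) with hC1
  set C₂ : ℝ := (Fintype.card ι : ℝ) ^ 2 * (82 / (2 * δ) ^ 2) with hC2
  have hC10 : 0 ≤ C₁ := by positivity
  have hlim : ∀ x, Tendsto (fun N => f N x) atTop (𝓝 (c * τ x)) := by
    intro x
    rw [tendsto_order]
    refine ⟨fun a ha => ?_, fun a ha => .of_forall fun N => (min_le_right _ _).trans_lt ha⟩
    filter_upwards [hres δ (E x) (scaled ψ δ x) hδ (hR x) ((c * τ x - a) / 2) (by linarith)]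
      with N hN
    exact lt_min (lt_of_lt_of_le (by simp only [hc, hτ] at ha ⊢; linarith) hN) ha
  -- the inequality on bounded intervals
  have hint : ∀ R : ℝ, 0 ≤ R → ∫ x in (-R)..R, c * τ x
      ≤ (1 - 2 * δ) * (∫ x, sqF (Matrix.of fun a i => ψ' a i x))
        + C₂ * (ρ R ^ 2 + ρ (-R) ^ 2) := by
    intro R hR0
    have hle : -R ≤ R := by linarith
    have hN : ∀ N, ∫ x in (-R)..R, f N x
        ≤ (1 - 2 * δ) * (∫ x, sqF (Matrix.of fun a i => ψ' a i x))
          + C₂ * (ρ R ^ 2 + ρ (-R) ^ 2) := by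
      intro N
      set D : ℝ → ℝ := fun y =>
        (trace (((scaled ψ' δ y)ᴴ * scaled ψ δ y + (scaled ψ δ y)ᴴ * scaled ψ' δ y)
          * calM N (E y) (G y))).re
        - symSum N (fun k => (trace (G y * (sol (E y) (G y) k * sol (E y) (G y) k))).re) with hD
      have hDc : Continuous D := by
        refine (continuous_trace_re.comp (Continuous.mul ?_ (hM N))).sub (hS N)
        refine continuous_matrix fun i j => ?_
        simp only [Matrix.add_apply, mul_apply, scaled, conjTranspose_apply, Matrix.smul_apply,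
          of_apply, smul_eq_mul]
        exact (continuous_finsetSum _ fun a _ => ((continuous_const.mul (h.cont a i)).star.mul
          (continuous_const.mul (h.continuous a j)))).add
          (continuous_finsetSum _ fun a _ => ((continuous_const.mul (h.continuous a i)).star.mul
          (continuous_const.mul (h.cont a j))))
      have hFTC : ∫ x in (-R)..R, D x = calQ N (E R) (G R) - calQ N (E (-R)) (G (-R)) :=
        intervalIntegral.integral_eq_sub_of_hasDerivAt (f := fun y => calQ N (E y) (G y))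
          (fun y _ => hasDerivAt_calQ hR hδ (hE y) (hG y) N) (hDc.intervalIntegrable _ _)
      have hpt : ∀ x, f N x ≤ (1 - 2 * δ) * sqF (Matrix.of fun a i => ψ' a i x) - D x := by
        intro x
        have h1 := calQ_deriv_add_calR_le (hR x) hδ (scaled ψ δ x) (scaled ψ' δ x) N
        rw [sqF_scaled ψ' hδ'.le] at h1
        have h2 : f N x ≤ calR N (E x) (G x) := min_le_left _ _
        simp only [hD, hGdef] at h2 ⊢
        linarith
      have hkc : Continuous fun x => sqF (Matrix.of fun a i => ψ' a i x) := by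
        simp only [sqF, of_apply]
        exact continuous_finsetSum _ fun a _ => continuous_finsetSum _ fun i _ =>
          (h.cont a i).norm.pow 2
      have hkle : ∫ x in (-R)..R, sqF (Matrix.of fun a i => ψ' a i x)
          ≤ ∫ x, sqF (Matrix.of fun a i => ψ' a i x) := by
        rw [intervalIntegral.integral_of_le hle]
        exact setIntegral_le_integral h.integrable_kin (.of_forall fun x => sqF_nonneg _)
      have hQ : ∀ y, |calQ N (E y) (G y)| ≤ C₂ * ρ y ^ 2 := fun y =>
        abs_calQ_le (hR y) hδ (scaled ψ δ y) N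
      calc ∫ x in (-R)..R, f N x
          ≤ ∫ x in (-R)..R, ((1 - 2 * δ) * sqF (Matrix.of fun a i => ψ' a i x) - D x) :=
            intervalIntegral.integral_mono_on hle ((hfc N).intervalIntegrable _ _)
              (((continuous_const.mul hkc).sub hDc).intervalIntegrable _ _) fun x _ => hpt x
        _ = (1 - 2 * δ) * (∫ x in (-R)..R, sqF (Matrix.of fun a i => ψ' a i x))
            - (calQ N (E R) (G R) - calQ N (E (-R)) (G (-R))) := by
            rw [intervalIntegral.integral_sub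
              (f := fun x => (1 - 2 * δ) * sqF (Matrix.of fun a i => ψ' a i x))
              ((continuous_const.mul hkc).intervalIntegrable _ _)
              (hDc.intervalIntegrable _ _), intervalIntegral.integral_const_mul, hFTC]
        _ ≤ _ := by
            have h3 := mul_le_mul_of_nonneg_left hkle (show 0 ≤ 1 - 2 * δ by linarith)
            linarith [abs_le.1 (hQ R), abs_le.1 (hQ (-R))]
    refine le_of_tendsto' (intervalIntegral.tendsto_integral_filter_of_dominated_convergence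
      (fun x => (C₁ + c * (Fintype.card ι : ℝ) ^ 2) * ρ x ^ 3)
      (.of_forall fun N => (hfc N).aestronglyMeasurable)
      (.of_forall fun N => .of_forall fun x _ => ?_)
      ((continuous_const.mul (hρc.pow 3)).intervalIntegrable _ _)
      (.of_forall fun x _ => hlim x)) hN
    rw [Real.norm_eq_abs, abs_le]
    have h3 : 0 ≤ ρ x ^ 3 := pow_nonneg (hρ0 x) 3
    have h1 : -(C₁ * ρ x ^ 3) ≤ calR N (E x) (G x) := calR_lower (hR x) hδ (scaled ψ δ x) N
    have h4 : c * τ x ≤ c * ((Fintype.card ι : ℝ) ^ 2 * ρ x ^ 3) :=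
      mul_le_mul_of_nonneg_left (cube_le _) hcpos.le
    have h5 : 0 ≤ c * τ x := mul_nonneg hcpos.le (hτ0 x)
    have h6 : 0 ≤ c * ((Fintype.card ι : ℝ) ^ 2 * ρ x ^ 3) := h5.trans h4
    have h7 : 0 ≤ C₁ * ρ x ^ 3 := mul_nonneg hC10 h3
    constructor
    · simp only [hf]
      refine le_min ?_ ?_ <;> linarith
    · simp only [hf]
      refine (min_le_right _ _).trans ?_
      linarith
  have hb : Tendsto (fun R => (1 - 2 * δ) * (∫ x, sqF (Matrix.of fun a i => ψ' a i x))
      + C₂ * (ρ R ^ 2 + ρ (-R) ^ 2)) atTop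
      (𝓝 ((1 - 2 * δ) * ∫ x, sqF (Matrix.of fun a i => ψ' a i x))) := by
    obtain ⟨hp, hm⟩ := h.tendsto_dens_zero
    have hp' : Tendsto ρ atTop (𝓝 0) := by rw [hρeq]; simpa using hp.const_mul (1 - 2 * δ)
    have hm' : Tendsto ρ atBot (𝓝 0) := by rw [hρeq]; simpa using hm.const_mul (1 - 2 * δ)
    simpa using (((hp'.pow 2).add
      ((hm'.comp tendsto_neg_atTop_atBot).pow 2)).const_mul C₂).const_add
        ((1 - 2 * δ) * ∫ x, sqF (Matrix.of fun a i => ψ' a i x))
  have hcint : Integrable fun x => c * τ x := by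
    refine integrable_of_intervalIntegral_norm_bounded
      ((1 - 2 * δ) * (∫ x, sqF (Matrix.of fun a i => ψ' a i x)) + 1)
      (fun R : ℝ => (continuous_const.mul hτc).integrableOn_Ioc)
      tendsto_neg_atTop_atBot tendsto_id ?_
    filter_upwards [hb.eventually_le_const (lt_add_one _), eventually_ge_atTop 0]
      with R h1 h2
    refine le_trans (le_of_eq (intervalIntegral.integral_congr fun x _ => ?_))
      ((hint R h2).trans h1)
    exact Real.norm_of_nonneg (mul_nonneg hcpos.le (hτ0 x))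
  refine ⟨by simpa [hcpos.ne'] using hcint.const_mul c⁻¹, ?_⟩
  rw [← integral_const_mul]
  refine le_of_tendsto_of_tendsto (intervalIntegral_tendsto_integral hcint
    tendsto_neg_atTop_atBot tendsto_id) hb ?_
  filter_upwards [eventually_ge_atTop (0 : ℝ)] with R hR0
  exact hint R hR0

/-- The sharp kinetic inequality for smooth frames. -/
theorem kinetic (hres : ResidualBound ι κ) :
    Integrable (fun x => cube (Matrix.of fun a i => ψ a i x)) ∧
      π ^ 2 / 4 * ∫ x, cube (Matrix.of fun a i => ψ a i x)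
        ≤ ∫ x, sqF (Matrix.of fun a i => ψ' a i x) := by
  have key : ∀ δ : ℝ, 0 < δ → 2 * δ < 1 →
      Integrable (fun x => cube (Matrix.of fun a i => ψ a i x)) ∧
      π ^ 2 / 4 * ((1 - 2 * δ) ^ 2 * ∫ x, cube (Matrix.of fun a i => ψ a i x))
        ≤ ∫ x, sqF (Matrix.of fun a i => ψ' a i x) := by
    intro δ hδ hδ'
    obtain ⟨h1, h2⟩ := h.kinetic_regularised hres hδ hδ'
    have hsc : ∀ x, cube (scaled ψ δ x)
        = (1 - 2 * δ) ^ 3 * cube (Matrix.of fun a i => ψ a i x) := fun x => by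
      rw [scaled, cube_smul, show (√(1 - 2 * δ)) ^ 6 = ((√(1 - 2 * δ)) ^ 2) ^ 3 by ring,
        Real.sq_sqrt (by linarith)]
    simp only [hsc] at h1 h2
    have hne : (1 - 2 * δ) ^ 3 ≠ 0 := pow_ne_zero _ (by linarith)
    refine ⟨(h1.const_mul ((1 - 2 * δ) ^ 3)⁻¹).congr (.of_forall fun x =>
      inv_mul_cancel_left₀ hne _), ?_⟩
    rw [integral_const_mul] at h2
    refine le_of_mul_le_mul_left ?_ (show 0 < 1 - 2 * δ by linarith)
    refine le_of_eq_of_le ?_ h2
    ring
  refine ⟨(key (1 / 4) (by norm_num) (by norm_num)).1, ?_⟩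
  have hlim : Tendsto (fun δ : ℝ => π ^ 2 / 4 *
      ((1 - 2 * δ) ^ 2 * ∫ x, cube (Matrix.of fun a i => ψ a i x))) (𝓝[>] 0)
      (𝓝 (π ^ 2 / 4 * ∫ x, cube (Matrix.of fun a i => ψ a i x))) :=
    (Continuous.tendsto' (by fun_prop) _ _ (by simp)).mono_left nhdsWithin_le_nhds
  refine le_of_tendsto hlim ?_
  filter_upwards [eventually_nhdsWithin_of_eventually_nhds
    (eventually_lt_nhds (show (0 : ℝ) < 1 / 2 by norm_num)), self_mem_nhdsWithin] with δ h1 h2
  exact (key δ h2 (by linarith)).2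

end Frame

/-- The residual bound for scalar functions. -/
theorem residualBound_scalar [Unique κ] : ResidualBound ι κ := by
  intro δ E A hδ hR ε₀ hε₀
  obtain ⟨U, e, he⟩ := hR.exists_eig
  obtain ⟨ε, hε, hεA⟩ : ∃ ε > 0, π ^ 2 / 4 * sqF A ^ 3 - ε₀ ≤ (π ^ 2 / 4 - ε) * sqF A ^ 3 := by
    have hs : 0 ≤ sqF A ^ 3 := pow_nonneg (sqF_nonneg A) 3
    refine ⟨ε₀ / (sqF A ^ 3 + 1), by positivity, ?_⟩
    have : ε₀ / (sqF A ^ 3 + 1) * sqF A ^ 3 ≤ ε₀ := by
      rw [div_mul_eq_mul_div, div_le_iff₀ (by positivity)]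
      nlinarith
    linarith
  have hev : ∀ᶠ N in atTop, ∀ i j l : ι,
      π ^ 2 / 4 - ε ≤ kerN N (e j + e l) (e l + e i) := by
    refine eventually_all.2 fun i => eventually_all.2 fun j => eventually_all.2 fun l => ?_
    obtain ⟨a1, a2⟩ := he.sum_mem j l
    obtain ⟨b1, b2⟩ := he.sum_mem l i
    exact eventually_kerN_ge (by linarith) (by linarith) (by linarith) (by linarith) hε
  filter_upwards [hev] with N hN
  rw [cube_eq_sqF_pow, calR_eq he hR hδ, Eig.gram_conj, ← he.sqF_mul A]
  set u : ι → ℝ := fun i => ‖(A * U) default i‖ ^ 2 with hu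
  have hgram : ∀ i j l, ((((A * U)ᴴ * (A * U)) i j) * ((((A * U)ᴴ * (A * U)) j l)
      * (((A * U)ᴴ * (A * U)) l i))).re = u i * (u j * u l) := by
    intro i j l
    simp only [mul_apply (M := (A * U)ᴴ), Fintype.sum_unique, conjTranspose_apply, hu]
    rw [show ∀ a b c a' b' c' : ℂ, a' * b * (b' * c * (c' * a)) = (a' * a) * ((b' * b) * (c' * c))
      from fun _ _ _ _ _ _ => by ring]
    simp only [Complex.star_def, Complex.conj_mul']
    norm_cast
  rw [← he.sqF_mul A] at hεA
  refine hεA.trans ?_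
  have hsq : sqF (A * U) = ∑ i, u i := by simp [sqF, hu]
  simp only [hgram, hsq]
  rw [pow_three, Finset.sum_mul, Finset.mul_sum]
  refine Finset.sum_le_sum fun i _ => ?_
  rw [Finset.sum_mul, Finset.mul_sum, Finset.mul_sum]
  refine Finset.sum_le_sum fun j _ => ?_
  rw [Finset.mul_sum, Finset.mul_sum, Finset.mul_sum]
  exact Finset.sum_le_sum fun l _ => mul_le_mul_of_nonneg_right (hN i j l) (by positivity)

end Vale.Agent.P371
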