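import Vale.Agent.P371.Bound

/-!
Aizenman-Lieb lifting of the sharp bound at `γ = 1` to exponents above one.
-/

namespace Vale.Agent.P371

open MeasureTheory Filter Real
open scoped Topology ENNReal

/-- The semiclassical constant. -/
noncomputable def lcl (γ : ℝ) : ℝ := Gamma (γ + 1) / (2 * √π * Gamma (γ + 3 / 2))

lemma integral_beta_scaled {a α β : ℝ} (ha : 0 < a) (hα : 0 < α) (hβ : 0 < β) :
    ∫ t in (0 : ℝ)..a, t ^ (α - 1) * (a - t) ^ (β - 1)
      = a ^ (α + β - 1) * ProbabilityTheory.beta α β := by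
  have h := Complex.betaIntegral_scaled (α : ℂ) (β : ℂ) ha
  have e1 : ∫ t in (0 : ℝ)..a, (t : ℂ) ^ ((α : ℂ) - 1) * ((a : ℂ) - t) ^ ((β : ℂ) - 1)
      = ∫ t in (0 : ℝ)..a, ((t ^ (α - 1) * (a - t) ^ (β - 1) : ℝ) : ℂ) := by
    refine intervalIntegral.integral_congr fun t ht => ?_
    rw [Set.uIcc_of_le ha.le] at ht
    rw [Complex.ofReal_mul, Complex.ofReal_cpow ht.1, Complex.ofReal_cpow (sub_nonneg.2 ht.2)]
    push_cast
    rfl
  rw [e1, intervalIntegral.integral_ofReal] at h
  have h2 := congrArg Complex.re h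
  rw [Complex.ofReal_re] at h2
  rw [h2, ProbabilityTheory.beta_eq_betaIntegralReal α β hα hβ,
    show ((α : ℂ) + β - 1) = ((α + β - 1 : ℝ) : ℂ) by push_cast; ring,
    ← Complex.ofReal_cpow ha.le, Complex.re_ofReal_mul]

/-- The moment of a positive part. -/
lemma lintegral_pos_part {a α β : ℝ} (ha : 0 ≤ a) (hα : 0 < α) (hβ : 1 < β) :
    ∫⁻ t in Set.Ioi (0 : ℝ), ENNReal.ofReal (t ^ (α - 1) * max (a - t) 0 ^ (β - 1))
      = ENNReal.ofReal (a ^ (α + β - 1) * ProbabilityTheory.beta α β) := by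
  have hz : ∀ t, a ≤ t → t ^ (α - 1) * max (a - t) 0 ^ (β - 1) = 0 := fun t ht => by
    rw [max_eq_right (by linarith), zero_rpow (by linarith), mul_zero]
  rcases ha.eq_or_lt with rfl | ha
  · rw [zero_rpow (by linarith), zero_mul, ENNReal.ofReal_zero]
    refine setLIntegral_eq_zero measurableSet_Ioi fun t ht => ?_
    simp only [Pi.zero_apply, hz t (le_of_lt ht), ENNReal.ofReal_zero]
  set f := fun t : ℝ => t ^ (α - 1) * max (a - t) 0 ^ (β - 1) with hf
  have hv : ∫ t in Set.Ioc 0 a, f t = a ^ (α + β - 1) * ProbabilityTheory.beta α β := by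
    rw [← integral_beta_scaled ha hα (by linarith), intervalIntegral.integral_of_le ha.le]
    refine setIntegral_congr_fun measurableSet_Ioc fun t ht => ?_
    simp only [hf, max_eq_left (sub_nonneg.2 ht.2)]
  have hint : IntegrableOn f (Set.Ioc 0 a) := by
    refine Integrable.of_integral_ne_zero ?_
    rw [hv]
    exact (mul_pos (rpow_pos_of_pos ha _) (ProbabilityTheory.beta_pos hα (by linarith))).ne'
  calc ∫⁻ t in Set.Ioi (0 : ℝ), ENNReal.ofReal (f t)
      = ∫⁻ t in Set.Ioc 0 a, ENNReal.ofReal (f t) := by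
        rw [← lintegral_indicator measurableSet_Ioi, ← lintegral_indicator measurableSet_Ioc]
        refine lintegral_congr fun t => ?_
        simp only [Set.indicator_apply, Set.mem_Ioi, Set.mem_Ioc]
        rcases le_or_gt t a with h | h
        · simp [h]
        · simp [hf, hz t h.le, not_le.2 h]
    _ = ENNReal.ofReal (∫ t in Set.Ioc 0 a, f t) :=
        (ofReal_integral_eq_lintegral_ofReal hint <|
          (ae_restrict_iff' measurableSet_Ioc).2 <| .of_forall fun t ht =>
            mul_nonneg (rpow_nonneg ht.1.le _) (rpow_nonneg (le_max_right _ _) _)).symm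
    _ = _ := by rw [hv]

/-- The lowered potential is admissible at `γ = 1`. -/
lemma integrable_lowered {γ : ℝ} {W : ℝ → ℝ} (hW : Potential γ W) (hγ : 1 < γ) {t : ℝ}
    (ht : 0 < t) : Integrable fun x => max (W x - t) 0 ^ (3 / 2 : ℝ) := by
  refine (hW.int.const_mul (t ^ (1 - γ))).mono'
    (((hW.meas.sub_const t).max measurable_const).pow_const _).aestronglyMeasurable
    (.of_forall fun x => ?_)
  rw [Real.norm_of_nonneg (rpow_nonneg (le_max_right _ _) _)]
  rcases le_or_gt (W x) t with h | h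
  · rw [max_eq_right (by linarith), zero_rpow (by norm_num)]
    exact mul_nonneg (rpow_nonneg ht.le _) (rpow_nonneg (hW.nonneg x) _)
  · rw [max_eq_left (by linarith)]
    have hw : 0 < W x := ht.trans h
    calc (W x - t) ^ (3 / 2 : ℝ) ≤ W x ^ (3 / 2 : ℝ) :=
          rpow_le_rpow (by linarith) (by linarith) (by norm_num)
      _ = W x ^ (γ + 1 / 2) * W x ^ (1 - γ) := by
          rw [← rpow_add hw]; congr 1; ring
      _ ≤ W x ^ (γ + 1 / 2) * t ^ (1 - γ) :=
          mul_le_mul_of_nonneg_left (rpow_le_rpow_of_nonpos ht h.le (by linarith))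
            (rpow_nonneg hw.le _)
      _ = _ := mul_comm _ _

/-- The sharp bound applied to the lowered potential. -/
lemma sum_pos_part_le {γ : ℝ} {n : ℕ} {W : ℝ → ℝ} (hW : Potential γ W) (hγ : 1 < γ)
    {lam : Fin n → ℝ} {ψ : Fin n → ℝ → ℂ}
    (hb : ∀ i, lam i < 0 ∧ IsBoundState W (lam i) (ψ i))
    (horth : ∀ i j, ∫ x, star (ψ i x) * ψ j x = if i = j then 1 else 0) {t : ℝ} (ht : 0 < t) :
    ∑ i, max (|lam i| - t) 0 ≤ lt1 * ∫ x, max (W x - t) 0 ^ (3 / 2 : ℝ) := by
  choose ψ' ho he using fun i => (hb i).2.energy (by simpa using horth i i)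
  set J := Finset.univ.filter fun i => t < |lam i| with hJ
  set e : Fin J.card → Fin n := fun k => (J.equivFin.symm k : Fin n) with he'
  have hinj : Function.Injective e := Subtype.val_injective.comp J.equivFin.symm.injective
  have hsum : ∀ f : Fin n → ℝ, ∑ k, f (e k) = ∑ i ∈ J, f i := fun f => by
    rw [Equiv.sum_comp J.equivFin.symm (fun i : J => f i), Finset.sum_coe_sort J f]
  have hlhs : ∑ i, max (|lam i| - t) 0 = ∑ k, (|lam (e k)| - t) := by
    rw [hsum fun i => |lam i| - t, hJ, Finset.sum_filter]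
    refine Finset.sum_congr rfl fun i _ => ?_
    split_ifs with h
    · exact max_eq_left (by linarith)
    · exact max_eq_right (by linarith)
  have horth' : ∀ k l, ∫ x, star (ψ (e k) x) * ψ (e l) x = if k = l then 1 else 0 := fun k l => by
    rw [horth]; simp [hinj.eq_iff]
  set V := fun x => max (W x - t) 0 with hV
  have hVm : Measurable V := (hW.meas.sub_const t).max measurable_const
  obtain ⟨hVi, hVle⟩ := trial_le (fun k => ho (e k)) horth' hVm (fun x => le_max_right _ _)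
    (integrable_lowered hW hγ ht)
  have hT : ∫ x, dens (fun k => ψ' (e k)) x = ∑ k, ∫ x, ‖ψ' (e k) x‖ ^ 2 :=
    integral_finsetSum _ fun k _ => (ho (e k)).sq'
  have hWi : ∀ k, Integrable fun x => W x * ‖ψ (e k) x‖ ^ 2 := fun k =>
    hW.integrable_form hγ.le (ho _)
  have hnorm : ∀ i, ∫ x, ‖ψ i x‖ ^ 2 = 1 := fun i => by
    have := horth i i
    simp only [Complex.star_def, Complex.conj_mul', ← Complex.ofReal_pow, integral_complex_ofReal,
      if_true] at this
    exact_mod_cast this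
  have hlow : ∑ k, ((∫ x, W x * ‖ψ (e k) x‖ ^ 2) - t) ≤ ∫ x, V x * dens (fun k => ψ (e k)) x := by
    have h1 : ∀ k, (∫ x, W x * ‖ψ (e k) x‖ ^ 2) - t
        = ∫ x, (W x * ‖ψ (e k) x‖ ^ 2 - t * ‖ψ (e k) x‖ ^ 2) := fun k => by
      rw [integral_sub (hWi k) ((ho (e k)).sq.const_mul t), integral_const_mul, hnorm, mul_one]
    simp only [h1]
    rw [← integral_finsetSum _ fun k _ => ((hWi k).sub' ((ho (e k)).sq.const_mul t))]
    refine integral_mono (integrable_finsetSum _ fun k _ =>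
      ((hWi k).sub' ((ho (e k)).sq.const_mul t))) hVi fun x => ?_
    simp only [dens, Finset.mul_sum]
    refine Finset.sum_le_sum fun k _ => ?_
    rw [← sub_mul]
    exact mul_le_mul_of_nonneg_right (le_max_left _ _) (sq_nonneg _)
  rw [hlhs]
  have h3 : ∀ k, |lam (e k)| - t
      = ((∫ x, W x * ‖ψ (e k) x‖ ^ 2) - t) - ∫ x, ‖ψ' (e k) x‖ ^ 2 := fun k => by
    rw [abs_of_neg (hb _).1, ← he (e k)]; ring
  simp only [h3]
  rw [Finset.sum_sub_distrib]
  linarith

lemma lifting_constant {γ : ℝ} (hγ : 1 < γ) :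
    lt1 * ProbabilityTheory.beta (γ - 1) (5 / 2)
      = 2 / √3 * lcl γ * ProbabilityTheory.beta (γ - 1) 2 := by
  have h5 : Gamma (5 / 2 : ℝ) = 3 / 4 * √π := by
    rw [show (5 : ℝ) / 2 = 3 / 2 + 1 by norm_num, Gamma_add_one (by norm_num),
      show (3 : ℝ) / 2 = 1 / 2 + 1 by norm_num, Gamma_add_one (by norm_num), Gamma_one_half_eq]
    ring
  have hs : √π * √π = π := mul_self_sqrt pi_nonneg
  have g1 : 0 < Gamma (γ + 1) := Gamma_pos_of_pos (by linarith)
  have g2 : 0 < Gamma (γ + 3 / 2) := Gamma_pos_of_pos (by linarith)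
  simp only [ProbabilityTheory.beta, lt1, lcl, h5, Gamma_two]
  rw [show γ - 1 + 5 / 2 = γ + 3 / 2 by ring, show γ - 1 + 2 = γ + 1 by ring]
  field_simp
  linear_combination Gamma (γ - 1) * hs

/-- The bound `L_γ(1) ≤ (2/√3) L^cl_γ` above `γ = 1`. -/
theorem ratios_le_of_one_lt {γ : ℝ} (hγ : 1 < γ) {r : ℝ} (hr : r ∈ ratios γ) :
    r ≤ 2 / √3 * lcl γ := by
  obtain ⟨W, hW, hpos, n, lam, ψ, hb, horth, rfl⟩ := hr
  rw [div_le_iff₀ hpos]
  set α := γ - 1 with hα
  have hαp : 0 < α := by linarith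
  set b2 := ProbabilityTheory.beta α 2 with hb2
  set b5 := ProbabilityTheory.beta α (5 / 2) with hb5
  have hb2p : 0 < b2 := ProbabilityTheory.beta_pos hαp two_pos
  have hb5p : 0 < b5 := ProbabilityTheory.beta_pos hαp (by norm_num)
  have e2 : α + 2 - 1 = γ := by linarith
  have e5 : α + 5 / 2 - 1 = γ + 1 / 2 := by linarith
  have hm : Measurable fun p : ℝ × ℝ =>
      ENNReal.ofReal (p.1 ^ (α - 1) * max (W p.2 - p.1) 0 ^ ((5 / 2 : ℝ) - 1)) :=
    ((measurable_fst.pow_const _).mul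
      ((((hW.meas.comp measurable_snd).sub measurable_fst).max measurable_const).pow_const
        _)).ennreal_ofReal
  have hpt : ∀ t ∈ Set.Ioi (0 : ℝ),
      ENNReal.ofReal (∑ i, t ^ (α - 1) * max (|lam i| - t) 0 ^ ((2 : ℝ) - 1))
        ≤ ENNReal.ofReal lt1 *
          ∫⁻ x, ENNReal.ofReal (t ^ (α - 1) * max (W x - t) 0 ^ ((5 / 2 : ℝ) - 1)) := by
    intro t ht
    have hi := integrable_lowered hW hγ ht
    have ht0 : 0 ≤ t ^ (α - 1) := rpow_nonneg (le_of_lt ht) _
    rw [show (5 / 2 : ℝ) - 1 = 3 / 2 by norm_num, show (2 : ℝ) - 1 = 1 by norm_num,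
      ← ofReal_integral_eq_lintegral_ofReal (hi.const_mul _)
        (.of_forall fun x => mul_nonneg ht0 (rpow_nonneg (le_max_right _ _) _)),
      ← ENNReal.ofReal_mul lt1_pos.le]
    refine ENNReal.ofReal_le_ofReal ?_
    simp only [rpow_one, integral_const_mul, ← Finset.mul_sum]
    rw [← mul_left_comm]
    exact mul_le_mul_of_nonneg_left (sum_pos_part_le hW hγ hb horth ht) ht0
  have hmain : ENNReal.ofReal ((∑ i, |lam i| ^ γ) * b2)
      ≤ ENNReal.ofReal (lt1 * ((∫ x, W x ^ (γ + 1 / 2)) * b5)) := by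
    calc ENNReal.ofReal ((∑ i, |lam i| ^ γ) * b2)
        = ∑ i, ∫⁻ t in Set.Ioi (0 : ℝ),
            ENNReal.ofReal (t ^ (α - 1) * max (|lam i| - t) 0 ^ ((2 : ℝ) - 1)) := by
          rw [Finset.sum_mul, ENNReal.ofReal_sum_of_nonneg fun i _ =>
            mul_nonneg (rpow_nonneg (abs_nonneg _) _) hb2p.le]
          refine Finset.sum_congr rfl fun i _ => ?_
          rw [lintegral_pos_part (abs_nonneg _) hαp one_lt_two, e2]
      _ = ∫⁻ t in Set.Ioi (0 : ℝ),
            ENNReal.ofReal (∑ i, t ^ (α - 1) * max (|lam i| - t) 0 ^ ((2 : ℝ) - 1)) := by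
          have hmi : ∀ i, Measurable fun t : ℝ =>
              ENNReal.ofReal (t ^ (α - 1) * max (|lam i| - t) 0 ^ ((2 : ℝ) - 1)) := fun i => by
            fun_prop
          rw [← lintegral_finsetSum _ fun i _ => hmi i]
          refine setLIntegral_congr_fun measurableSet_Ioi fun t ht => ?_
          exact (ENNReal.ofReal_sum_of_nonneg fun i _ => mul_nonneg (rpow_nonneg (le_of_lt ht) _)
            (rpow_nonneg (le_max_right _ _) _)).symm
      _ ≤ ∫⁻ t in Set.Ioi (0 : ℝ), ENNReal.ofReal lt1 *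
            ∫⁻ x, ENNReal.ofReal (t ^ (α - 1) * max (W x - t) 0 ^ ((5 / 2 : ℝ) - 1)) :=
          setLIntegral_mono' measurableSet_Ioi hpt
      _ = ENNReal.ofReal lt1 * ∫⁻ x, ∫⁻ t in Set.Ioi (0 : ℝ),
            ENNReal.ofReal (t ^ (α - 1) * max (W x - t) 0 ^ ((5 / 2 : ℝ) - 1)) := by
          rw [lintegral_const_mul' _ _ ENNReal.ofReal_ne_top,
            lintegral_lintegral_swap hm.aemeasurable]
      _ = ENNReal.ofReal lt1 * ∫⁻ x, ENNReal.ofReal (W x ^ (γ + 1 / 2) * b5) := by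
          simp only [lintegral_pos_part (hW.nonneg _) hαp (show (1 : ℝ) < 5 / 2 by norm_num), e5,
            ← hb5]
      _ = _ := by
          rw [← ofReal_integral_eq_lintegral_ofReal (hW.int.mul_const b5)
            (.of_forall fun x => mul_nonneg (rpow_nonneg (hW.nonneg x) _) hb5p.le),
            integral_mul_const, ← ENNReal.ofReal_mul lt1_pos.le]
  have hreal := (ENNReal.ofReal_le_ofReal_iff
    (mul_nonneg lt1_pos.le (mul_nonneg hpos.le hb5p.le))).1 hmain
  refine le_of_mul_le_mul_right (hreal.trans (le_of_eq ?_)) hb2p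
  linear_combination (∫ x, W x ^ (γ + 1 / 2)) * lifting_constant hγ

end Vale.Agent.P371
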