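import Vale.Agent.P371.Kinetic

/-!
`H¹` functions on the line: integration by parts, mollification, and the sharp kinetic inequality
for orthonormal families.
-/

namespace Vale.Agent.P371

open MeasureTheory Filter Real
open scoped Topology ContDiff Convolution

/-- An `H¹(ℝ)` function `ψ` with weak derivative `ψ'`, in its continuous representative. -/
structure Orbital (ψ ψ' : ℝ → ℂ) : Prop where
  memLp : MemLp ψ 2
  memLp' : MemLp ψ' 2
  ftc : ∀ a b : ℝ, ψ b - ψ a = ∫ t in a..b, ψ' t

namespace Orbital

variable {ψ ψ' : ℝ → ℂ} (h : Orbital ψ ψ')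

include h

lemma locallyIntegrable : LocallyIntegrable ψ' := h.memLp'.locallyIntegrable (by norm_num)

lemma intervalIntegrable (a b : ℝ) : IntervalIntegrable ψ' volume a b :=
  (h.locallyIntegrable.integrableOn_isCompact isCompact_uIcc).intervalIntegrable

lemma eq_primitive (x : ℝ) : ψ x = ψ 0 + ∫ t in (0 : ℝ)..x, ψ' t := by
  rw [← h.ftc]; ring

lemma continuous : Continuous ψ := by
  rw [funext h.eq_primitive]
  exact continuous_const.add (intervalIntegral.continuous_primitive h.intervalIntegrable 0)

lemma sq : Integrable fun x => ‖ψ x‖ ^ 2 :=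
  (memLp_two_iff_integrable_sq_norm h.memLp.1).1 h.memLp

lemma sq' : Integrable fun x => ‖ψ' x‖ ^ 2 :=
  (memLp_two_iff_integrable_sq_norm h.memLp'.1).1 h.memLp'

omit h in
/-- Integration by parts of a primitive against a continuously differentiable function. -/
lemma ibp_real {u u' g g' : ℝ → ℝ} (hu : LocallyIntegrable u')
    (hftc : ∀ x, u x = u 0 + ∫ t in (0 : ℝ)..x, u' t) (hg : ∀ x, HasDerivAt g (g' x) x)
    (hg' : Continuous g') (a b : ℝ) :
    ∫ x in a..b, u' x * g x + u x * g' x = u b * g b - u a * g a := by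
  have hii : ∀ p q, IntervalIntegrable u' volume p q := fun p q =>
    (hu.integrableOn_isCompact isCompact_uIcc).intervalIntegrable
  have hac : AbsolutelyContinuousOnInterval u a b := by
    have h1 := (hii a b).absolutelyContinuousOnInterval_intervalIntegral
      (c := a) Set.left_mem_uIcc
    have h2 : AbsolutelyContinuousOnInterval (fun _ : ℝ => u a) a b :=
      (LipschitzWith.const (u a)).lipschitzOnWith.absolutelyContinuousOnInterval
    have h3 := h2.add h1
    have e : u = (fun _ : ℝ => u a) + fun x => ∫ t in a..x, u' t := by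
      funext x
      rw [Pi.add_apply, ← intervalIntegral.integral_interval_sub_left (hii 0 x) (hii 0 a), hftc x,
        hftc a]
      ring
    exact e ▸ h3
  have hgd : deriv g = g' := funext fun x => (hg x).deriv
  have hgc : ContDiff ℝ 1 g :=
    contDiff_one_iff_deriv.2 ⟨fun x => (hg x).differentiableAt, hgd ▸ hg'⟩
  rw [← hac.integral_deriv_mul_eq_sub hgc.contDiffOn.absolutelyContinuousOnInterval]
  refine intervalIntegral.integral_congr_ae ?_
  filter_upwards [LocallyIntegrable.ae_hasDerivAt_integral hu] with x hx _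
  have hd : HasDerivAt u (u' x) x := by
    rw [funext hftc]
    exact (hx 0).const_add _
  rw [hd.deriv, hgd]

/-- Integration by parts against a real continuously differentiable function. -/
lemma ibp {g g' : ℝ → ℝ} (hg : ∀ x, HasDerivAt g (g' x) x) (hg' : Continuous g') (a b : ℝ) :
    ∫ x in a..b, ψ' x * (g x : ℂ) + ψ x * (g' x : ℂ) = ψ b * (g b : ℂ) - ψ a * (g a : ℂ) := by
  have hgc : Continuous g := continuous_iff_continuousAt.2 fun x => (hg x).continuousAt
  have hint : IntervalIntegrable (fun x => ψ' x * (g x : ℂ) + ψ x * (g' x : ℂ)) volume a b :=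
    ((h.intervalIntegrable a b).mul_continuousOn
      (Complex.continuous_ofReal.comp hgc).continuousOn).add
      ((h.continuous.mul (Complex.continuous_ofReal.comp hg')).intervalIntegrable a b)
  have key : ∀ L : ℂ →L[ℝ] ℝ, (∀ z : ℂ, ∀ r : ℝ, L (z * r) = L z * r) →
      L (∫ x in a..b, ψ' x * (g x : ℂ) + ψ x * (g' x : ℂ))
        = L (ψ b * (g b : ℂ) - ψ a * (g a : ℂ)) := by
    intro L hL
    rw [← L.intervalIntegral_comp_comm hint, map_sub, hL, hL]
    simp only [map_add, hL]
    refine ibp_real (u := fun x => L (ψ x)) (u' := fun x => L (ψ' x)) ?_ (fun x => ?_) hg hg' a b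
    · exact locallyIntegrable_iff.2 fun K hK =>
        L.integrable_comp (h.locallyIntegrable.integrableOn_isCompact hK)
    · rw [L.intervalIntegral_comp_comm (h.intervalIntegrable 0 x), ← map_add, ← h.eq_primitive]
  exact Complex.ext (key Complex.reCLM fun z r => by simp)
    (key Complex.imCLM fun z r => by simp)

end Orbital

/-- The bump functions used for mollification. -/
noncomputable def bump (k : ℕ) : ContDiffBump (0 : ℝ) where
  rIn := 1 / ((k : ℝ) + 2)
  rOut := 1 / ((k : ℝ) + 1)
  rIn_pos := by positivity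
  rIn_lt_rOut := by
    apply one_div_lt_one_div_of_lt (by positivity)
    linarith

/-- The mollification of `f`. -/
noncomputable def moll (k : ℕ) (f : ℝ → ℂ) : ℝ → ℂ :=
  (bump k).normed volume ⋆[ContinuousLinearMap.lsmul ℝ ℝ, volume] f

lemma moll_apply (k : ℕ) (f : ℝ → ℂ) (x : ℝ) :
    moll k f x = ∫ t, ((bump k).normed volume (x - t) : ℂ) * f t := by
  rw [moll, convolution_eq_swap]
  simp

lemma bump_rOut_le (k : ℕ) : (bump k).rOut ≤ 1 := by
  show 1 / ((k : ℝ) + 1) ≤ 1
  rw [div_le_one (by positivity)]
  simp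

lemma continuous_moll (k : ℕ) {f : ℝ → ℂ} (hf : LocallyIntegrable f) : Continuous (moll k f) :=
  (bump k).hasCompactSupport_normed.continuous_convolution_left _ (bump k).continuous_normed hf

lemma integrable_bump_mul (k : ℕ) (x : ℝ) {E : Type*} [NormedAddCommGroup E] [NormedSpace ℝ E]
    {g : ℝ → E} (hg : LocallyIntegrable g) :
    Integrable fun t => (bump k).normed volume (x - t) • g t := by
  refine hg.integrable_smul_left_of_hasCompactSupport
    ((bump k).continuous_normed.comp (continuous_sub_left x)) ?_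
  exact (bump k).hasCompactSupport_normed.comp_homeomorph
    ((Homeomorph.neg ℝ).trans (Homeomorph.addLeft x))

lemma norm_moll_sq_le (k : ℕ) {f : ℝ → ℂ} (hf : LocallyIntegrable f)
    (hf2 : LocallyIntegrable fun t => ‖f t‖ ^ 2) (x : ℝ) :
    ‖moll k f x‖ ^ 2 ≤ ∫ t, (bump k).normed volume (x - t) * ‖f t‖ ^ 2 := by
  set φ := fun t => (bump k).normed volume (x - t) with hφ
  have h1 : Integrable fun t => φ t * ‖f t‖ := (integrable_bump_mul k x (locallyIntegrable_iff.2 fun K hK => (hf.integrableOn_isCompact hK).norm) :)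
  have h2 : Integrable fun t => φ t * ‖f t‖ ^ 2 := (integrable_bump_mul k x hf2 :)
  have h0 : Integrable φ := (bump k).integrable_normed.comp_sub_left x
  have hone : ∫ t, φ t = 1 := by
    rw [hφ, integral_sub_left_eq_self]; exact (bump k).integral_normed
  have hle : ‖moll k f x‖ ≤ ∫ t, φ t * ‖f t‖ := by
    rw [moll_apply]
    refine (norm_integral_le_integral_norm _).trans (le_of_eq (integral_congr_ae
      (.of_forall fun t => ?_)))
    dsimp only
    rw [norm_mul, Complex.norm_real, Real.norm_eq_abs,
      abs_of_nonneg ((bump k).nonneg_normed _)]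
  set l := ∫ t, φ t * ‖f t‖ with hl
  have h3 : ∫ t, (2 * l * (φ t * ‖f t‖) - l ^ 2 * φ t) ≤ ∫ t, φ t * ‖f t‖ ^ 2 := by
    refine integral_mono ((h1.const_mul _).sub (h0.const_mul _)) h2 fun t => ?_
    have := mul_nonneg ((bump k).nonneg_normed (μ := volume) (x - t)) (sq_nonneg (‖f t‖ - l))
    dsimp only
    nlinarith
  rw [integral_sub (h1.const_mul _) (h0.const_mul _), integral_const_mul, integral_const_mul,
    hone, ← hl] at h3
  nlinarith [pow_le_pow_left₀ (norm_nonneg _) hle 2]

lemma integrable_norm_moll_sq (k : ℕ) {f : ℝ → ℂ} (hf : LocallyIntegrable f)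
    (hf2 : Integrable fun t => ‖f t‖ ^ 2) :
    Integrable (fun x => ‖moll k f x‖ ^ 2) ∧
      ∫ x, ‖moll k f x‖ ^ 2 ≤ ∫ x, ‖f x‖ ^ 2 := by
  have hI : Integrable ((bump k).normed volume ⋆[ContinuousLinearMap.lsmul ℝ ℝ, volume]
      fun t => ‖f t‖ ^ 2) := (bump k).integrable_normed.integrable_convolution _ hf2
  have he : ∀ x, ((bump k).normed volume ⋆[ContinuousLinearMap.lsmul ℝ ℝ, volume]
      fun t => ‖f t‖ ^ 2) x = ∫ t, (bump k).normed volume (x - t) * ‖f t‖ ^ 2 := fun x => by
    rw [convolution_eq_swap]; simp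
  have hp : ∀ x, ‖moll k f x‖ ^ 2 ≤ ((bump k).normed volume
      ⋆[ContinuousLinearMap.lsmul ℝ ℝ, volume] fun t => ‖f t‖ ^ 2) x := fun x => by
    rw [he]; exact norm_moll_sq_le k hf hf2.locallyIntegrable x
  have hi : Integrable fun x => ‖moll k f x‖ ^ 2 := by
    refine hI.mono' ((continuous_moll k hf).norm.pow 2).aestronglyMeasurable
      (.of_forall fun x => ?_)
    rw [Real.norm_eq_abs, abs_of_nonneg (by positivity)]
    exact hp x
  refine ⟨hi, (integral_mono hi hI hp).trans (le_of_eq ?_)⟩
  rw [integral_convolution _ (bump k).integrable_normed hf2]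
  simp [(bump k).integral_normed]

lemma Orbital.hasDerivAt_moll {ψ ψ' : ℝ → ℂ} (h : Orbital ψ ψ') (k : ℕ) (x : ℝ) :
    HasDerivAt (moll k ψ) (moll k ψ' x) x := by
  set φ := (bump k).normed volume with hφ
  have hd := (bump k).hasCompactSupport_normed.hasDerivAt_convolution_left
    (ContinuousLinearMap.lsmul ℝ ℝ) ((bump k).contDiff_normed (μ := volume) (n := 1))
    (μ := volume) h.continuous.locallyIntegrable x
  refine hd.congr_deriv ?_
  rw [convolution_eq_swap, moll_apply]
  have hzero : ∀ t, t ∉ Set.Ioo (x - 2) (x + 2) → φ (x - t) = 0 ∧ deriv φ (x - t) = 0 := by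
    intro t ht
    have hnot : x - t ∉ tsupport φ := by
      rw [hφ, (bump k).tsupport_normed_eq, Metric.mem_closedBall, dist_zero_right,
        Real.norm_eq_abs]
      intro hle
      have := bump_rOut_le k
      exact ht ⟨by linarith [abs_le.1 hle], by linarith [abs_le.1 hle]⟩
    refine ⟨image_eq_zero_of_notMem_tsupport hnot, ?_⟩
    exact Function.notMem_support.1 fun hs => hnot (support_deriv_subset hs)
  have hg : ∀ t, HasDerivAt (fun t => φ (x - t)) (-(deriv φ (x - t))) t := fun t => by
    exact (((bump k).contDiff_normed (μ := volume) (n := 1)).differentiable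
      (by simp) (x - t)).hasDerivAt.comp_const_sub x t
  have hg' : Continuous fun t => -(deriv φ (x - t)) :=
    ((((bump k).contDiff_normed (μ := volume) (n := 1)).continuous_deriv le_rfl).comp
      (continuous_sub_left x)).neg
  have hibp := h.ibp hg hg' (x - 2) (x + 2)
  have hA : Integrable fun t => ψ' t * (φ (x - t) : ℂ) := by
    simpa [mul_comm] using (integrable_bump_mul k x h.locallyIntegrable :)
  have hB : Integrable fun t => ψ t * ((-(deriv φ (x - t)) : ℝ) : ℂ) := by
    refine Continuous.integrable_of_hasCompactSupport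
      (h.continuous.mul (Complex.continuous_ofReal.comp hg')) ?_
    refine HasCompactSupport.intro (isCompact_Icc (a := x - 2) (b := x + 2)) fun t ht => ?_
    simp [(hzero t fun hh => ht (Set.Ioo_subset_Icc_self hh)).2]
  rw [intervalIntegral.integral_eq_integral_of_support_subset, integral_add hA hB,
    (hzero (x + 2) (by simp)).1, (hzero (x - 2) (by simp)).1] at hibp
  · have e1 : ∫ t, ((ContinuousLinearMap.lsmul ℝ ℝ) (deriv φ (x - t))) (ψ t)
        = -∫ t, ψ t * ((-(deriv φ (x - t)) : ℝ) : ℂ) := by
      rw [← integral_neg]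
      refine integral_congr_ae (.of_forall fun t => ?_)
      simp [mul_comm]
    have e2 : ∫ t, (φ (x - t) : ℂ) * ψ' t = ∫ t, ψ' t * (φ (x - t) : ℂ) := by
      simp only [mul_comm]
    rw [e1, e2]
    simp only [Complex.ofReal_zero, mul_zero, sub_zero] at hibp
    linear_combination -hibp
  · intro t ht
    by_contra hh
    obtain ⟨h1, h2⟩ := hzero t fun h' => hh (Set.Ioo_subset_Ioc_self h')
    simp [h1, h2] at ht

lemma tendsto_moll {f : ℝ → ℂ} (hf : Continuous f) (x : ℝ) :
    Tendsto (fun k => moll k f x) atTop (𝓝 (f x)) :=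
  ContDiffBump.convolution_tendsto_right_of_continuous
    (tendsto_one_div_add_atTop_nhds_zero_nat (𝕜 := ℝ)) hf x

lemma norm_moll_le (k : ℕ) {f : ℝ → ℂ} (hf : Continuous f) {x B : ℝ}
    (hB : ∀ t, |t - x| ≤ 1 → ‖f t‖ ≤ B) : ‖moll k f x‖ ≤ B := by
  rw [moll_apply]
  set φ := (bump k).normed volume with hφ
  have h0 : Integrable fun t => φ (x - t) := (bump k).integrable_normed.comp_sub_left x
  refine (norm_integral_le_of_norm_le (h0.mul_const B) (.of_forall fun t => ?_)).trans (le_of_eq ?_)
  · rw [norm_mul, Complex.norm_real, Real.norm_eq_abs, abs_of_nonneg ((bump k).nonneg_normed _)]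
    rcases eq_or_ne (φ (x - t)) 0 with h | h
    · simp [← hφ, h]
    · refine mul_le_mul_of_nonneg_left (hB t ?_) ((bump k).nonneg_normed _)
      have := (bump k).support_normed_eq.subset (Function.mem_support.2 h)
      rw [Metric.mem_ball, dist_zero_right, Real.norm_eq_abs] at this
      rw [abs_sub_comm]
      linarith [bump_rOut_le k]
  · rw [integral_mul_const, integral_sub_left_eq_self, (bump k).integral_normed, one_mul]

/-- `∑ ‖ψ_j‖²` at a point. -/
noncomputable def dens {n : ℕ} (ψ : Fin n → ℝ → ℂ) (x : ℝ) : ℝ := ∑ i, ‖ψ i x‖ ^ 2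

lemma sqF_eq_dens {n : ℕ} (ψ : Fin n → ℝ → ℂ) (x : ℝ) :
    sqF (Matrix.of fun (_ : Fin 1) i => ψ i x) = dens ψ x := by
  simp [sqF, dens]

/-- The kinetic inequality for orthonormal families of vector valued `H¹` functions. -/
theorem kinetic_orbitals_vec {n : ℕ} {κ : Type} [Fintype κ] {ψ ψ' : κ → Fin n → ℝ → ℂ}
    (hres : ResidualBound (Fin n) κ) (h : ∀ a i, Orbital (ψ a i) (ψ' a i))
    (horth : ∀ i j, ∫ x, ∑ a, star (ψ a i x) * ψ a j x = if i = j then 1 else 0) :
    Integrable (fun x => cube (Matrix.of fun a i => ψ a i x)) ∧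
      π ^ 2 / 4 * ∫ x, cube (Matrix.of fun a i => ψ a i x)
        ≤ ∫ x, sqF (Matrix.of fun a i => ψ' a i x) := by
  have hii : ∀ a i j, Integrable fun x => star (ψ a i x) * ψ a j x := fun a i j => by
    refine ((h a i).sq.add (h a j).sq).mono'
      ((h a i).continuous.star.mul (h a j).continuous).aestronglyMeasurable
      (.of_forall fun x => ?_)
    rw [norm_mul, norm_star, Pi.add_apply]
    nlinarith [two_mul_le_add_sq ‖ψ a i x‖ ‖ψ a j x‖]
  -- Bessel
  have hb : ∀ v : Fin n → ℂ, ∫ x, ∑ a, ‖∑ i, ψ a i x * v i‖ ^ 2 = ∑ i, ‖v i‖ ^ 2 := by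
    intro v
    apply Complex.ofReal_injective
    rw [← integral_complex_ofReal]
    push_cast
    simp only [← Complex.conj_mul', map_sum, map_mul, starRingEnd_apply, Finset.sum_mul,
      Finset.mul_sum]
    have hI : ∀ a i j, Integrable fun x => star (ψ a j x) * star (v j) * (ψ a i x * v i) :=
      fun a i j => ((hii a j i).mul_const (star (v j) * v i)).congr
        (.of_forall fun x => by ring)
    rw [integral_finsetSum _ fun a _ => integrable_finsetSum _ fun i _ =>
      integrable_finsetSum _ fun j _ => hI a i j]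
    simp only [integral_finsetSum _ fun i _ => integrable_finsetSum _ fun j _ => hI _ i j,
      integral_finsetSum _ fun j _ => hI _ _ j]
    rw [Finset.sum_comm]
    refine Finset.sum_congr rfl fun i _ => ?_
    rw [Finset.sum_comm]
    have e : ∀ j, ∑ a, ∫ x, star (ψ a j x) * star (v j) * (ψ a i x * v i)
        = (if j = i then 1 else 0) * (star (v j) * v i) := fun j => by
      rw [← horth, integral_finsetSum _ fun a _ => hii a j i, Finset.sum_mul]
      refine Finset.sum_congr rfl fun a _ => ?_
      rw [← integral_mul_const]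
      exact integral_congr_ae (.of_forall fun x => by ring)
    simp only [e, ite_mul, one_mul, zero_mul, Finset.sum_ite_eq', Finset.mem_univ, if_true]
  set I := ∫ x, sqF (Matrix.of fun a i => ψ' a i x) with hI
  have hI0 : 0 ≤ I := integral_nonneg fun x => sqF_nonneg _
  have hlin : ∀ k a (v : Fin n → ℂ) x,
      ∑ i, moll k (ψ a i) x * v i = moll k (fun t => ∑ i, ψ a i t * v i) x := by
    intro k a v x
    simp only [moll_apply, Finset.mul_sum]
    rw [integral_finsetSum _ fun i _ => ?_]
    · refine Finset.sum_congr rfl fun i _ => ?_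
      rw [← integral_mul_const]
      exact integral_congr_ae (.of_forall fun t => by ring)
    · exact ((integrable_bump_mul k x
        ((h a i).continuous.mul continuous_const).locallyIntegrable :)).congr
          (.of_forall fun t => Complex.real_smul)
  have hfr : ∀ k, Frame (fun a i => moll k (ψ a i)) (fun a i => moll k (ψ' a i)) := by
    intro k
    refine ⟨fun a i x => (h a i).hasDerivAt_moll k x,
      fun a i => continuous_moll k (h a i).locallyIntegrable,
      fun a i => (integrable_norm_moll_sq k (h a i).continuous.locallyIntegrable (h a i).sq).1,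
      fun a i => (integrable_norm_moll_sq k (h a i).locallyIntegrable (h a i).sq').1, fun v => ?_⟩
    have hc : ∀ a, Continuous fun t => ∑ i, ψ a i t * v i := fun a =>
      continuous_finsetSum _ fun i _ => (h a i).continuous.mul continuous_const
    have hsq : ∀ a, Integrable fun t => ‖∑ i, ψ a i t * v i‖ ^ 2 := fun a => by
      refine Integrable.mono' ((integrable_finsetSum Finset.univ fun i _ => (h a i).sq).const_mul
        (∑ i, ‖v i‖ ^ 2)) ((hc a).norm.pow 2).aestronglyMeasurable (.of_forall fun t => ?_)
      rw [Real.norm_eq_abs, abs_of_nonneg (by positivity)]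
      refine (pow_le_pow_left₀ (norm_nonneg _) (norm_sum_le _ _) 2).trans ?_
      simp only [norm_mul]
      rw [mul_comm]
      exact Finset.sum_mul_sq_le_sq_mul_sq _ _ _
    simp only [hlin]
    rw [← hb v, integral_finsetSum _ fun a _ =>
      (integrable_norm_moll_sq k (hc a).locallyIntegrable (hsq a)).1,
      integral_finsetSum _ fun a _ => hsq a]
    exact Finset.sum_le_sum fun a _ =>
      (integrable_norm_moll_sq k (hc a).locallyIntegrable (hsq a)).2
  have hkin : ∀ k, π ^ 2 / 4 * ∫ x, cube (Matrix.of fun a i => moll k (ψ a i) x) ≤ I ∧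
      Integrable fun x => cube (Matrix.of fun a i => moll k (ψ a i) x) := by
    intro k
    obtain ⟨h1, h2⟩ := (hfr k).kinetic hres
    refine ⟨h2.trans ?_, h1⟩
    simp only [hI, sqF, Matrix.of_apply]
    rw [integral_finsetSum _ fun a _ => integrable_finsetSum _ fun i _ =>
      (integrable_norm_moll_sq k (h a i).locallyIntegrable (h a i).sq').1,
      integral_finsetSum _ fun a _ => integrable_finsetSum _ fun i _ => (h a i).sq']
    refine Finset.sum_le_sum fun a _ => ?_
    rw [integral_finsetSum _ fun i _ => (integrable_norm_moll_sq k (h a i).locallyIntegrable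
      (h a i).sq').1, integral_finsetSum _ fun i _ => (h a i).sq']
    exact Finset.sum_le_sum fun i _ =>
      (integrable_norm_moll_sq k (h a i).locallyIntegrable (h a i).sq').2
  have hc : Continuous fun x => cube (Matrix.of fun a i => ψ a i x) :=
    continuous_cube fun a i => (h a i).continuous
  have hbound : ∀ R : ℝ, 0 ≤ R →
      ∫ x in (-R)..R, cube (Matrix.of fun a i => ψ a i x) ≤ 4 / π ^ 2 * I := by
    intro R hR
    have hB : ∀ a i, ∃ B, ∀ t ∈ Set.Icc (-R - 1) (R + 1), ‖ψ a i t‖ ≤ B := fun a i =>
      isCompact_Icc.exists_bound_of_continuousOn (h a i).continuous.continuousOn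
    choose B hB using hB
    have hcont : ∀ k, Continuous fun x => cube (Matrix.of fun a i => moll k (ψ a i) x) := fun k =>
      continuous_cube fun a i => continuous_moll k (h a i).continuous.locallyIntegrable
    refine le_of_tendsto' (intervalIntegral.tendsto_integral_filter_of_dominated_convergence
      (l := atTop) (F := fun k x => cube (Matrix.of fun a i => moll k (ψ a i) x))
      (fun _ => (Fintype.card (Fin n) : ℝ) ^ 2 * (∑ a, ∑ i, B a i ^ 2) ^ 3)
      (.of_forall fun k => (hcont k).aestronglyMeasurable)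
      (.of_forall fun k => .of_forall fun x hx => ?_) intervalIntegrable_const
      (.of_forall fun x _ => ?_)) fun k => ?_
    · rw [Set.uIoc_of_le (by linarith)] at hx
      rw [Real.norm_eq_abs, abs_of_nonneg (cube_nonneg _)]
      refine (cube_le _).trans (mul_le_mul_of_nonneg_left
        (pow_le_pow_left₀ (sqF_nonneg _) (Finset.sum_le_sum fun a _ =>
          Finset.sum_le_sum fun i _ => ?_) 3) (by positivity))
      refine pow_le_pow_left₀ (norm_nonneg _) (norm_moll_le k (h a i).continuous fun t ht => ?_) 2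
      exact hB a i t ⟨by linarith [abs_le.1 ht, hx.1], by linarith [abs_le.1 ht, hx.2]⟩
    · simp only [cube, sqF, Matrix.mul_apply, Matrix.conjTranspose_apply, Matrix.of_apply]
      exact tendsto_finsetSum _ fun a _ => tendsto_finsetSum _ fun i _ =>
        ((tendsto_finsetSum _ fun l _ => (tendsto_moll (h a l).continuous x).mul
          (tendsto_finsetSum _ fun b _ => ((tendsto_moll (h b l).continuous x).star).mul
            (tendsto_moll (h b i).continuous x))).norm).pow 2
    · obtain ⟨h1, h2⟩ := hkin k
      have hle : ∫ x in (-R)..R, cube (Matrix.of fun a i => moll k (ψ a i) x)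
          ≤ ∫ x, cube (Matrix.of fun a i => moll k (ψ a i) x) := by
        rw [intervalIntegral.integral_of_le (by linarith)]
        exact setIntegral_le_integral h2 (.of_forall fun x => cube_nonneg _)
      refine hle.trans ?_
      rw [div_mul_eq_mul_div, le_div_iff₀ (by positivity)]
      linarith
  have hint : Integrable fun x => cube (Matrix.of fun a i => ψ a i x) := by
    refine integrable_of_intervalIntegral_norm_bounded (4 / π ^ 2 * I)
      (fun R : ℝ => hc.integrableOn_Ioc) tendsto_neg_atTop_atBot tendsto_id ?_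
    filter_upwards [eventually_ge_atTop (0 : ℝ)] with R hR
    refine le_trans (le_of_eq (intervalIntegral.integral_congr fun x _ => ?_)) (hbound R hR)
    exact Real.norm_of_nonneg (cube_nonneg _)
  refine ⟨hint, ?_⟩
  have hlim := le_of_tendsto (intervalIntegral_tendsto_integral hint tendsto_neg_atTop_atBot
    tendsto_id) ((eventually_ge_atTop (0 : ℝ)).mono fun R hR => hbound R hR)
  calc π ^ 2 / 4 * ∫ x, cube (Matrix.of fun a i => ψ a i x) ≤ π ^ 2 / 4 * (4 / π ^ 2 * I) :=
        mul_le_mul_of_nonneg_left hlim (by positivity)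
    _ = I := by field_simp

/-- The sharp kinetic inequality for orthonormal `H¹` families on the line. -/
theorem kinetic_orbitals {n : ℕ} {ψ ψ' : Fin n → ℝ → ℂ} (h : ∀ i, Orbital (ψ i) (ψ' i))
    (horth : ∀ i j, ∫ x, star (ψ i x) * ψ j x = if i = j then 1 else 0) :
    Integrable (fun x => dens ψ x ^ 3) ∧
      π ^ 2 / 4 * ∫ x, dens ψ x ^ 3 ≤ ∫ x, dens ψ' x := by
  simpa [cube_eq_sqF_pow, sqF_eq_dens] using
    kinetic_orbitals_vec (κ := Fin 1) (ψ := fun _ i => ψ i) (ψ' := fun _ i => ψ' i)
      residualBound_scalar (fun _ i => h i) (by simpa using horth)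

end Vale.Agent.P371
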