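import Mathlib

/-!
Kernels acting positively by entrywise multiplication, and the trigonometric kernels needed for
the matrix residual inequality.
-/

namespace Vale.Agent.P371

open Matrix Real Filter
open scoped Topology ComplexOrder

variable {ι : Type} [Fintype ι]

/-- Entrywise multiplication by `f` preserves positive semidefiniteness. -/
def PK (f : ι → ι → ℝ) : Prop :=
  ∀ H : Matrix ι ι ℂ, H.PosSemidef →
    (Matrix.of fun i j => (f i j : ℂ) * H i j).PosSemidef

lemma PK.form_nonneg {f : ι → ι → ℝ} (hf : PK f) {H : Matrix ι ι ℂ} (hH : H.PosSemidef)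
    (c : ι → ℂ) : 0 ≤ (∑ i, ∑ j, star (c i) * ((f i j : ℂ) * H i j) * c j).re := by
  have h := (hf H hH).re_dotProduct_nonneg c
  simpa [dotProduct, mulVec, Finset.mul_sum, mul_assoc] using h

lemma PK.congr {f g : ι → ι → ℝ} (hf : PK f) (h : ∀ i j, f i j = g i j) : PK g := by
  intro H hH
  have := hf H hH
  simp only [h] at this
  exact this

lemma PK.mul {f g : ι → ι → ℝ} (hf : PK f) (hg : PK g) : PK fun i j => f i j * g i j := by
  intro H hH
  have := hf _ (hg H hH)
  refine (congrArg Matrix.PosSemidef ?_).mp this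
  ext i j
  simp [mul_assoc]

lemma PK.add {f g : ι → ι → ℝ} (hf : PK f) (hg : PK g) : PK fun i j => f i j + g i j := by
  intro H hH
  refine (congrArg Matrix.PosSemidef ?_).mp ((hf H hH).add (hg H hH))
  ext i j
  simp [add_mul]

lemma PK.rankOne (φ : ι → ℝ) : PK fun i j => φ i * φ j := by
  classical
  intro H hH
  have h := hH.conjTranspose_mul_mul_same (Matrix.diagonal fun i => (φ i : ℂ))
  refine (congrArg Matrix.PosSemidef ?_).mp h
  ext i j
  simp [mul_diagonal, diagonal_mul]
  ring

lemma PK.const {r : ℝ} (hr : 0 ≤ r) : PK fun _ _ : ι => r :=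
  (PK.rankOne fun _ : ι => √r).congr fun _ _ => mul_self_sqrt hr

lemma PK.sum {κ : Type} (s : Finset κ) {f : κ → ι → ι → ℝ} (h : ∀ k ∈ s, PK (f k)) :
    PK fun i j => ∑ k ∈ s, f k i j := by
  classical
  induction s using Finset.induction_on with
  | empty => exact (PK.const le_rfl).congr fun _ _ => by simp
  | insert a s ha ih =>
    exact ((h a (Finset.mem_insert_self a s)).add
      (ih fun k hk => h k (Finset.mem_insert_of_mem hk))).congr fun _ _ => by simp [ha]

lemma PK.prod {κ : Type} (s : Finset κ) {f : κ → ι → ι → ℝ} (h : ∀ k ∈ s, PK (f k)) :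
    PK fun i j => ∏ k ∈ s, f k i j := by
  classical
  induction s using Finset.induction_on with
  | empty => exact (PK.const zero_le_one).congr fun _ _ => by simp
  | insert a s ha ih =>
    exact ((h a (Finset.mem_insert_self a s)).mul
      (ih fun k hk => h k (Finset.mem_insert_of_mem hk))).congr fun _ _ => by simp [ha]

/-- Symmetry and nonnegativity of the forms suffice. -/
lemma PK.of_forms {f : ι → ι → ℝ} (hs : ∀ i j, f i j = f j i)
    (h : ∀ H : Matrix ι ι ℂ, H.PosSemidef → ∀ c : ι → ℂ,
      0 ≤ (∑ i, ∑ j, star (c i) * ((f i j : ℂ) * H i j) * c j).re) : PK f := by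
  intro H hH
  have hherm : (Matrix.of fun i j => (f i j : ℂ) * H i j).IsHermitian := by
    ext i j
    rw [conjTranspose_apply, of_apply, of_apply, star_mul', hH.1.apply i j, hs j i,
      Complex.star_def, Complex.conj_ofReal]
  refine Matrix.PosSemidef.of_dotProduct_mulVec_nonneg hherm fun c => Complex.nonneg_iff.2 ⟨?_, ?_⟩
  · simpa [dotProduct, mulVec, Finset.mul_sum, mul_assoc] using h H hH c
  · exact (hherm.im_star_dotProduct_mulVec_self c).symm

lemma PK.tendsto {fN : ℕ → ι → ι → ℝ} {f : ι → ι → ℝ} (h : ∀ N, PK (fN N))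
    (hs : ∀ i j, f i j = f j i)
    (hl : ∀ i j, Tendsto (fun N => fN N i j) atTop (𝓝 (f i j))) : PK f := by
  refine PK.of_forms hs fun H hH c => ?_
  refine ge_of_tendsto' (x := atTop) (f := fun N : ℕ =>
    (∑ i, ∑ j, star (c i) * ((fN N i j : ℂ) * H i j) * c j).re) ?_ fun N => (h N).form_nonneg hH c
  refine (Complex.continuous_re.tendsto _).comp (tendsto_finsetSum _ fun i _ =>
    tendsto_finsetSum _ fun j _ => ?_)
  exact ((((Complex.continuous_ofReal.tendsto _).comp (hl i j)).mul_const _).const_mul _).mul_const _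

lemma PK.integral {f : ℝ → ι → ι → ℝ} {a b : ℝ} (hab : a ≤ b)
    (hc : ∀ i j, Continuous fun p => f p i j) (hs : ∀ p i j, f p i j = f p j i)
    (h : ∀ p ∈ Set.Icc a b, PK (f p)) : PK fun i j => ∫ p in a..b, f p i j := by
  refine PK.of_forms (fun i j => by simp only [hs _ i j]) fun H hH c => ?_
  have e : ∀ g : ι → ι → ℝ, (∑ i, ∑ j, star (c i) * ((g i j : ℂ) * H i j) * c j).re
      = ∑ i, ∑ j, g i j * (star (c i) * H i j * c j).re := fun g => by
    simp only [Complex.re_sum]
    refine Finset.sum_congr rfl fun i _ => Finset.sum_congr rfl fun j _ => ?_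
    rw [← Complex.re_ofReal_mul]
    congr 1
    ring
  rw [e]
  have hi : ∀ i j, IntervalIntegrable (fun p => f p i j * (star (c i) * H i j * c j).re)
      MeasureTheory.volume a b := fun i j => ((hc i j).mul continuous_const).intervalIntegrable _ _
  have e2 : ∑ i, ∑ j, (∫ p in a..b, f p i j) * (star (c i) * H i j * c j).re
      = ∫ p in a..b, ∑ i, ∑ j, f p i j * (star (c i) * H i j * c j).re := by
    set F : ι → ι → ℝ → ℝ := fun i j p => f p i j * (star (c i) * H i j * c j).re with hF
    change _ = ∫ p in a..b, ∑ i, ∑ j, F i j p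
    rw [intervalIntegral.integral_finsetSum (f := fun i p => ∑ j, F i j p) fun i _ =>
      (continuous_finsetSum _ fun j _ => (hc i j).mul continuous_const).intervalIntegrable _ _]
    refine Finset.sum_congr rfl fun i _ => ?_
    rw [intervalIntegral.integral_finsetSum (f := fun j p => F i j p) fun j _ => hi i j]
    exact Finset.sum_congr rfl fun j _ => (intervalIntegral.integral_mul_const _ _).symm
  rw [e2]
  refine intervalIntegral.integral_nonneg hab fun p hp => ?_
  rw [← e]
  exact (h p hp).form_nonneg hH c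

/-- The Cauchy kernel. -/
lemma PK.cauchy {α : ι → ℝ} (hα : ∀ i, 0 < α i) : PK fun i j => 1 / (α i + α j) := by
  set q : ι → ℝ := fun i => (1 - α i) / (1 + α i) with hq
  have hq1 : ∀ i, |q i| < 1 := fun i => by
    rw [hq, abs_lt, lt_div_iff₀ (by linarith [hα i]), div_lt_iff₀ (by linarith [hα i])]
    constructor <;> linarith [hα i]
  refine PK.tendsto (fN := fun N i j => ∑ m ∈ Finset.range N,
      (√2 / (1 + α i) * q i ^ m) * (√2 / (1 + α j) * q j ^ m)) (fun N => ?_) (fun i j => by
    rw [add_comm]) fun i j => ?_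
  · exact PK.sum _ fun m _ => PK.rankOne fun i => √2 / (1 + α i) * q i ^ m
  · have hqq : |q i * q j| < 1 := by
      rw [abs_mul]
      exact mul_lt_one_of_nonneg_of_lt_one_left (abs_nonneg _) (hq1 i) (hq1 j).le
    have hg := ((hasSum_geometric_of_abs_lt_one hqq).mul_left
      (√2 / (1 + α i) * (√2 / (1 + α j)))).tendsto_sum_nat
    have he : √2 / (1 + α i) * (√2 / (1 + α j)) * (1 - q i * q j)⁻¹ = 1 / (α i + α j) := by
      have h1 := hα i
      have h2 := hα j
      have hd : 1 - q i * q j = 2 * (α i + α j) / ((1 + α i) * (1 + α j)) := by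
        rw [hq]; field_simp; ring
      rw [hd, div_mul_div_comm, mul_self_sqrt zero_le_two, inv_div]
      field_simp
    rw [he] at hg
    refine hg.congr fun N => Finset.sum_congr rfl fun m _ => ?_
    rw [mul_pow]
    ring

/-- The cosine kernel of differences. -/
lemma PK.cos_sub (w : ι → ℝ) : PK fun i j => cos (w i - w j) :=
  ((PK.rankOne fun i => cos (w i)).add (PK.rankOne fun i => sin (w i))).congr fun i j =>
    (Real.cos_sub _ _).symm

lemma integral_cos_mul_sinc (z : ℝ) : ∫ r in (-1 : ℝ)..1, cos (r * z) = 2 * sinc z := by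
  rcases eq_or_ne z 0 with rfl | hz
  · norm_num [sinc_zero]
  rw [intervalIntegral.integral_comp_mul_right (fun t => cos t) hz, integral_cos, sinc_of_ne_zero hz,
    smul_eq_mul]
  simp [Real.sin_neg]
  ring

/-- The cardinal sine kernel of differences. -/
lemma PK.sinc_sub (w : ι → ℝ) : PK fun i j => sinc (w i - w j) := by
  have h := (PK.const (ι := ι) (r := 1 / 2) (by norm_num)).mul
    (PK.integral (a := -1) (b := 1) (by norm_num) (f := fun r i j => cos (r * w i - r * w j))
      (fun i j => by fun_prop) (fun r i j => by rw [← cos_neg, neg_sub])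
      (fun r _ => PK.cos_sub fun i => r * w i))
  refine h.congr fun i j => ?_
  simp only [← mul_sub, integral_cos_mul_sinc]
  ring

/-- `sin (p s) / sin s`, extended continuously by `p` at `s = 0`. -/
noncomputable def sineQuot (p s : ℝ) : ℝ := p * sinc (p * s) / sinc s

lemma continuous_sineQuot (s : ℝ) : Continuous fun p => sineQuot p s := by
  unfold sineQuot; fun_prop

lemma sinc_ne_zero {s : ℝ} (hs : |s| < π) : sinc s ≠ 0 := by
  rcases eq_or_ne s 0 with rfl | h0
  · simp
  rw [sinc_of_ne_zero h0]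
  refine div_ne_zero (fun h => ?_) h0
  rw [abs_lt] at hs
  rcases lt_or_gt_of_ne h0 with h1 | h1
  · exact (sin_neg_of_neg_of_neg_pi_lt h1 hs.1).ne h
  · exact (sin_pos_of_pos_of_lt_pi h1 hs.2).ne' h

lemma sineQuot_mul_sin {s : ℝ} (hs : |s| < π) (p : ℝ) :
    sineQuot p s * sin s = sin (p * s) := by
  rcases eq_or_ne s 0 with rfl | h0
  · simp
  rcases eq_or_ne p 0 with rfl | hp
  · simp [sineQuot]
  have := sinc_ne_zero hs
  rw [sinc_of_ne_zero h0] at this
  rw [sineQuot, sinc_of_ne_zero h0, sinc_of_ne_zero (mul_ne_zero hp h0)]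
  field_simp [(div_ne_zero_iff.1 this).1]

/-- The addition formula in the form used by the residual identity. -/
lemma sin_add_split {s : ℝ} (hs : |s| < π) (c p : ℝ) :
    sin (c + p * s) = sin c * sineQuot (1 - p) s + sin (c + s) * sineQuot p s := by
  rcases eq_or_ne s 0 with rfl | h0
  · simp [sineQuot]; ring
  have hne : sin s ≠ 0 := by
    have := sinc_ne_zero hs
    rw [sinc_of_ne_zero h0] at this
    exact (div_ne_zero_iff.1 this).1
  refine mul_right_cancel₀ hne ?_
  rw [add_mul, mul_assoc, mul_assoc, sineQuot_mul_sin hs, sineQuot_mul_sin hs,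
    show (1 - p) * s = s - p * s by ring, sin_sub, sin_add, sin_add]
  ring

lemma tendsto_sinc_prod (z : ℝ) : Tendsto (fun n : ℕ => ∏ j ∈ Finset.range n,
    (1 - z ^ 2 / (((j : ℝ) + 1) * π) ^ 2)) atTop (𝓝 (sinc z)) := by
  rcases eq_or_ne z 0 with rfl | hz
  · simp
  have hp := pi_ne_zero
  have h := (Real.tendsto_euler_sin_prod (z / π)).const_mul z⁻¹
  rw [show π * (z / π) = z by field_simp] at h
  have e : z⁻¹ * sin z = sinc z := by rw [sinc_of_ne_zero hz]; ring
  rw [e] at h
  refine h.congr fun n => ?_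
  rw [← mul_assoc, inv_mul_cancel₀ hz, one_mul]
  exact Finset.prod_congr rfl fun j _ => by field_simp

/-- `sin (p s) / sin s` with `s = u_i + u_j` is a positive kernel. -/
lemma PK.sineQuot {u : ι → ℝ} (hu : ∀ i, |u i| < π / 2) {p : ℝ} (h0 : 0 ≤ p) (h1 : p ≤ 1) :
    PK fun i j => Vale.Agent.P371.sineQuot p (u i + u j) := by
  set fac : ℕ → ι → ι → ℝ := fun n i j =>
    p ^ 2 + (1 - p ^ 2) * (((n : ℝ) + 1) * π / 2
      * (1 / ((((n : ℝ) + 1) * π / 2 - u i) + (((n : ℝ) + 1) * π / 2 - u j))
        + 1 / ((((n : ℝ) + 1) * π / 2 + u i) + (((n : ℝ) + 1) * π / 2 + u j)))) with hfac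
  have hN : ∀ n : ℕ, π / 2 ≤ ((n : ℝ) + 1) * π / 2 := fun n => by
    have : (0 : ℝ) ≤ n * π := by positivity
    linarith
  have hfPK : ∀ n, PK (fac n) := fun n => by
    refine (PK.const (sq_nonneg p)).add ((PK.const ?_).mul ((PK.const ?_).mul
      ((PK.cauchy fun i => ?_).add (PK.cauchy fun i => ?_))))
    · nlinarith
    · positivity
    · linarith [hN n, (abs_lt.1 (hu i)).2]
    · linarith [hN n, (abs_lt.1 (hu i)).1]
  have hab : ∀ i j, |u i + u j| < π := fun i j => by
    have := abs_add_le (u i) (u j); linarith [hu i, hu j]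
  refine PK.tendsto (fN := fun N i j => p * ∏ n ∈ Finset.range N, fac n i j)
    (fun N => (PK.const h0).mul (PK.prod _ fun n _ => hfPK n))
    (fun i j => by rw [add_comm]) fun i j => ?_
  set s := u i + u j with hs
  have hlim := (((tendsto_sinc_prod (p * s)).div (tendsto_sinc_prod s)
    (sinc_ne_zero (hab i j))).const_mul p)
  rw [Vale.Agent.P371.sineQuot, mul_div_assoc]
  refine hlim.congr fun N => ?_
  rw [Pi.div_apply, ← Finset.prod_div_distrib]
  refine congrArg (p * ·) (Finset.prod_congr rfl fun n _ => ?_)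
  set M := ((n : ℝ) + 1) * π with hM
  have hπM : π ≤ M := by
    have : (0 : ℝ) ≤ n * π := by positivity
    rw [hM]; linarith
  have hs' := abs_lt.1 (hab i j)
  have h3 : M - s ≠ 0 := by linarith
  have h4 : M + s ≠ 0 := by linarith
  have hM0 : M ≠ 0 := by linarith [pi_pos]
  have h5 : 1 - s ^ 2 / M ^ 2 ≠ 0 := by
    rw [show 1 - s ^ 2 / M ^ 2 = (M - s) * (M + s) / M ^ 2 by field_simp; ring]
    positivity
  simp only [hfac]
  rw [show M / 2 - u i + (M / 2 - u j) = M - s by rw [hs]; ring,
    show M / 2 + u i + (M / 2 + u j) = M + s by rw [hs]; ring,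
    show 1 - s ^ 2 / M ^ 2 = (M - s) * (M + s) / M ^ 2 by field_simp; ring]
  field_simp
  ring

end Vale.Agent.P371
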