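import Vale.Agent.P371.Bound

/-!
The potential `(3/4) sech²` attains the sharp constant at `γ = 1`.
-/

namespace Vale.Agent.P371

open MeasureTheory Filter Real
open scoped Topology

/-- The extremal potential. -/
noncomputable def solW (x : ℝ) : ℝ := 3 / 4 / cosh x ^ 2

/-- Its normalized ground state. -/
noncomputable def solF (x : ℝ) : ℝ := (√(π * cosh x))⁻¹

/-- The derivative of the ground state. -/
noncomputable def solF' (x : ℝ) : ℝ := -(1 / 2) * (sinh x / cosh x) * solF x

lemma continuous_solF : Continuous solF :=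
  ((continuous_const.mul continuous_cosh).sqrt).inv₀ fun x =>
    (sqrt_pos.2 (mul_pos pi_pos (cosh_pos x))).ne'

lemma continuous_solW : Continuous solW :=
  continuous_const.div (continuous_cosh.pow 2) fun x => by positivity

lemma abs_sinh_div_cosh_le (x : ℝ) : |sinh x / cosh x| ≤ 1 := by
  rw [abs_div, abs_of_pos (cosh_pos x), div_le_one (cosh_pos x)]
  exact abs_le.2 ⟨by linarith [sinh_lt_cosh (-x), sinh_neg x, cosh_neg x], (sinh_lt_cosh x).le⟩

lemma continuous_solF' : Continuous solF' :=
  (continuous_const.mul (continuous_sinh.div continuous_cosh fun x => (cosh_pos x).ne')).mul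
    continuous_solF

lemma hasDerivAt_solF (x : ℝ) : HasDerivAt solF (solF' x) x := by
  have hp : 0 < π * cosh x := mul_pos pi_pos (cosh_pos x)
  have h := (((hasDerivAt_cosh x).const_mul π).sqrt hp.ne').inv (sqrt_pos.2 hp).ne'
  refine h.congr_deriv ?_
  rw [solF', solF, sq_sqrt hp.le]
  have := sqrt_pos.2 hp
  have := cosh_pos x
  field_simp

lemma hasDerivAt_solF' (x : ℝ) : HasDerivAt solF' (1 / 4 * solF x - solW x * solF x) x := by
  have hc := cosh_pos x
  have h := (((hasDerivAt_sinh x).div (hasDerivAt_cosh x) hc.ne').const_mul (-(1 / 2 : ℝ))).mul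
    (hasDerivAt_solF x)
  refine h.congr_deriv ?_
  rw [solF', solW]
  simp only [Pi.div_apply]
  field_simp
  linear_combination 12 * solF x * sinh_sq x

/-- Integrating a nonnegative derivative over the line. -/
lemma integral_of_hasDerivAt_of_nonneg {F f : ℝ → ℝ} {lo hi : ℝ}
    (hd : ∀ x, HasDerivAt F (f x) x) (hf : Continuous f) (h0 : ∀ x, 0 ≤ f x)
    (hhi : Tendsto F atTop (𝓝 hi)) (hlo : Tendsto F atBot (𝓝 lo)) :
    Integrable f ∧ ∫ x, f x = hi - lo := by
  have hii : ∀ a b, ∫ x in a..b, f x = F b - F a := fun a b =>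
    intervalIntegral.integral_eq_sub_of_hasDerivAt (fun x _ => hd x) (hf.intervalIntegrable a b)
  have ht : Tendsto (fun R : ℝ => ∫ x in (-R)..R, f x) atTop (𝓝 (hi - lo)) := by
    simp only [hii]
    exact hhi.sub (hlo.comp tendsto_neg_atTop_atBot)
  have hint : Integrable f := by
    refine integrable_of_intervalIntegral_norm_tendsto (hi - lo)
      (fun R : ℝ => hf.integrableOn_Ioc) tendsto_neg_atTop_atBot tendsto_id (ht.congr fun R => ?_)
    exact intervalIntegral.integral_congr fun x _ => (Real.norm_of_nonneg (h0 x)).symm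
  exact ⟨hint, integral_of_hasDerivAt_of_tendsto hd hint hlo hhi⟩

lemma tendsto_sinh_div_cosh_sq {l : Filter ℝ} (hl : Tendsto cosh l atTop) :
    Tendsto (fun x => sinh x / cosh x ^ 2) l (𝓝 0) := by
  refine squeeze_zero_norm (fun x => ?_) hl.inv_tendsto_atTop
  rw [Pi.inv_apply, Real.norm_eq_abs, sq, ← div_div, abs_div, abs_of_pos (cosh_pos x),
    inv_eq_one_div]
  exact div_le_div_of_nonneg_right (abs_sinh_div_cosh_le x) (cosh_pos x).le

lemma tendsto_cosh_atTop' : Tendsto cosh atTop atTop := by
  refine tendsto_atTop_mono (fun x => ?_) (tendsto_exp_atTop.atTop_div_const two_pos)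
  rw [cosh_eq]
  linarith [exp_pos (-x)]

lemma tendsto_cosh_atBot' : Tendsto cosh atBot atTop := by
  simpa [Function.comp_def] using tendsto_cosh_atTop'.comp tendsto_neg_atBot_atTop

lemma tendsto_sinh_atTop' : Tendsto sinh atTop atTop := by
  refine tendsto_atTop_mono' _ ((eventually_ge_atTop (0 : ℝ)).mono fun x hx => ?_) tendsto_id
  exact self_le_sinh_iff.2 hx

lemma tendsto_sinh_atBot' : Tendsto sinh atBot atBot := by
  simpa [Function.comp_def] using
    tendsto_neg_atTop_atBot.comp (tendsto_sinh_atTop'.comp tendsto_neg_atBot_atTop)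

lemma sech_integral : Integrable (fun x => 1 / cosh x) ∧ ∫ x, 1 / cosh x = π := by
  have h := integral_of_hasDerivAt_of_nonneg (f := fun x => 1 / cosh x) (F := fun x => arctan (sinh x)) (lo := -(π / 2))
    (hi := π / 2) (fun x => ?_) (continuous_const.div continuous_cosh fun x => (cosh_pos x).ne')
    (fun x => (one_div_pos.2 (cosh_pos x)).le)
    ((tendsto_arctan_atTop.mono_right nhdsWithin_le_nhds).comp tendsto_sinh_atTop')
    ((tendsto_arctan_atBot.mono_right nhdsWithin_le_nhds).comp tendsto_sinh_atBot')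
  · exact ⟨h.1, h.2.trans (by ring)⟩
  · refine (hasDerivAt_sinh x).arctan.congr_deriv ?_
    have := cosh_pos x
    rw [← cosh_sq']
    field_simp

lemma sech3_integral : Integrable (fun x => 1 / cosh x ^ 3) ∧ ∫ x, 1 / cosh x ^ 3 = π / 2 := by
  have h := integral_of_hasDerivAt_of_nonneg
    (f := fun x => 1 / cosh x ^ 3) (F := fun x => (sinh x / cosh x ^ 2 + arctan (sinh x)) / 2) (lo := (0 + -(π / 2)) / 2)
    (hi := (0 + π / 2) / 2) (fun x => ?_)
    (continuous_const.div (continuous_cosh.pow 3) fun x => (pow_pos (cosh_pos x) 3).ne')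
    (fun x => (one_div_pos.2 (pow_pos (cosh_pos x) 3)).le)
    (((tendsto_sinh_div_cosh_sq tendsto_cosh_atTop').add
      ((tendsto_arctan_atTop.mono_right nhdsWithin_le_nhds).comp tendsto_sinh_atTop')).div_const 2)
    (((tendsto_sinh_div_cosh_sq tendsto_cosh_atBot').add
      ((tendsto_arctan_atBot.mono_right nhdsWithin_le_nhds).comp tendsto_sinh_atBot')).div_const 2)
  · exact ⟨h.1, h.2.trans (by ring)⟩
  · have hc := cosh_pos x
    refine ((((hasDerivAt_sinh x).div ((hasDerivAt_cosh x).pow 2) (pow_pos hc 2).ne').add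
      (hasDerivAt_sinh x).arctan).div_const 2).congr_deriv ?_
    rw [← cosh_sq']
    simp only [Pi.pow_apply]
    field_simp
    push_cast
    linear_combination (-2 * cosh x) * sinh_sq x

lemma solF_sq (x : ℝ) : solF x ^ 2 = π⁻¹ * (1 / cosh x) := by
  rw [solF, inv_pow, sq_sqrt (mul_pos pi_pos (cosh_pos x)).le, mul_inv, one_div]

lemma solW_rpow (x : ℝ) :
    solW x ^ (3 / 2 : ℝ) = 3 * √3 / 8 * (1 / cosh x ^ 3) := by
  have hc := cosh_pos x
  have h : solW x = (√3 / 2 / cosh x) ^ (2 : ℝ) := by
    rw [solW, rpow_two, div_pow, div_pow, sq_sqrt (by norm_num)]; norm_num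
  rw [h, ← rpow_mul (by positivity)]
  norm_num
  field_simp
  linear_combination 8 * sq_sqrt (show (0 : ℝ) ≤ 3 by norm_num)

lemma potential_solW : Potential 1 solW := by
  refine ⟨continuous_solW.measurable, fun x => by unfold solW; positivity, ?_⟩
  simp only [rpow_three_halves_eq, solW_rpow]
  exact sech3_integral.1.const_mul _

lemma integral_solW : ∫ x, solW x ^ ((1 : ℝ) + 1 / 2) = 3 * √3 / 8 * (π / 2) := by
  simp only [rpow_three_halves_eq, solW_rpow]
  rw [integral_const_mul, sech3_integral.2]

lemma orbital_solF : Orbital (fun x => (solF x : ℂ)) (fun x => (solF' x : ℂ)) := by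
  have h2 : Integrable fun x => ‖(solF x : ℂ)‖ ^ 2 := by
    simp only [Complex.norm_real, Real.norm_eq_abs, sq_abs, solF_sq]
    exact sech_integral.1.const_mul _
  refine ⟨(memLp_two_iff_integrable_sq_norm
      (Complex.continuous_ofReal.comp continuous_solF).aestronglyMeasurable).2 h2,
    (memLp_two_iff_integrable_sq_norm
      (Complex.continuous_ofReal.comp continuous_solF').aestronglyMeasurable).2 ?_, fun a b => ?_⟩
  · refine h2.mono' ((Complex.continuous_ofReal.comp continuous_solF').norm.pow
      2).aestronglyMeasurable (.of_forall fun x => ?_)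
    simp only [Complex.norm_real, Real.norm_eq_abs, sq_abs, abs_pow]
    have h3 : (sinh x / cosh x) ^ 2 ≤ 1 := by
      have := abs_sinh_div_cosh_le x
      nlinarith [sq_abs (sinh x / cosh x), abs_nonneg (sinh x / cosh x)]
    rw [Function.comp_apply, Complex.norm_real, Real.norm_eq_abs, sq_abs, solF', mul_pow, mul_pow]
    nlinarith [mul_le_mul_of_nonneg_right h3 (sq_nonneg (solF x))]
  · exact (intervalIntegral.integral_eq_sub_of_hasDerivAt (fun x _ => (hasDerivAt_solF x).ofReal_comp)
      ((Complex.continuous_ofReal.comp continuous_solF').intervalIntegrable a b)).symm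

/-- `∫ η' f + η g = 0` on the line for `H¹` functions. -/
lemma Orbital.ibp_line {η η' : ℝ → ℂ} (h : Orbital η η') {f g : ℝ → ℝ}
    (hf : ∀ x, HasDerivAt f (g x) x) (hg : Continuous g)
    (h1 : Integrable fun x => η' x * (f x : ℂ)) (h2 : Integrable fun x => η x * (g x : ℂ))
    (h3 : Integrable fun x => η x * (f x : ℂ)) :
    (∫ x, η' x * (f x : ℂ)) + ∫ x, η x * (g x : ℂ) = 0 := by
  set F := fun x => η x * (f x : ℂ) with hF
  have h12 : Integrable fun x => η' x * (f x : ℂ) + η x * (g x : ℂ) := h1.add h2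
  have hzero : ∀ l : Filter ℝ, (l = atTop ∨ l = atBot) → ∀ L, Tendsto F l (𝓝 L) → L = 0 := by
    intro l hl L hL
    rcases hl with rfl | rfl
    · exact IntegrableAtFilter.eq_zero_of_tendsto (μ := volume)
        (h3.integrableAtFilter _) (fun s hs => by
          obtain ⟨a, ha⟩ := mem_atTop_sets.1 hs
          exact measure_mono_top (fun x hx => ha x hx) (Real.volume_Ici (a := a))) hL
    · exact IntegrableAtFilter.eq_zero_of_tendsto (μ := volume)
        (h3.integrableAtFilter _) (fun s hs => by
          obtain ⟨a, ha⟩ := mem_atBot_sets.1 hs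
          exact measure_mono_top (fun x hx => ha x hx) (Real.volume_Iic (a := a))) hL
  have hFt : ∀ b, F b = F 0 + ∫ x in (0 : ℝ)..b, η' x * (f x : ℂ) + η x * (g x : ℂ) := fun b => by
    rw [h.ibp hf hg]; ring
  have htop : Tendsto F atTop (𝓝 (F 0 + ∫ x in Set.Ioi (0 : ℝ),
      η' x * (f x : ℂ) + η x * (g x : ℂ))) := by
    refine (tendsto_const_nhds.add (intervalIntegral_tendsto_integral_Ioi 0 h12.integrableOn
      tendsto_id)).congr fun b => (hFt b).symm
  have hbot : Tendsto F atBot (𝓝 (F 0 - ∫ x in Set.Iic (0 : ℝ),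
      η' x * (f x : ℂ) + η x * (g x : ℂ))) := by
    refine (tendsto_const_nhds.sub (intervalIntegral_tendsto_integral_Iic 0 h12.integrableOn
      tendsto_id)).congr fun b => ?_
    rw [hFt b, intervalIntegral.integral_symm]
    simp [sub_eq_add_neg]
  have e1 := hzero _ (.inl rfl) _ htop
  have e2 := hzero _ (.inr rfl) _ hbot
  rw [← integral_add h1 h2, ← intervalIntegral.integral_Iic_add_Ioi h12.integrableOn
    h12.integrableOn (b := 0)]
  linear_combination e1 - e2

lemma Orbital.integrable_mul {u u' : ℝ → ℂ} (h : Orbital u u') {v v' : ℝ → ℂ}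
    (h' : Orbital v v') :
    (Integrable fun x => u x * v x) ∧ (Integrable fun x => u' x * v' x) ∧
      Integrable fun x => u x * v' x := by
  have key : ∀ {p q : ℝ → ℂ}, MemLp p 2 → MemLp q 2 → Integrable fun x => p x * q x := by
    intro p q hp hq
    refine (((memLp_two_iff_integrable_sq_norm hp.1).1 hp).add
      ((memLp_two_iff_integrable_sq_norm hq.1).1 hq)).mono' (hp.1.mul hq.1)
      (.of_forall fun x => ?_)
    rw [norm_mul, Pi.add_apply]
    nlinarith [two_mul_le_add_sq ‖p x‖ ‖q x‖]
  exact ⟨key h.memLp h'.memLp, key h.memLp' h'.memLp', key h.memLp h'.memLp'⟩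

lemma Orbital.conj {u u' : ℝ → ℂ} (h : Orbital u u') :
    Orbital (fun x => star (u x)) (fun x => star (u' x)) := by
  refine ⟨h.memLp.star, h.memLp'.star, fun a b => ?_⟩
  rw [← star_sub, h.ftc a b]
  exact (Complex.conjCLE.toContinuousLinearMap.intervalIntegral_comp_comm
    (h.intervalIntegrable a b)).symm

lemma isBoundState_solF : IsBoundState solW (-(1 / 4)) fun x => (solF x : ℂ) := by
  refine ⟨_, orbital_solF, fun η η' h => ?_⟩
  obtain ⟨i1, i2, i3⟩ := h.conj.integrable_mul orbital_solF
  have hW : Integrable fun x => (solW x : ℂ) * (star (η x) * (solF x : ℂ)) := by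
    refine (i1.norm.const_mul (3 / 4)).mono'
      ((Complex.continuous_ofReal.comp continuous_solW).aestronglyMeasurable.mul i1.1)
      (.of_forall fun x => ?_)
    rw [norm_mul, Complex.norm_real, Real.norm_eq_abs]
    refine mul_le_mul_of_nonneg_right ?_ (norm_nonneg _)
    rw [solW, abs_of_pos (by positivity)]
    exact div_le_self (by norm_num) (one_le_pow₀ (one_le_cosh x))
  have hg : Integrable fun x => star (η x) * ((1 / 4 * solF x - solW x * solF x : ℝ) : ℂ) :=
    ((i1.const_mul (1 / 4 : ℂ)).sub hW).congr (.of_forall fun x => by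
      simp only [Pi.sub_apply]; push_cast; ring)
  have h0 := h.conj.ibp_line hasDerivAt_solF'
    ((continuous_const.mul continuous_solF).sub (continuous_solW.mul continuous_solF)) i2 hg i3
  have e : ∫ x, star (η x) * ((1 / 4 * solF x - solW x * solF x : ℝ) : ℂ)
      = (1 / 4) * (∫ x, star (η x) * (solF x : ℂ))
        - ∫ x, (solW x : ℂ) * (star (η x) * (solF x : ℂ)) := by
    rw [← integral_const_mul, ← integral_sub (i1.const_mul _) hW]
    exact integral_congr_ae (.of_forall fun x => by push_cast; ring)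
  rw [e] at h0
  push_cast
  linear_combination h0

theorem lt1_mem_ratios : lt1 ∈ ratios 1 := by
  refine ⟨solW, potential_solW, ?_, 1, fun _ => -(1 / 4), fun _ x => (solF x : ℂ),
    fun _ => ⟨by norm_num, isBoundState_solF⟩, fun i j => ?_, ?_⟩
  · rw [integral_solW]; positivity
  · rw [Subsingleton.elim i j, if_pos rfl]
    have e : ∀ x, star (solF x : ℂ) * (solF x : ℂ) = ((π⁻¹ * (1 / cosh x) : ℝ) : ℂ) := fun x => by
      rw [Complex.star_def, Complex.conj_ofReal, ← Complex.ofReal_mul, ← sq, solF_sq]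
    rw [integral_congr_ae (.of_forall e), integral_complex_ofReal, integral_const_mul,
      sech_integral.2, inv_mul_cancel₀ pi_ne_zero, Complex.ofReal_one]
  · rw [integral_solW, lt1]
    norm_num
    field_simp
    ring

theorem isLUB_ratios_one : IsLUB (ratios 1) lt1 :=
  ⟨fun _ hr => ratios_one_le hr, fun _ hb => hb lt1_mem_ratios⟩

end Vale.Agent.P371
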